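import Crest.Agent.N111.C.Defs

-- ▼ part N111/C/Abs
section

/-!
# Row 111, module C: absolute values in the finite algebra `LA K`.
-/

set_option autoImplicit false

namespace Crest.Agent.N111.Cn

open MeasureTheory Topology Filter ContinuousLinearMap
open scoped InnerProductSpace ComplexConjugate ComplexOrder
open Crest.OperatorAlgebra

variable {K : Type} [Group K]

lemma exists_sqrt {H : Type} [NormedAddCommGroup H] [InnerProductSpace ℂ H] [CompleteSpace H]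
    {σ : URep K H} {A : H →L[ℂ] H} (hA : A ∈ σ.comm) (h0 : 0 ≤ A) :
    ∃ s ∈ σ.comm, 0 ≤ s ∧ s * s = A := by
  refine ⟨cfc Real.sqrt A, URep.cfc_mem_comm _ hA _, cfc_nonneg fun x _ => Real.sqrt_nonneg x, ?_⟩
  rw [← cfc_mul _ _ _ Real.continuous_sqrt.continuousOn Real.continuous_sqrt.continuousOn]
  conv_rhs => rw [← cfc_id' ℝ A (IsSelfAdjoint.of_nonneg h0)]
  exact cfc_congr fun x hx => Real.mul_self_sqrt (spectrum_nonneg_of_nonneg h0 hx)

omit [Group K] in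
lemma nstar (T : Op K) : ‖star T‖ = ‖T‖ := _root_.norm_star T

omit [Group K] in
lemma n1 : ‖(1 : Op K)‖ ≤ 1 := norm_id_le

lemma nhm {S T : Op K} (hS : S ∈ LA K) (hT : T ∈ LA K) : ‖S (T (dt 1))‖ ≤ ‖S (dt 1)‖ * ‖T‖ :=
  (norm_hat_mul_LA hS hT).trans_eq (mul_comm _ _)

/-- `ξ` is the regularised left absolute value of `a` -/
structure IsAbs (a ξ : Op K) (ε : ℝ) : Prop where
  mem : ξ ∈ LA K
  sa : star ξ = ξ
  sq : ξ * ξ = a * star a + (ε : ℂ) • 1
  root : ∃ q ∈ LA K, star q = q ∧ q * q = ξ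
  polar : ∃ v ∈ LA K, ‖v‖ ≤ 1 ∧ ξ * v = a

omit [Group K] in
lemma norm_sq_of_sq {a ξ : Op K} {ε : ℝ} (sa : star ξ = ξ) (sq : ξ * ξ = a * star a + (ε : ℂ) • 1)
    (u : Ell2 K) : ‖ξ u‖ ^ 2 = ‖star a u‖ ^ 2 + ε * ‖u‖ ^ 2 := by
  have h1 : ⟪ξ u, ξ u⟫_ℂ = ⟪star a u, star a u⟫_ℂ + ε * ⟪u, u⟫_ℂ := by
    conv_lhs => rw [← sa, star_eq_adjoint, adjoint_inner_left, ← star_eq_adjoint, sa,
      ← mul_apply_eq_comp, sq]
    rw [add_apply, inner_add_right, smul_apply, inner_smul_right, mul_apply_eq_comp,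
      star_eq_adjoint, adjoint_inner_left]
    rfl
  simp only [inner_self_eq_norm_sq_to_K] at h1
  have h2 := congrArg Complex.re h1
  simpa [← Complex.ofReal_pow] using h2

lemma exists_isAbs {a : Op K} (ha : a ∈ LA K) {ε : ℝ} (hε : 0 < ε) : ∃ ξ, IsAbs a ξ ε := by
  set A : Op K := a * star a + (ε : ℂ) • 1 with hA
  have hAm : A ∈ LA K := add_mem (mul_mem ha (star_mem ha)) (SMulMemClass.smul_mem _ (one_mem _))
  have hε' : (0 : ℂ) ≤ ε := by exact_mod_cast hε.le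
  have hA0 : 0 ≤ A := add_nonneg (mul_star_self_nonneg a) (smul_nonneg hε' zero_le_one)
  obtain ⟨ξ, hξ, hξ0, hξA⟩ := exists_sqrt hAm hA0
  obtain ⟨q, hq, hq0, hqξ⟩ := exists_sqrt hξ hξ0
  have sa : star ξ = ξ := IsSelfAdjoint.of_nonneg hξ0
  have hε0 : (ε : ℂ) ≠ 0 := by exact_mod_cast hε.ne'
  obtain ⟨r, hr1, hr2, -⟩ := exists_resolvent (S := (ε : ℂ)⁻¹ • (a * star a))
    (smul_nonneg (inv_nonneg.2 hε') (mul_star_self_nonneg a))
  have hA' : A = (ε : ℂ) • (1 + (ε : ℂ)⁻¹ • (a * star a)) := by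
    rw [smul_add, smul_smul, mul_inv_cancel₀ hε0, one_smul, add_comm]
  set i : Op K := (ε : ℂ)⁻¹ • r
  have h1 : i * A = 1 := by
    rw [hA', smul_mul_smul_comm, inv_mul_cancel₀ hε0, one_smul, hr1]
  have h2 : A * i = 1 := by
    rw [hA', smul_mul_smul_comm, mul_inv_cancel₀ hε0, one_smul, hr2]
  have hi : i ∈ LA K := fun g => by
    calc rho K g * i = i * A * rho K g * i := by rw [h1, one_mul]
      _ = i * rho K g * (A * i) := by rw [mul_assoc i, ← hAm g]; simp only [mul_assoc]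
      _ = _ := by rw [h2, mul_one]
  have h3 : ξ * (i * ξ) = 1 := by
    have : i * ξ = ξ * i := left_inv_eq_right_inv (a := ξ) (by rw [mul_assoc, hξA, h1])
      (by rw [← mul_assoc, hξA, h2])
    rw [this, ← mul_assoc, hξA, h2]
  refine ⟨ξ, hξ, sa, hξA, ⟨q, hq, IsSelfAdjoint.of_nonneg hq0, hqξ⟩,
    star (star a * (i * ξ)), star_mem (mul_mem (star_mem ha) (mul_mem hi hξ)), ?_, ?_⟩
  · rw [nstar]
    refine opNorm_le_bound _ zero_le_one fun η => ?_
    have h4 := norm_sq_of_sq sa hξA ((i * ξ) η)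
    rw [← mul_apply_eq_comp, h3, one_apply_eq_self] at h4
    rw [one_mul, mul_apply_eq_comp]
    refine (pow_le_pow_iff_left₀ (norm_nonneg _) (norm_nonneg _) two_ne_zero).1 ?_
    nlinarith [sq_nonneg ‖(i * ξ) η‖]
  · have h5 : star A = A := IsSelfAdjoint.of_nonneg hA0
    rw [star_mul, star_mul, star_star, sa, ← mul_assoc, ← mul_assoc, hξA, ← h5, ← star_mul, h1,
      star_one, one_mul]

lemma IsAbs.norm_hat_sq {a ξ : Op K} {ε : ℝ} (ha : a ∈ LA K) (h : IsAbs a ξ ε) :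
    ‖ξ (dt 1)‖ ^ 2 = ‖a (dt 1)‖ ^ 2 + ε := by
  rw [norm_sq_of_sq h.sa h.sq, norm_star_hat_LA ha]; simp

lemma norm_hat_mul3 {a b c : Op K} (hb : b ∈ LA K) (hc : c ∈ LA K) :
    ‖(a * b * c) (dt 1)‖ ≤ ‖a‖ * ‖b (dt 1)‖ * ‖c‖ := by
  rw [mul_assoc, mul_apply_eq_comp, mul_assoc]
  exact (le_opNorm _ _).trans (mul_le_mul_of_nonneg_left (nhm hb hc) (norm_nonneg _))

lemma norm_sq_sandwich {q q' W : Op K} (hq : q ∈ LA K) (hq' : q' ∈ LA K) (hW : W ∈ LA K)
    (sq : star q = q) (sq' : star q' = q') :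
    ‖(q' * W * q) (dt 1)‖ ^ 2 = (⟪(q' * q') (dt 1), (W * (q * q) * star W) (dt 1)⟫_ℂ).re := by
  have h1 := tau_star_mul_self (q' * W * q)
  rw [← tau_star_mul, ← Complex.ofReal_re (‖_‖ ^ 2), ← h1]
  simp only [star_mul, sq, sq']
  congr 1
  have := tau_mul_comm_LA (mul_mem hq (star_mem hW))
    (mul_mem (mul_mem (mul_mem hq' hq') hW) hq)
  simpa only [mul_assoc] using this

/-- **The absolute value inequality.** -/
theorem abs_ineq {a a' ξ ξ' W₁ W₂ : Op K} {ε : ℝ} (ha : a ∈ LA K) (ha' : a' ∈ LA K)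
    (h : IsAbs a ξ ε) (h' : IsAbs a' ξ' ε) (m₁ : W₁ ∈ LA K) (m₂ : W₂ ∈ LA K) (n₁ : ‖W₁‖ ≤ 1)
    (n₂ : ‖W₂‖ ≤ 1) :
    ‖ξ' (dt 1) - (W₁ * ξ * star W₁) (dt 1)‖ ^ 2 ≤ 2 * ‖a (dt 1)‖ ^ 2 + 2 * ‖a' (dt 1)‖ ^ 2 + 4 * ε
      - 4 * (⟪a' (dt 1), (W₁ * a * star W₂) (dt 1)⟫_ℂ).re := by
  obtain ⟨q, hq, sq, hqq⟩ := h.root
  obtain ⟨q', hq', sq', hqq'⟩ := h'.root
  obtain ⟨v, hv, nv, hva⟩ := h.polar
  obtain ⟨v', hv', nv', hva'⟩ := h'.polar
  set U : Op K := v * star W₂ * star v' with hU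
  have hUm : U ∈ LA K := mul_mem (mul_mem hv (star_mem m₂)) (star_mem hv')
  have nU : ‖U‖ ≤ 1 := by
    refine (norm_mul_le _ _).trans (mul_le_one₀ ((norm_mul_le _ _).trans
      (mul_le_one₀ nv (norm_nonneg _) ?_)) (norm_nonneg _) ?_) <;> rwa [nstar]
  have e1 : ⟪a' (dt 1), (W₁ * a * star W₂) (dt 1)⟫_ℂ
      = ⟪star (q' * W₁ * q) (dt 1), (q * U * q') (dt 1)⟫_ℂ := by
    rw [← tau_star_mul, ← tau_star_mul, star_star, ← hva, ← hva', ← hqq, ← hqq', hU]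
    simp only [star_mul, sq']
    have := tau_mul_comm_LA (mul_mem (star_mem hv') hq')
      (mul_mem (mul_mem (mul_mem (mul_mem (mul_mem hq' m₁) hq) hq) hv) (star_mem m₂))
    simpa only [mul_assoc] using this
  have e2 := norm_sq_sandwich hq hq' m₁ sq sq'
  have e3 := norm_sq_sandwich hq' hq hUm sq' sq
  rw [hqq, hqq'] at e2 e3
  have e4 : (⟪a' (dt 1), (W₁ * a * star W₂) (dt 1)⟫_ℂ).re
      ≤ ‖(q' * W₁ * q) (dt 1)‖ * ‖(q * U * q') (dt 1)‖ := by
    rw [e1, ← norm_star_hat_LA (mul_mem (mul_mem hq' m₁) hq)]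
    exact (Complex.re_le_norm _).trans (norm_inner_le_norm _ _)
  have hc : ∀ {W x : Op K}, W ∈ LA K → x ∈ LA K → ‖W‖ ≤ 1 →
      ‖(W * x * star W) (dt 1)‖ ≤ ‖x (dt 1)‖ := fun {W x} hW hx nW => by
    refine (norm_hat_mul3 hx (star_mem hW)).trans ?_
    rw [nstar]
    exact (mul_le_of_le_one_right (by positivity) nW).trans
      (mul_le_of_le_one_left (norm_nonneg _) nW)
  have e5 : ‖(q * U * q') (dt 1)‖ ^ 2 ≤ ‖ξ (dt 1)‖ * ‖ξ' (dt 1)‖ := by
    rw [e3]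
    exact (Complex.re_le_norm _).trans ((norm_inner_le_norm _ _).trans
      (mul_le_mul_of_nonneg_left (hc hUm h'.mem nU) (norm_nonneg _)))
  have e6 := pow_le_pow_left₀ (norm_nonneg _) (hc m₁ h.mem n₁) 2
  have e7 := h.norm_hat_sq ha
  have e8 := h'.norm_hat_sq ha'
  rw [@norm_sub_sq ℂ, RCLike.re_to_complex, ← e2]
  nlinarith [sq_nonneg (‖(q' * W₁ * q) (dt 1)‖ - ‖(q * U * q') (dt 1)‖),
    sq_nonneg (‖ξ (dt 1)‖ - ‖ξ' (dt 1)‖)]

/-- commutator norm -/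
noncomputable def cn (M z : Op K) : ℝ := ‖M * z - z * M‖

omit [Group K] in
lemma cn_nonneg (M z : Op K) : 0 ≤ cn M z := norm_nonneg _

omit [Group K] in
lemma cn_sub (M z z' : Op K) : cn M (z - z') ≤ cn M z + cn M z' := by
  rw [cn, show M * (z - z') - (z - z') * M = (M * z - z * M) - (M * z' - z' * M) by noncomm_ring]
  exact norm_sub_le _ _

omit [Group K] in
lemma cn_add (M z z' : Op K) : cn M (z + z') ≤ cn M z + cn M z' := by
  rw [cn, show M * (z + z') - (z + z') * M = (M * z - z * M) + (M * z' - z' * M) by noncomm_ring]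
  exact norm_add_le _ _

omit [Group K] in
lemma cn_smul (M z : Op K) (c : ℂ) : cn M (c • z) = ‖c‖ * cn M z := by
  rw [cn, mul_smul_comm, smul_mul_assoc, ← smul_sub, norm_smul, cn]

omit [Group K] in
lemma cn_mul (M z z' : Op K) : cn M (z * z') ≤ cn M z * ‖z'‖ + ‖z‖ * cn M z' := by
  rw [cn, show M * (z * z') - z * z' * M = (M * z - z * M) * z' + z * (M * z' - z' * M) by
    noncomm_ring]
  exact (norm_add_le _ _).trans (add_le_add (norm_mul_le _ _) (norm_mul_le _ _))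

omit [Group K] in
lemma cn_apply (M z : Op K) (u : Ell2 K) : ‖z (M u) - M (z u)‖ ≤ cn M z * ‖u‖ := by
  rw [norm_sub_rev]
  exact le_opNorm (M * z - z * M) u

omit [Group K] in
lemma cn_le (M z : Op K) (hM : ‖M‖ ≤ 1) (hz : ‖z‖ ≤ 1) : cn M z ≤ 2 := by
  have h1 := (norm_mul_le M z).trans (mul_le_one₀ hM (norm_nonneg _) hz)
  have h2 := (norm_mul_le z M).trans (mul_le_one₀ hz (norm_nonneg _) hM)
  linarith [norm_sub_le (M * z) (z * M), show cn M z = ‖M * z - z * M‖ from rfl]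

/-- vectors that are bounded up to commutators with `M` -/
structure BN (M : Op K) (ζ : Ell2 K) : Prop where
  L : ∀ z ∈ LA K, ‖z ζ‖ ≤ 2 * ‖z (dt 1)‖ + cn M z
  R : ∀ z ∈ LA K, ‖Rm z ζ‖ ≤ 2 * ‖z (dt 1)‖ + cn M (star z)

theorem IsAbs.bn {a ξ y M : Op K} {ε : ℝ} (ha : a ∈ LA K) (h : IsAbs a ξ ε) (hε : ε ≤ 1)
    (hy : y ∈ LA K) (ny : ‖y‖ ≤ 1) (nM : ‖M‖ ≤ 1) (hM : a (dt 1) = M (y (dt 1))) :
    BN M (ξ (dt 1)) := by
  have key : ∀ z ∈ LA K, ‖ξ (star z (dt 1))‖ ≤ 2 * ‖z (dt 1)‖ + cn M z := fun z hz => by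
    have h1 := norm_sq_of_sq h.sa h.sq (star z (dt 1))
    rw [← mul_apply_eq_comp (star a), ← star_mul, norm_star_hat_LA (mul_mem hz ha),
      norm_star_hat_LA hz, mul_apply_eq_comp, hM] at h1
    have h2 : ‖M (z (y (dt 1)))‖ ≤ ‖z (dt 1)‖ :=
      ((M.le_of_opNorm_le nM _).trans_eq (one_mul _)).trans
        ((nhm hz hy).trans (mul_le_of_le_one_right (norm_nonneg _) ny))
    have h3 : ‖z (M (y (dt 1))) - M (z (y (dt 1)))‖ ≤ cn M z := (cn_apply M z _).trans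
      (mul_le_of_le_one_right (cn_nonneg _ _) ((norm_hat_le y).trans ny))
    have h4 : ‖z (M (y (dt 1)))‖ ≤ ‖z (dt 1)‖ + cn M z := by
      linarith [norm_le_norm_add_norm_sub' (z (M (y (dt 1)))) (M (z (y (dt 1))))]
    have h5 := pow_le_pow_left₀ (norm_nonneg _) h4 2
    have h6 := cn_nonneg M z
    have h7 := norm_nonneg (z (dt 1))
    refine (pow_le_pow_iff_left₀ (norm_nonneg _) (by positivity) two_ne_zero).1 ?_
    nlinarith [mul_nonneg h6 h7, sq_nonneg ‖z (dt 1)‖]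
  refine ⟨fun z hz => ?_, fun z hz => ?_⟩
  · rw [← mul_apply_eq_comp, ← norm_star_hat_LA (mul_mem hz h.mem), star_mul, h.sa]
    exact key z hz
  · rw [Rm_apply_LA hz h.mem, ← norm_star_hat_LA hz]
    simpa using key _ (star_mem hz)

/-- trace form of the concentration of an absolute value -/
theorem IsAbs.tau_le {a ξ p X : Op K} {ε : ℝ} (h : IsAbs a ξ ε) (hε : 0 ≤ ε) (hp : p ∈ LA K)
    (pp : p * p = p) (np : ‖p‖ ≤ 1) (hX : X ∈ LA K) (c : ℂ) :
    ‖tau (X * (a * star a)) - c ^ 2 * tau (X * p)‖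
      ≤ ‖X‖ * ((‖ξ (dt 1)‖ + ‖c‖) * ‖ξ (dt 1) - c • p (dt 1)‖ + ε) := by
  set d : Op K := ξ - c • p with hd
  have hdm : d ∈ LA K := sub_mem h.mem (SMulMemClass.smul_mem _ hp)
  have e : X * (a * star a) - c ^ 2 • (X * p) = X * d * ξ + c • (X * p * d) - (ε : ℂ) • X := by
    have : a * star a = ξ * ξ - (ε : ℂ) • 1 := by rw [h.sq, add_sub_cancel_right]
    rw [this, hd]
    simp only [mul_sub, sub_mul, mul_smul_comm, smul_mul_assoc, smul_sub, smul_smul, mul_assoc, pp,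
      mul_one, pow_two]
    abel
  have e1 : ‖tau (X * d * ξ)‖ ≤ ‖X‖ * (‖ξ (dt 1)‖ * ‖d (dt 1)‖) := by
    rw [tau_mul_comm_LA (mul_mem hX hdm) h.mem, ← h.sa, tau_star_mul, h.sa]
    refine (norm_inner_le_norm _ _).trans ?_
    have := le_opNorm X (d (dt 1))
    rw [mul_apply_eq_comp]
    nlinarith [norm_nonneg (ξ (dt 1))]
  have e2 : ‖tau (X * p * d)‖ ≤ ‖X‖ * ‖d (dt 1)‖ := by
    refine (norm_tau_le _).trans ((le_opNorm (X * p) _).trans ?_)
    exact mul_le_mul_of_nonneg_right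
      ((norm_mul_le _ _).trans (mul_le_of_le_one_right (norm_nonneg _) np)) (norm_nonneg _)
  have e3 : ‖tau X‖ ≤ ‖X‖ := (norm_tau_le _).trans (norm_hat_le _)
  rw [← tau_smul, ← tau_sub, e, tau_sub, tau_add, tau_smul, tau_smul]
  refine (norm_sub_le _ _).trans ((add_le_add (norm_add_le _ _) le_rfl).trans ?_)
  rw [norm_mul, norm_mul, Complex.norm_real, Real.norm_of_nonneg hε,
    show ξ (dt 1) - c • p (dt 1) = d (dt 1) from rfl]
  nlinarith [norm_nonneg c, mul_le_mul_of_nonneg_left e2 (norm_nonneg c),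
    mul_le_mul_of_nonneg_left e3 hε]

/-- the `L²` norm of `g` is controlled by a trace against a bounded operator -/
theorem IsAbs.norm_sq_le {g ξ p y u : Op K} {ε η : ℝ} (hg : g ∈ LA K) (h : IsAbs g ξ ε)
    (hε : 0 ≤ ε) (hp : p ∈ LA K) (sp : star p = p) (np : ‖p‖ ≤ 1) (hy : y ∈ LA K) (ny : ‖y‖ ≤ 1)
    (hyy : star y * y = p) (hu : u ∈ LA K) (ng : ‖g (dt 1)‖ ≤ 1) (hη : 0 < η) (c : ℂ) :
    ∃ X ∈ LA K, ‖X‖ ≤ η⁻¹ ∧ ‖g (dt 1)‖ ^ 2 ≤ ‖tau (X * (g * star y))‖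
      + 2 * ‖ξ (dt 1) - c • p (dt 1)‖ + ‖c‖ * η + ‖g (dt 1) - Rm u (g (dt 1))‖
      + η⁻¹ * ‖(u - p) (dt 1)‖ := by
  have hη2 : (0 : ℂ) ≤ (η ^ 2 : ℝ) := by exact_mod_cast sq_nonneg η
  set T : Op K := ((η ^ 2 : ℝ) : ℂ) • (g * star g) with hT
  have hT0 : 0 ≤ T := smul_nonneg hη2 (mul_star_self_nonneg g)
  have hTm : T ∈ LA K := SMulMemClass.smul_mem _ (mul_mem hg (star_mem hg))
  obtain ⟨s, hs1, hs2, ns, ns2, -⟩ := exists_resolvent hT0
  have h1T : 1 + T ∈ LA K := add_mem (one_mem _) hTm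
  have hsm : s ∈ LA K := fun k => by
    calc rho K k * s = s * (1 + T) * rho K k * s := by rw [hs1, one_mul]
      _ = s * rho K k * ((1 + T) * s) := by rw [mul_assoc s, ← h1T k]; simp only [mul_assoc]
      _ = _ := by rw [hs2, mul_one]
  have ss : star s = s := by
    have h2 : star (1 + T) = 1 + T := by rw [star_add, star_one, IsSelfAdjoint.of_nonneg hT0]
    refine left_inv_eq_right_inv (a := 1 + T) ?_ hs2
    rw [← h2, ← star_mul, hs2, star_one]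
  have nS : ‖s‖ ≤ 1 := opNorm_le_bound _ zero_le_one fun v => by simpa using ns v
  have nb : ‖s * g‖ ≤ η⁻¹ := by
    rw [← nstar, star_mul, ss]
    refine opNorm_le_bound _ (by positivity) fun v => ?_
    have h2 := ns2 v
    rw [hT, smul_apply, inner_smul_right, mul_apply_eq_comp, ← adjoint_inner_left,
      ← star_eq_adjoint, inner_self_eq_norm_sq_to_K] at h2
    have h3 : η ^ 2 * ‖star g (s v)‖ ^ 2 ≤ ‖v‖ ^ 2 := by
      simpa [← Complex.ofReal_pow] using h2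
    rw [mul_apply_eq_comp, ← div_eq_inv_mul, le_div_iff₀ hη]
    refine (pow_le_pow_iff_left₀ (by positivity) (norm_nonneg _) two_ne_zero).1 ?_
    rw [mul_pow, mul_comm]; exact h3
  set r : Op K := 1 - s with hr
  have hrm : r ∈ LA K := sub_mem (one_mem _) hsm
  have sr : star r = r := by rw [hr, star_sub, star_one, ss]
  have nr : ‖r‖ ≤ 2 := (norm_sub_le _ _).trans (by linarith [n1 (K := K)])
  have nr2 : ‖r (dt 1)‖ ≤ η := by
    have h2 : r = ((η ^ 2 : ℝ) : ℂ) • (s * g * star g) := by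
      rw [hr, ← hs1, mul_add, mul_one, add_sub_cancel_left, hT, mul_smul_comm, mul_assoc]
    rw [h2, smul_apply, norm_smul, Complex.norm_real, Real.norm_of_nonneg (sq_nonneg η),
      mul_apply_eq_comp]
    have h3 := (s * g).le_of_opNorm_le nb (star g (dt 1))
    rw [norm_star_hat_LA hg] at h3
    calc _ ≤ η ^ 2 * (η⁻¹ * 1) := by gcongr; exact h3.trans (by gcongr)
      _ = η := by field_simp
  have e1 : ‖r (g (dt 1))‖ ≤ 2 * ‖ξ (dt 1) - c • p (dt 1)‖ + ‖c‖ * η := by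
    have h2 : ‖r (g (dt 1))‖ ≤ ‖r (ξ (dt 1))‖ := by
      rw [← mul_apply_eq_comp, ← mul_apply_eq_comp, ← norm_star_hat_LA (mul_mem hrm hg),
        ← norm_star_hat_LA (mul_mem hrm h.mem), star_mul, star_mul, sr, h.sa, mul_apply_eq_comp,
        mul_apply_eq_comp]
      refine (pow_le_pow_iff_left₀ (norm_nonneg _) (norm_nonneg _) two_ne_zero).1 ?_
      rw [norm_sq_of_sq h.sa h.sq]
      exact le_add_of_nonneg_right (by positivity)
    have h3 : r (ξ (dt 1)) = r (ξ (dt 1) - c • p (dt 1)) + c • r (p (dt 1)) := by simp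
    have h4 : ‖r (p (dt 1))‖ ≤ η :=
      (nhm hrm hp).trans ((mul_le_of_le_one_right (norm_nonneg _) np).trans nr2)
    rw [h3] at h2
    refine h2.trans ((norm_add_le _ _).trans (add_le_add (r.le_of_opNorm_le nr _) ?_))
    rw [norm_smul]
    exact mul_le_mul_of_nonneg_left h4 (norm_nonneg _)
  set b : Op K := s * g with hb
  have hbm : b ∈ LA K := mul_mem hsm hg
  refine ⟨y * star b, mul_mem hy (star_mem hbm), (norm_mul_le _ _).trans
    ((mul_le_of_le_one_left (norm_nonneg _) ny).trans (by rwa [nstar])), ?_⟩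
  have e2 : tau (y * star b * (g * star y)) = ⟪b (p (dt 1)), g (dt 1)⟫_ℂ := by
    rw [← mul_apply_eq_comp, ← tau_star_mul, star_mul b p, sp, ← hyy]
    have := tau_mul_comm_LA (mul_mem (mul_mem hy (star_mem hbm)) hg) (star_mem hy)
    simpa only [mul_assoc] using this
  have e3 : (‖g (dt 1)‖ : ℂ) ^ 2 = ⟪b (p (dt 1)), g (dt 1)⟫_ℂ + ⟪r (g (dt 1)), g (dt 1)⟫_ℂ
      + ⟪b (dt 1), g (dt 1) - Rm u (g (dt 1))⟫_ℂ + ⟪b (star (u - p) (dt 1)), g (dt 1)⟫_ℂ := by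
    have h2 : ⟪b (dt 1), Rm u (g (dt 1))⟫_ℂ = ⟪b (star u (dt 1)), g (dt 1)⟫_ℂ := by
      rw [← Rm_apply_LA (star_mem hu) hbm, Rm_star, star_eq_adjoint, adjoint_inner_left]
    have h3 : r (g (dt 1)) = g (dt 1) - b (dt 1) := rfl
    have h4 : b (star (u - p) (dt 1)) = b (star u (dt 1)) - b (p (dt 1)) := by
      rw [star_sub, sp, ← map_sub]; rfl
    rw [inner_sub_right, h2, h3, h4, inner_sub_left, inner_sub_left, inner_self_eq_norm_sq_to_K]
    simp only [Complex.coe_algebraMap]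
    ring
  have e4 : ‖b (dt 1)‖ ≤ 1 := ((s.le_of_opNorm_le nS _).trans_eq (one_mul _)).trans ng
  have e5 : ‖b (star (u - p) (dt 1))‖ ≤ η⁻¹ * ‖(u - p) (dt 1)‖ := by
    rw [← norm_star_hat_LA (sub_mem hu hp)]; exact b.le_of_opNorm_le nb _
  have e6 : ∀ v : Ell2 K, ‖⟪v, g (dt 1)⟫_ℂ‖ ≤ ‖v‖ := fun v =>
    (norm_inner_le_norm _ _).trans (mul_le_of_le_one_right (norm_nonneg _) ng)
  have e7 : ‖⟪b (dt 1), g (dt 1) - Rm u (g (dt 1))⟫_ℂ‖ ≤ ‖g (dt 1) - Rm u (g (dt 1))‖ :=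
    (norm_inner_le_norm _ _).trans (mul_le_of_le_one_left (norm_nonneg _) e4)
  have e8 : ‖g (dt 1)‖ ^ 2 = ‖(‖g (dt 1)‖ : ℂ) ^ 2‖ := by simp
  rw [e8, e3, e2]
  refine (norm_add_le _ _).trans ((add_le_add norm_add₃_le le_rfl).trans ?_)
  linarith [e6 (r (g (dt 1))), e6 (b (star (u - p) (dt 1)))]

end Crest.Agent.N111.Cn
end

-- ▼ part N111/C/Ap

/-!
# Row 111, module C: admissible approximants, function form of the engine.
-/

set_option autoImplicit false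

namespace Crest.Agent.N111.Cn

open MeasureTheory Topology Filter ContinuousLinearMap
open scoped InnerProductSpace ComplexConjugate
open Crest.OperatorAlgebra

/-- diagonal sequences -/
theorem exists_diag {S : Type} [Countable S] [Nonempty S] {f : ℕ → ℕ → S → ℝ}
    (h : ∀ t s, Tendsto (fun n => f n t s) atTop (𝓝 0)) :
    ∃ t : ℕ → ℕ, Tendsto t atTop atTop ∧ ∀ s, Tendsto (fun n => f n (t n) s) atTop (𝓝 0) := by
  classical
  obtain ⟨e, he⟩ := exists_surjective_nat S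
  have h1 : ∀ t : ℕ, ∃ N, ∀ n ≥ N, ∀ j ∈ Finset.range (t + 1), |f n t (e j)| ≤ 1 / ((t : ℝ) + 1) :=
    fun t => eventually_atTop.1 ((Finset.eventually_all _).2 fun j _ =>
      (show Tendsto (fun n => |f n t (e j)|) atTop (𝓝 0) by simpa using (h t (e j)).abs).eventually
        (ge_mem_nhds Nat.one_div_pos_of_nat))
  choose N hN using h1
  let t : ℕ → ℕ := fun n => Nat.findGreatest (fun t => N t ≤ n) n
  have ht : Tendsto t atTop atTop := tendsto_atTop.2 fun T => by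
    filter_upwards [eventually_ge_atTop T, eventually_ge_atTop (N T)] with n h1 h2
    exact Nat.le_findGreatest h1 h2
  refine ⟨t, ht, fun s => ?_⟩
  obtain ⟨j, rfl⟩ := he s
  refine squeeze_zero_norm' ?_ (tendsto_one_div_add_atTop_nhds_zero_nat.comp ht)
  filter_upwards [eventually_ge_atTop (N 0), ht.eventually (eventually_ge_atTop j)] with n h1 h2
  exact hN _ n (Nat.findGreatest_spec (P := fun t => N t ≤ n) (Nat.zero_le n) h1) j
    (Finset.mem_range.2 (Nat.lt_succ_of_le h2))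

variable {K : Type} [Group K]

lemma slow_lam {Φ : ℕ → K → ℂ} (hb : ∀ n g, ‖Φ n g‖ ≤ 1) (h : Slow Φ) {z : Op K}
    (hz : z ∈ (lam K).span) : Tendsto (fun n => cn (mulOp (Φ n)) z) atTop (𝓝 0) := by
  refine URep.span_induction (p := fun z => Tendsto (fun n => cn (mulOp (Φ n)) z) atTop (𝓝 0))
    (by simp [cn]) (fun s => ?_) (fun S T hS hT => ?_) (fun c S hS => ?_) hz
  · refine tendsto_order.2 ⟨fun a ha => Eventually.of_forall fun n => ha.trans_le (cn_nonneg _ _),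
      fun a ha => (h s _ (half_pos ha)).mono fun n hn => lt_of_le_of_lt ?_ (half_lt_self ha)⟩
    have hB : Bdd (Φ n) := ⟨1, hb n⟩
    refine opNorm_le_bound _ (half_pos ha).le fun v => ?_
    rw [← (lam K).norm_map s v]
    refine norm_le_of_apply_le (half_pos ha).le fun g => ?_
    have := (hn (s⁻¹ * g)).1
    rw [mul_inv_cancel_left] at this
    simp only [sub_apply, mul_apply_eq_comp, l2_sub_apply, hB.mulOp_apply, lam_apply]
    rw [← sub_mul, norm_mul]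
    gcongr
  · exact squeeze_zero (fun _ => cn_nonneg _ _) (fun _ => cn_add _ _ _) (by simpa using hS.add hT)
  · simpa only [cn_smul, mul_zero] using hS.const_mul ‖c‖

lemma slow_Rm {Φ : ℕ → K → ℂ} (hb : ∀ n g, ‖Φ n g‖ ≤ 1) (h : Slow Φ) {z : Op K}
    (hz : z ∈ (lam K).span) : Tendsto (fun n => cn (mulOp (Φ n)) (Rm z)) atTop (𝓝 0) := by
  refine URep.span_induction (p := fun z => Tendsto (fun n => cn (mulOp (Φ n)) (Rm z)) atTop (𝓝 0))
    (by simp [cn]) (fun s => ?_) (fun S T hS hT => ?_) (fun c S hS => ?_) hz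
  · refine tendsto_order.2 ⟨fun a ha => Eventually.of_forall fun n => ha.trans_le (cn_nonneg _ _),
      fun a ha => (h s _ (half_pos ha)).mono fun n hn => lt_of_le_of_lt ?_ (half_lt_self ha)⟩
    have hB : Bdd (Φ n) := ⟨1, hb n⟩
    rw [Rm_lam]
    refine opNorm_le_bound _ (half_pos ha).le fun v => ?_
    rw [← (rho K).norm_map s⁻¹ v]
    refine norm_le_of_apply_le (half_pos ha).le fun g => ?_
    have := (hn (g * s⁻¹)).2
    rw [inv_mul_cancel_right] at this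
    simp only [sub_apply, mul_apply_eq_comp, l2_sub_apply, hB.mulOp_apply, rho_apply]
    rw [← sub_mul, norm_mul]
    gcongr
  · rw [Rm_add]
    exact squeeze_zero (fun _ => cn_nonneg _ _) (fun _ => cn_add _ _ _) (by simpa using hS.add hT)
  · simpa only [Rm_smul, cn_smul, mul_zero] using hS.const_mul ‖c‖

/-- `z n` is an admissible approximation of `T` -/
structure Ap (M z : ℕ → Op K) (T : Op K) : Prop where
  mem : ∀ n, z n ∈ LA K
  memT : T ∈ LA K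
  bdd : ∃ C, ∀ n, ‖z n‖ ≤ C
  c1 : Tendsto (fun n => cn (M n) (z n)) atTop (𝓝 0)
  c2 : Tendsto (fun n => cn (M n) (star (z n))) atTop (𝓝 0)
  lim : Tendsto (fun n => ‖(z n - T) (dt 1)‖) atTop (𝓝 0)

variable {M z z' : ℕ → Op K} {T T' : Op K}

lemma Ap.const {Φ : ℕ → K → ℂ} (hb : ∀ n g, ‖Φ n g‖ ≤ 1) (h : Slow Φ) (hT : T ∈ (lam K).span) :
    Ap (fun n => mulOp (Φ n)) (fun _ => T) T :=
  ⟨fun _ => span_lam_le hT, span_lam_le hT, ⟨_, fun _ => le_rfl⟩, slow_lam hb h hT,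
    slow_lam hb h (star_mem hT), by simp⟩

lemma Ap.adj (h : Ap M z T) : Ap M (fun n => star (z n)) (star T) := by
  refine ⟨fun n => star_mem (h.mem n), star_mem h.memT,
    h.bdd.imp fun C hC n => by rw [nstar]; exact hC n, h.c2, by simpa using h.c1, ?_⟩
  simpa only [← star_sub, norm_star_hat_LA (sub_mem (h.mem _) h.memT)] using h.lim

omit [Group K] in
lemma tendsto_cn_mul {C C' : ℝ} (hC : ∀ n, ‖z n‖ ≤ C) (hC' : ∀ n, ‖z' n‖ ≤ C')
    (h : Tendsto (fun n => cn (M n) (z n)) atTop (𝓝 0))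
    (h' : Tendsto (fun n => cn (M n) (z' n)) atTop (𝓝 0)) :
    Tendsto (fun n => cn (M n) (z n * z' n)) atTop (𝓝 0) := by
  refine squeeze_zero (fun _ => cn_nonneg _ _) (fun n => (cn_mul _ _ _).trans (add_le_add
    (mul_le_mul_of_nonneg_left (hC' n) (cn_nonneg _ _))
    (mul_le_mul_of_nonneg_right (hC n) (cn_nonneg _ _)))) ?_
  simpa using (h.mul_const C').add (h'.const_mul C)

lemma Ap.mul (h : Ap M z T) (h' : Ap M z' T') : Ap M (fun n => z n * z' n) (T * T') := by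
  obtain ⟨C, hC⟩ := h.bdd
  obtain ⟨C', hC'⟩ := h'.bdd
  refine ⟨fun n => mul_mem (h.mem n) (h'.mem n), mul_mem h.memT h'.memT,
    ⟨C * C', fun n => (norm_mul_le _ _).trans
      (mul_le_mul (hC n) (hC' n) (norm_nonneg _) ((norm_nonneg _).trans (hC n)))⟩,
    tendsto_cn_mul hC hC' h.c1 h'.c1, ?_, ?_⟩
  · simp only [star_mul]
    exact tendsto_cn_mul (fun n => by rw [nstar]; exact hC' n) (fun n => by rw [nstar]; exact hC n)
      h'.c2 h.c2
  · refine squeeze_zero (fun _ => norm_nonneg _) (fun n => ?_)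
      (by simpa using (h'.lim.const_mul C).add (h.lim.mul_const ‖T'‖))
    rw [show z n * z' n - T * T' = z n * (z' n - T') + (z n - T) * T' by noncomm_ring, add_apply,
      mul_apply_eq_comp, mul_apply_eq_comp]
    exact (norm_add_le _ _).trans (add_le_add ((z n).le_of_opNorm_le (hC n) _)
      (nhm (sub_mem (h.mem n) h.memT) h'.memT))

lemma Ap.hat (h : Ap M z T) (h' : Ap M z' T') {ε : ℝ} (hε : 0 < ε) :
    ∀ᶠ n in atTop, ‖(z n - z' n) (dt 1)‖ ≤ ‖(T - T') (dt 1)‖ + ε := by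
  filter_upwards [h.lim.eventually (ge_mem_nhds (half_pos hε)),
    h'.lim.eventually (ge_mem_nhds (half_pos hε))] with n h1 h2
  rw [show z n - z' n = (T - T') + (z n - T) - (z' n - T') by abel, sub_apply, add_apply]
  linarith [norm_sub_le ((T - T') (dt 1) + (z n - T) (dt 1)) ((z' n - T') (dt 1)),
    norm_add_le ((T - T') (dt 1)) ((z n - T) (dt 1))]

/-- admissible approximants act alike on `BN` vectors -/
theorem Ap.close (h : Ap M z T) (h' : Ap M z' T') {ε : ℝ} (hε : 0 < ε) :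
    ∀ᶠ n in atTop, ∀ ζ, BN (M n) ζ → ‖z n ζ - z' n ζ‖ ≤ 2 * ‖(T - T') (dt 1)‖ + ε ∧
      ‖Rm (z n) ζ - Rm (z' n) ζ‖ ≤ 2 * ‖(T - T') (dt 1)‖ + ε := by
  have h4 : 0 < ε / 4 := by positivity
  filter_upwards [h.hat h' h4, h.c1.eventually (ge_mem_nhds h4), h'.c1.eventually (ge_mem_nhds h4),
    h.c2.eventually (ge_mem_nhds h4), h'.c2.eventually (ge_mem_nhds h4)] with n a1 a2 a3 a4 a5 ζ hζ
  have b1 := hζ.L _ (sub_mem (h.mem n) (h'.mem n))
  have b2 := hζ.R _ (sub_mem (h.mem n) (h'.mem n))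
  rw [Rm_sub, star_sub] at b2
  exact ⟨b1.trans (by linarith [cn_sub (M n) (z n) (z' n)]),
    b2.trans (by linarith [cn_sub (M n) (star (z n)) (star (z' n))])⟩

theorem Ap.close' (h : Ap M z T) (h' : Ap M z' T) {ζ : ℕ → Ell2 K} (hζ : ∀ n, BN (M n) (ζ n)) :
    Tendsto (fun n => ‖z n (ζ n) - z' n (ζ n)‖) atTop (𝓝 0) ∧
      Tendsto (fun n => ‖Rm (z n) (ζ n) - Rm (z' n) (ζ n)‖) atTop (𝓝 0) := by
  constructor <;> refine tendsto_order.2 ⟨fun a ha => Eventually.of_forall fun n =>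
    ha.trans_le (norm_nonneg _), fun a ha => (h.close h' (half_pos ha)).mono fun n hn => ?_⟩
  · simpa using (hn _ (hζ n)).1.trans_lt (by simpa)
  · simpa using (hn _ (hζ n)).2.trans_lt (by simpa)

theorem exists_ap {Φ : ℕ → K → ℂ} (hb : ∀ n g, ‖Φ n g‖ ≤ 1) (h : Slow Φ) {w : Γ → Op K}
    (hw : ∀ γ, w γ ∈ LA K) (nw : ∀ γ, ‖w γ‖ ≤ 1) : ∃ W : ℕ → Γ → Op K, (∀ n γ, ‖W n γ‖ ≤ 1) ∧
      (∀ γ, Ap (fun n => mulOp (Φ n)) (fun n => W n γ) (w γ)) ∧
      ∀ γ, Tendsto (fun n => cn (mulOp (Φ n)) (Rm (star (W n γ)))) atTop (𝓝 0) := by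
  choose u hu nu lu using fun (t : ℕ) γ =>
    exists_span_contraction (hw γ) (nw γ) (Nat.one_div_pos_of_nat (n := t))
  obtain ⟨t, ht, hd⟩ := exists_diag (f := fun n t γ => cn (mulOp (Φ n)) (u t γ)
    + cn (mulOp (Φ n)) (star (u t γ)) + cn (mulOp (Φ n)) (Rm (star (u t γ)))) fun t γ => by
      simpa using ((slow_lam hb h (hu t γ)).add (slow_lam hb h (star_mem (hu t γ)))).add
        (slow_Rm hb h (star_mem (hu t γ)))
  refine ⟨fun n γ => u (t n) γ, fun n γ => nu _ _, fun γ => ⟨fun n => span_lam_le (hu _ _), hw γ,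
    ⟨1, fun n => nu _ _⟩, ?_, ?_, squeeze_zero (fun _ => norm_nonneg _) (fun n => (lu _ _).le)
      (tendsto_one_div_add_atTop_nhds_zero_nat.comp ht)⟩, fun γ => ?_⟩ <;>
    refine squeeze_zero (fun _ => cn_nonneg _ _) (fun n => ?_) (hd γ) <;>
    linarith [cn_nonneg (mulOp (Φ n)) (u (t n) γ), cn_nonneg (mulOp (Φ n)) (star (u (t n) γ)),
      cn_nonneg (mulOp (Φ n)) (Rm (star (u (t n) γ)))]

/-! ### fields -/

lemma sm_comp {E S Y : Type*} [TopologicalSpace E] [Countable S] [MeasurableSpace S]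
    [DiscreteMeasurableSpace S] [MeasurableSpace Y] {c : Y → S} (hc : Measurable c) (f : S → E) :
    StronglyMeasurable fun x => f (c x) :=
  (StronglyMeasurable.of_discrete (f := f)).comp_measurable hc

lemma intg {E S : Type*} [NormedAddCommGroup E] [Countable S] [MeasurableSpace S]
    [DiscreteMeasurableSpace S] {c : X → S} (hc : Measurable c) {f : S → E} {C : ℝ}
    (hf : ∀ s, ‖f s‖ ≤ C) : Integrable (fun x => f (c x)) μ :=
  Integrable.of_bound (sm_comp hc f).aestronglyMeasurable C (Eventually.of_forall fun _ => hf _)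

lemma BN.integral {N : Op K} {v : X → Ell2 K} (hv : Integrable v μ)
    (h : ∀ x, BN N (v x)) : BN N (∫ x, v x ∂μ) := by
  refine ⟨fun z hz => ?_, fun z hz => ?_⟩ <;> rw [← ContinuousLinearMap.integral_comp_comm _ hv]
  · simpa using norm_integral_le_of_norm_le_const (μ := μ)
      (Eventually.of_forall fun x => (h x).L z hz)
  · simpa using norm_integral_le_of_norm_le_const (μ := μ)
      (Eventually.of_forall fun x => (h x).R z hz)

/-- the engine for honest functions bounded by `2` -/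
theorem engine_fun {E : Type} [NormedAddCommGroup E] [InnerProductSpace ℂ E] [CompleteSpace E]
    {v : ℕ → X → E} (hm : ∀ n, StronglyMeasurable (v n)) (hb : ∀ n x, ‖v n x‖ ≤ 2)
    {B : ℕ → Γ → E →L[ℂ] E} (hB : ∀ n γ, ‖B n γ‖ ≤ 1)
    (hM : ∀ γ γ', ∀ ε > 0, ∀ᶠ n in atTop, ∀ x,
      ‖B n γ (B n γ' (v n x)) - B n (γ * γ') (v n x)‖ ≤ ε)
    (hI : ∀ h : G, (∃ b, h = tv (show (1 : Fin 3) ≠ 2 by decide) b ∨
      h = tv (show (2 : Fin 3) ≠ 1 by decide) b) →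
      Tendsto (fun n => ∫ x, ‖v n (h • x) - B n (coc h x) (v n x)‖ ^ 2 ∂μ) atTop (𝓝 0)) :
    Tendsto (fun n => ∫ x, ‖v n x - ∫ y, v n y ∂μ‖ ∂μ) atTop (𝓝 0) ∧
      ∀ γ, Tendsto (fun n => ‖B n γ (∫ y, v n y ∂μ) - ∫ y, v n y ∂μ‖) atTop (𝓝 0) := by
  have hL : ∀ n, MemLp (fun x => (2⁻¹ : ℂ) • v n x) 2 μ := fun n =>
    MemLp.of_bound ((hm n).const_smul _).aestronglyMeasurable 1 (Eventually.of_forall fun x => by
      rw [norm_smul]; have := hb n x; simp; linarith)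
  let ξ : ℕ → L2X E := fun n => (hL n).toLp
  have hξ : ∀ n, ξ n =ᵐ[μ] fun x => (2⁻¹ : ℂ) • v n x := fun n => (hL n).coeFn_toLp
  have hn : ∀ u : E, ‖(2⁻¹ : ℂ) • u‖ = 2⁻¹ * ‖u‖ := fun u => by rw [norm_smul]; simp
  have hE : Eng.EData atTop ξ B := ⟨fun n => (hξ n).mono fun x hx => by
      rw [hx, hn]; linarith [hb n x], hB, fun γ γ' => by
    refine tendsto_order.2 ⟨fun a ha => Eventually.of_forall fun n => ha.trans_le (norm_nonneg _),
      fun a ha => (hM γ γ' a ha).mono fun n h1 => lt_of_le_of_lt ?_ (half_lt_self ha)⟩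
    refine (norm_le_of_support _ MeasurableSet.univ (measure_ne_top _ _) (half_pos ha).le ?_
      (Eventually.of_forall fun x hx => absurd trivial hx)).trans_eq (by simp)
    filter_upwards [amp_coeFn (B n γ * B n γ' - B n (γ * γ')) (ξ n), hξ n] with x h2 h3
    rw [h2, h3, map_smul, hn]
    have : ‖(B n γ * B n γ' - B n (γ * γ')) (v n x)‖ ≤ a := h1 x
    linarith⟩
  have hinv : ∀ h : G, (∃ b, h = tv (show (1 : Fin 3) ≠ 2 by decide) b ∨
      h = tv (show (2 : Fin 3) ≠ 1 by decide) b) → Eng.Inv atTop ξ B h := fun h hh => by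
    have h1 : ∀ n, Eng.df (B n) (ξ n) h ^ 2
        = 2⁻¹ ^ 2 * ∫ x, ‖v n (h • x) - B n (coc h x) (v n x)‖ ^ 2 ∂μ := fun n => by
      rw [Eng.df_sq (hB n), ← integral_const_mul]
      refine integral_congr_ae ?_
      filter_upwards [hξ n, ae_smul h (hξ n)] with x h2 h3
      rw [h2, h3, map_smul, ← smul_sub, hn, mul_pow]
    have h2 := ((hI h hh).const_mul (2⁻¹ ^ 2)).sqrt
    simp only [← h1, mul_zero, Real.sqrt_zero] at h2
    exact h2.congr fun n => Real.sqrt_sq (norm_nonneg _)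
  obtain ⟨e1, e2⟩ := hE.engine (fun b => hinv _ ⟨b, Or.inl rfl⟩) (fun b => hinv _ ⟨b, Or.inr rfl⟩)
  have hi : ∀ n, ∫ x, ξ n x ∂μ = (2⁻¹ : ℂ) • ∫ x, v n x ∂μ := fun n => by
    rw [integral_congr_ae (hξ n), integral_smul]
  simp only [hi] at e1 e2
  refine ⟨squeeze_zero (fun n => integral_nonneg fun _ => norm_nonneg _) (fun n => ?_)
    (by simpa using e1.const_mul 2), fun γ => ?_⟩
  · set ζ := ξ n - cst E ((2⁻¹ : ℂ) • ∫ x, v n x ∂μ)
    have h1 : ∫ x, ‖v n x - ∫ y, v n y ∂μ‖ ∂μ = 2 * ∫ x, ‖ζ x‖ ∂μ := by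
      rw [← integral_const_mul]
      refine integral_congr_ae ?_
      filter_upwards [Lp.coeFn_sub (ξ n) (cst E ((2⁻¹ : ℂ) • ∫ x, v n x ∂μ)), hξ n,
        cst_coeFn ((2⁻¹ : ℂ) • ∫ x, v n x ∂μ)] with x h1 h2 h3
      rw [h1, Pi.sub_apply, h2, h3, ← smul_sub, hn]; ring
    rw [h1, integral_norm_eq_lintegral_enorm (Lp.aestronglyMeasurable ζ), Lp.norm_def,
      ← eLpNorm_one_eq_lintegral_enorm]
    gcongr
    · exact Lp.eLpNorm_ne_top ζ
    · exact eLpNorm_le_eLpNorm_of_exponent_le one_le_two (Lp.aestronglyMeasurable ζ)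
  · have := (e2 γ).const_mul 2
    simp only [map_smul, ← smul_sub, hn] at this
    simpa using this

end Crest.Agent.N111.Cn
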