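import Mathlib
import Crest.Agent.N111.Lat.Ind
import Crest.Agent.N111.Stmts
import Crest.Agent.N111.VN.Kap

-- ▼ part N111/Eng/Spec
section

/-!
# Row 111, engine I: spectral measure of an `L²` function with values in a Hilbert space.

`spec Ψ = ‖𝓕 Ψ‖² dz`.  Its characteristic function is the autocorrelation of `Ψ`.
-/

set_option autoImplicit false

namespace Crest.Agent.N111.Eng

open MeasureTheory SchwartzMap FourierTransform Filter Topology
open scoped ENNReal NNReal Real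

variable {E : Type*} [NormedAddCommGroup E] [InnerProductSpace ℝ E] [FiniteDimensional ℝ E]
  [MeasurableSpace E] [BorelSpace E]
variable {F : Type*} [NormedAddCommGroup F] [InnerProductSpace ℂ F] [CompleteSpace F]

variable (E F) in
/-- `L²(E, F)` -/
noncomputable abbrev L2 := Lp F 2 (volume : Measure E)

/-- the spectral measure `‖𝓕 Ψ z‖² dz` -/
noncomputable def spec (Ψ : L2 E F) : Measure E :=
  volume.withDensity fun z => ‖(𝓕 Ψ : L2 E F) z‖ₑ ^ 2

omit [InnerProductSpace ℂ F] [CompleteSpace F] in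
lemma lintegral_enorm_sq {α : Type*} [MeasurableSpace α] {ν : Measure α} (Ψ : Lp F 2 ν) :
    ∫⁻ z, ‖Ψ z‖ₑ ^ 2 ∂ν = ENNReal.ofReal (‖Ψ‖ ^ 2) := by
  have h := eLpNorm_nnreal_pow_eq_lintegral (f := (Ψ : α → F)) (μ := ν) (p := 2) two_ne_zero
  rw [ENNReal.ofReal_pow (norm_nonneg _), Lp.norm_def, ENNReal.ofReal_toReal (Lp.eLpNorm_ne_top Ψ)]
  simp only [ENNReal.coe_ofNat, NNReal.coe_ofNat, ENNReal.rpow_ofNat] at h
  exact h.symm

lemma spec_univ (Ψ : L2 E F) : spec Ψ Set.univ = ENNReal.ofReal (‖Ψ‖ ^ 2) := by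
  rw [spec, withDensity_apply _ MeasurableSet.univ, Measure.restrict_univ, lintegral_enorm_sq,
    Lp.norm_fourier_eq]

instance (Ψ : L2 E F) : IsFiniteMeasure (spec Ψ) :=
  ⟨by rw [spec_univ]; exact ENNReal.ofReal_lt_top⟩

lemma spec_real_univ (Ψ : L2 E F) : (spec Ψ).real Set.univ = ‖Ψ‖ ^ 2 := by
  rw [Measure.real, spec_univ, ENNReal.toReal_ofReal (by positivity)]

/-- translation `Ψ ↦ Ψ (· + t)` -/
noncomputable def trL (t : E) : L2 E F →ₗᵢ[ℂ] L2 E F :=
  Lp.compMeasurePreservingₗᵢ ℂ (fun u => u + t) (measurePreserving_add_right volume t)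

omit [CompleteSpace F] in
lemma coeFn_trL (t : E) (Ψ : L2 E F) : trL t Ψ =ᵐ[volume] fun u => Ψ (u + t) :=
  Lp.coeFn_compMeasurePreserving Ψ (measurePreserving_add_right volume t)

/-- the character `z ↦ exp (2πi ⟪z,t⟫)` -/
noncomputable def ch (t z : E) : ℂ := Complex.exp ((inner ℝ z ((2 * π) • t) : ℝ) * Complex.I)

omit [FiniteDimensional ℝ E] [MeasurableSpace E] [BorelSpace E] in
lemma continuous_ch (t : E) : Continuous (ch t) := by unfold ch; fun_prop

omit [FiniteDimensional ℝ E] [MeasurableSpace E] [BorelSpace E] in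
lemma norm_ch (t z : E) : ‖ch t z‖ = 1 := Complex.norm_exp_ofReal_mul_I _

lemma memLp_ch (t : E) : MemLp (ch t) ∞ volume :=
  memLp_top_of_bound (continuous_ch t).aestronglyMeasurable 1
    (Eventually.of_forall fun z => (norm_ch t z).le)

/-- multiplication by the character -/
noncomputable def modL (t : E) : L2 E F →L[ℂ] L2 E F :=
  (ContinuousLinearMap.lsmul ℂ ℂ : ℂ →L[ℂ] F →L[ℂ] F).holderL volume ∞ 2 2 (memLp_ch t).toLp

omit [CompleteSpace F] in
lemma coeFn_modL (t : E) (Ψ : L2 E F) : modL t Ψ =ᵐ[volume] fun z => ch t z • Ψ z := by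
  have h := (ContinuousLinearMap.lsmul ℂ ℂ : ℂ →L[ℂ] F →L[ℂ] F).coeFn_holder (r := 2)
    (memLp_ch t).toLp Ψ
  filter_upwards [h, (memLp_ch t).coeFn_toLp] with z h1 h2
  rw [← h2]
  exact h1

lemma fourier_trL (t : E) (Ψ : L2 E F) : 𝓕 (trL t Ψ) = modL t (𝓕 Ψ) := by
  refine DenseRange.induction_on (p := fun Ψ : L2 E F => 𝓕 (trL t Ψ) = modL t (𝓕 Ψ))
    (SchwartzMap.denseRange_toLpCLM (F := F) (p := 2) (μ := (volume : Measure E))
      ENNReal.ofNat_ne_top) Ψ ?_ fun f => ?_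
  · exact isClosed_eq ((Lp.fourierTransformₗᵢ E F).continuous.comp (trL t).continuous)
      ((modL t).continuous.comp (Lp.fourierTransformₗᵢ E F).continuous)
  · have h1 : trL t (f.toLp 2 volume) = (f.compSubConstCLM ℂ (-t)).toLp 2 volume := by
      ext1
      filter_upwards [coeFn_trL t (f.toLp 2 volume), (f.compSubConstCLM ℂ (-t)).coeFn_toLp 2 volume,
        (measurePreserving_add_right volume t).quasiMeasurePreserving.ae
          (p := fun x => f.toLp 2 volume x = f x) (f.coeFn_toLp 2 volume)]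
        with u h1 h2 h3
      rw [h1, h2, h3]; simp
    simp only [toLpCLM_apply]
    rw [h1, toLp_fourier_eq, toLp_fourier_eq]
    ext1
    filter_upwards [coeFn_modL t ((𝓕 f).toLp 2 volume), (𝓕 f).coeFn_toLp 2 volume,
      (𝓕 (f.compSubConstCLM ℂ (-t))).coeFn_toLp 2 volume] with z h1 h2 h3
    rw [h1, h2, h3]
    have h4 := congrFun (VectorFourier.fourierIntegral_comp_add_right Real.fourierChar volume
      (innerₗ E) (f : E → F) t) z
    have h5 : ((f.compSubConstCLM ℂ (-t) : 𝓢(E, F)) : E → F) = (f : E → F) ∘ fun v => v + t := by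
      ext v; simp
    rw [fourier_coe, fourier_coe, h5]
    refine h4.trans ?_
    rw [Circle.smul_def, Real.fourierChar_apply, ch, real_inner_smul_right, real_inner_comm]
    rfl

lemma fourier_compLp (B : F →L[ℂ] F) (Ψ : L2 E F) :
    𝓕 (B.compLpL 2 volume Ψ) = B.compLpL 2 volume (𝓕 Ψ) := by
  refine DenseRange.induction_on
    (p := fun Ψ : L2 E F => 𝓕 (B.compLpL 2 volume Ψ) = B.compLpL 2 volume (𝓕 Ψ))
    (SchwartzMap.denseRange_toLpCLM (F := F) (p := 2) (μ := (volume : Measure E))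
      ENNReal.ofNat_ne_top) Ψ ?_ fun f => ?_
  · exact isClosed_eq ((Lp.fourierTransformₗᵢ E F).continuous.comp (B.compLpL 2 volume).continuous)
      ((B.compLpL 2 volume).continuous.comp (Lp.fourierTransformₗᵢ E F).continuous)
  · have h1 : ∀ g : 𝓢(E, F), B.compLpL 2 volume (g.toLp 2 volume) = (g.postcompCLM B).toLp 2 volume := by
      intro g
      ext1
      filter_upwards [B.coeFn_compLpL (g.toLp 2 volume), (g.postcompCLM B).coeFn_toLp 2 volume, g.coeFn_toLp 2 volume]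
        with u h1 h2 h3
      rw [h1, h2, h3]; simp
    simp only [toLpCLM_apply]
    rw [h1, toLp_fourier_eq, toLp_fourier_eq, h1]
    congr 1
    ext z
    rw [postcompCLM_apply, fourier_coe, fourier_coe, Real.fourier_eq, Real.fourier_eq,
      ← B.integral_comp_comm ((Real.fourierIntegral_convergent_iff z).2 f.integrable)]
    simp [Circle.smul_def]

theorem charFun_spec (Ψ : L2 E F) (t : E) :
    charFun (spec Ψ) ((2 * π) • t) = ∫ u, inner ℂ (Ψ u) (Ψ (u + t)) := by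
  have h1 : ∫ u, inner ℂ (Ψ u) (Ψ (u + t)) = inner ℂ Ψ (trL t Ψ) := by
    rw [L2.inner_def]
    refine integral_congr_ae ?_
    filter_upwards [coeFn_trL t Ψ] with u hu
    rw [hu]
  rw [h1, ← Lp.inner_fourier_eq, fourier_trL, L2.inner_def, charFun_apply, spec]
  set Φ : L2 E F := 𝓕 Ψ
  have hm : AEMeasurable (fun z => ‖Φ z‖₊ ^ 2) volume :=
    (Lp.aestronglyMeasurable Φ).nnnorm.aemeasurable.pow_const 2
  have h2 := integral_withDensity_eq_integral_smul₀ hm (ch t)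
  simp only [ENNReal.coe_pow] at h2
  refine h2.trans (integral_congr_ae ?_)
  filter_upwards [coeFn_modL t Φ] with z hz
  rw [hz, inner_smul_right, inner_self_eq_norm_sq_to_K, NNReal.smul_def]
  simp [mul_comm]

lemma spec_real_apply (Ψ : L2 E F) {S : Set E} (hS : MeasurableSet S) :
    (spec Ψ).real S = ∫ z in S, ‖(𝓕 Ψ : L2 E F) z‖ ^ 2 := by
  set Φ : L2 E F := 𝓕 Ψ
  rw [integral_eq_lintegral_of_nonneg_ae (f := fun z => ‖Φ z‖ ^ 2)
    (Eventually.of_forall fun z => by positivity)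
    ((Lp.aestronglyMeasurable Φ).norm.pow 2).restrict, Measure.real, spec, withDensity_apply _ hS]
  congr 2
  ext z
  rw [ENNReal.ofReal_pow (norm_nonneg _), ofReal_norm]

omit [InnerProductSpace ℂ F] [CompleteSpace F] in
lemma integrable_norm_sq {α : Type*} [MeasurableSpace α] {ν : Measure α} (Φ : Lp F 2 ν) :
    Integrable (fun z => ‖Φ z‖ ^ 2) ν :=
  (memLp_two_iff_integrable_sq_norm (Lp.aestronglyMeasurable Φ)).1 (Lp.memLp Φ)

/-- domination of spectral measures up to an `L²` error -/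
theorem spec_le (B : F →L[ℂ] F) (hB : ‖B‖ ≤ 1) (Ψ₁ Ψ₂ : L2 E F) {S : Set E}
    (hS : MeasurableSet S) {δ : ℝ} (hδ : 0 < δ) :
    (spec Ψ₁).real S ≤ (1 + δ) * (spec Ψ₂).real S
      + (1 + δ⁻¹) * ‖Ψ₁ - B.compLpL 2 volume Ψ₂‖ ^ 2 := by
  set R := Ψ₁ - B.compLpL 2 volume Ψ₂ with hR
  have h1 : (𝓕 Ψ₁ : L2 E F) = B.compLpL 2 volume (𝓕 Ψ₂) + 𝓕 R := by
    rw [← fourier_compLp, ← FourierAdd.fourier_add, hR, add_sub_cancel]
  have h2 : (spec R).real S ≤ ‖R‖ ^ 2 := by
    rw [← spec_real_univ]; exact measureReal_mono (Set.subset_univ _)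
  refine le_trans ?_ (add_le_add le_rfl (mul_le_mul_of_nonneg_left h2 (by positivity)))
  rw [spec_real_apply _ hS, spec_real_apply _ hS, spec_real_apply _ hS, ← integral_const_mul,
    ← integral_const_mul, ← integral_add
      ((integrable_norm_sq _).const_mul _).restrict ((integrable_norm_sq _).const_mul _).restrict]
  refine integral_mono_ae (integrable_norm_sq _).restrict
    (((integrable_norm_sq _).const_mul _).add ((integrable_norm_sq _).const_mul _)).restrict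
    (ae_restrict_of_ae ?_)
  filter_upwards [Lp.coeFn_add (B.compLpL 2 volume (𝓕 Ψ₂)) (𝓕 R),
    B.coeFn_compLpL (𝓕 Ψ₂ : L2 E F)] with z hz hz'
  rw [h1, hz, Pi.add_apply, hz']
  set a := (𝓕 Ψ₂ : L2 E F) z
  set b := (𝓕 R : L2 E F) z
  have h3 : ‖B a + b‖ ≤ ‖a‖ + ‖b‖ :=
    (norm_add_le _ _).trans (add_le_add ((B.le_of_opNorm_le hB a).trans_eq (one_mul _)) le_rfl)
  have h4 : (‖a‖ + ‖b‖) ^ 2 ≤ (1 + δ) * ‖a‖ ^ 2 + (1 + δ⁻¹) * ‖b‖ ^ 2 := by
    have h5 : 0 ≤ δ⁻¹ * (δ * ‖a‖ - ‖b‖) ^ 2 := by positivity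
    have h6 : δ⁻¹ * (δ * ‖a‖ - ‖b‖) ^ 2 = δ * ‖a‖ ^ 2 - 2 * ‖a‖ * ‖b‖ + δ⁻¹ * ‖b‖ ^ 2 := by
      field_simp; ring
    nlinarith
  exact (pow_le_pow_left₀ (norm_nonneg _) h3 2).trans h4

/-- comparison of two measures with a common smoothing -/
theorem conv_compare {μ₁ μ₂ γ₁ γ₂ : Measure E} [IsFiniteMeasure μ₁] [IsFiniteMeasure μ₂]
    [IsProbabilityMeasure γ₁] [IsProbabilityMeasure γ₂]
    (h : ∀ t, charFun μ₁ t * charFun γ₂ t = charFun μ₂ t * charFun γ₁ t)
    (h₁ : μ₁.real Set.univ ≤ 1) (h₂ : μ₂.real Set.univ ≤ 1) {R τ : ℝ}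
    (hγ₁ : γ₁.real (Metric.ball 0 R)ᶜ ≤ τ) (hγ₂ : γ₂.real (Metric.ball 0 R)ᶜ ≤ τ) (S : Set E) :
    μ₁.real S ≤ μ₂.real (Metric.thickening R (Metric.thickening R S)) + 2 * τ := by
  have hc : μ₁ ∗ γ₂ = μ₂ ∗ γ₁ := Measure.ext_of_charFun (by
    ext t; rw [charFun_conv, charFun_conv, h])
  set S' := Metric.thickening R S
  set S'' := Metric.thickening R S'
  have hS' : MeasurableSet S' := Metric.isOpen_thickening.measurableSet
  have hadd : Measurable fun p : E × E => p.1 + p.2 := by fun_prop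
  have hτ : 0 ≤ τ := measureReal_nonneg.trans hγ₁
  have e1 : μ₁.real S * γ₂.real (Metric.ball 0 R) ≤ (μ₁ ∗ γ₂).real S' := by
    rw [← measureReal_prod_prod, Measure.conv, map_measureReal_apply hadd hS']
    refine measureReal_mono ?_
    rintro ⟨x, y⟩ ⟨hx, hy⟩
    refine Metric.mem_thickening_iff.2 ⟨x, hx, ?_⟩
    simpa [dist_eq_norm] using hy
  have e2 : (μ₂ ∗ γ₁).real S' ≤ μ₂.real S'' * γ₁.real Set.univ
      + μ₂.real Set.univ * γ₁.real (Metric.ball 0 R)ᶜ := by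
    rw [← measureReal_prod_prod, ← measureReal_prod_prod, Measure.conv,
      map_measureReal_apply hadd hS']
    refine le_trans (measureReal_mono ?_) (measureReal_union_le _ _)
    rintro ⟨x, y⟩ hxy
    by_cases hy : y ∈ Metric.ball (0 : E) R
    · refine Or.inl ⟨Metric.mem_thickening_iff.2 ⟨x + y, hxy, ?_⟩, trivial⟩
      simpa [dist_eq_norm] using hy
    · exact Or.inr ⟨trivial, hy⟩
  have e3 : γ₂.real (Metric.ball 0 R) = 1 - γ₂.real (Metric.ball 0 R)ᶜ := by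
    rw [probReal_compl_eq_one_sub Metric.isOpen_ball.measurableSet]; ring
  have e4 : μ₁.real S ≤ 1 := (measureReal_mono (Set.subset_univ _)).trans h₁
  rw [hc, e3] at e1
  rw [probReal_univ, mul_one] at e2
  have e5 : μ₂.real Set.univ * γ₁.real (Metric.ball 0 R)ᶜ ≤ 1 * τ :=
    mul_le_mul h₂ hγ₁ measureReal_nonneg zero_le_one
  have e6 : μ₁.real S * γ₂.real (Metric.ball 0 R)ᶜ ≤ 1 * τ :=
    mul_le_mul e4 hγ₂ measureReal_nonneg zero_le_one
  nlinarith

end Crest.Agent.N111.Eng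
end

-- ▼ part N111/Eng/Equi
section

/-!
# Row 111, engine II: equicontinuity from approximate shear invariance (relative property (T)).
-/

set_option autoImplicit false

namespace Crest.Agent.N111.Eng

open MeasureTheory Filter Topology Metric
open scoped ENNReal NNReal Real

section general
variable {E : Type*} [NormedAddCommGroup E] [InnerProductSpace ℝ E] [FiniteDimensional ℝ E]
  [MeasurableSpace E] [BorelSpace E]
variable {F : Type*} [NormedAddCommGroup F] [InnerProductSpace ℂ F] [CompleteSpace F]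

/-- a stationary bounded function with correlation `φ` -/
structure Stat (Ξ : E → F) (φ : E → ℂ) : Prop where
  meas : AEStronglyMeasurable Ξ volume
  corr : ∀ u t, inner ℂ (Ξ u) (Ξ (u + t)) = φ t
  bdd : ∀ u, ‖Ξ u‖ ≤ 1

lemma stat_one : Stat (fun _ : E => (1 : ℂ)) (fun _ => 1) :=
  ⟨aestronglyMeasurable_const, fun _ _ => by simp, fun _ => by simp⟩

/-- normalised window -/
noncomputable def win (ρ : ℝ) : E → ℝ :=
  (ball (0 : E) ρ).indicator fun _ => (√(volume.real (ball (0 : E) ρ)))⁻¹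

lemma measurable_win (ρ : ℝ) : Measurable (win ρ : E → ℝ) :=
  measurable_const.indicator measurableSet_ball

lemma memLp_win (ρ : ℝ) : MemLp (win ρ : E → ℝ) 2 volume :=
  memLp_indicator_const 2 measurableSet_ball _ (Or.inr measure_ball_lt_top.ne)

lemma integral_win_sq {ρ : ℝ} (hρ : 0 < ρ) : ∫ u : E, win ρ u ^ 2 = 1 := by
  have h0 : 0 < volume.real (ball (0 : E) ρ) :=
    ENNReal.toReal_pos (measure_ball_pos _ _ hρ).ne' measure_ball_lt_top.ne
  have : (fun u : E => win ρ u ^ 2)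
      = (ball (0 : E) ρ).indicator fun _ => (volume.real (ball (0 : E) ρ))⁻¹ := by
    ext u
    by_cases hu : u ∈ ball (0 : E) ρ
    · simp only [win, Set.indicator_of_mem hu, inv_pow, Real.sq_sqrt h0.le]
    · simp [win, Set.indicator_of_notMem hu]
  rw [this, integral_indicator_const _ measurableSet_ball, smul_eq_mul, mul_inv_cancel₀ h0.ne']

omit [CompleteSpace F] in
lemma memLp_win_smul (ρ : ℝ) {Ξ : E → F} {φ : E → ℂ} (h : Stat Ξ φ) :
    MemLp (fun u => (win ρ u : ℂ) • Ξ u) 2 volume := by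
  refine (memLp_win ρ).of_le
    ((Complex.measurable_ofReal.comp (measurable_win ρ)).aestronglyMeasurable.smul h.meas)
    (Eventually.of_forall fun u => ?_)
  rw [norm_smul, Complex.norm_real]
  exact mul_le_of_le_one_right (norm_nonneg _) (h.bdd u)

/-- the windowed function -/
noncomputable def wf (ρ : ℝ) {Ξ : E → F} {φ : E → ℂ} (h : Stat Ξ φ) : L2 E F :=
  (memLp_win_smul ρ h).toLp

omit [CompleteSpace F] in
lemma coeFn_wf (ρ : ℝ) {Ξ : E → F} {φ : E → ℂ} (h : Stat Ξ φ) :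
    wf ρ h =ᵐ[volume] fun u => (win ρ u : ℂ) • Ξ u := (memLp_win_smul ρ h).coeFn_toLp

omit [InnerProductSpace ℂ F] [CompleteSpace F] in
lemma norm_sq_eq_integral {α : Type*} [MeasurableSpace α] {ν : Measure α} (Ψ : Lp F 2 ν) :
    ‖Ψ‖ ^ 2 = ∫ u, ‖Ψ u‖ ^ 2 ∂ν := by
  rw [integral_eq_lintegral_of_nonneg_ae (f := fun z => ‖Ψ z‖ ^ 2)
    (Eventually.of_forall fun z => by positivity) ((Lp.aestronglyMeasurable Ψ).norm.pow 2),
    ← ENNReal.toReal_ofReal (r := ‖Ψ‖ ^ 2) (by positivity), ← lintegral_enorm_sq]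
  congr 2
  ext z
  rw [ENNReal.ofReal_pow (norm_nonneg _), ofReal_norm]

omit [InnerProductSpace ℂ F] [CompleteSpace F] in
lemma norm_sq_le_of_win {ρ : ℝ} (hρ : 0 < ρ) (Ψ : L2 E F) {ε : ℝ}
    (h : ∀ᵐ u, ‖Ψ u‖ ≤ |win ρ u| * ε) : ‖Ψ‖ ^ 2 ≤ ε ^ 2 := by
  rw [norm_sq_eq_integral]
  have h2 : Integrable (fun u : E => win ρ u ^ 2) := (memLp_win ρ).integrable_sq
  calc _ ≤ ∫ u : E, win ρ u ^ 2 * ε ^ 2 := by
        refine integral_mono_ae (integrable_norm_sq Ψ) (h2.mul_const _) ?_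
        filter_upwards [h] with u hu
        calc _ ≤ (|win ρ u| * ε) ^ 2 := pow_le_pow_left₀ (norm_nonneg _) hu 2
          _ = _ := by rw [mul_pow, sq_abs]
    _ = _ := by rw [integral_mul_const, integral_win_sq hρ, one_mul]

/-- the scalar window measure -/
noncomputable def gam (ρ : ℝ) : Measure E := spec (wf ρ stat_one)

lemma charFun_wf_aux (ρ : ℝ) {Ξ : E → F} {φ : E → ℂ} (h : Stat Ξ φ) (t : E) :
    charFun (spec (wf ρ h)) ((2 * π) • t) = (∫ u, (win ρ u : ℂ) * win ρ (u + t)) * φ t := by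
  rw [charFun_spec, ← integral_mul_const]
  refine integral_congr_ae ?_
  filter_upwards [coeFn_wf ρ h, (measurePreserving_add_right volume t).quasiMeasurePreserving.ae
    (p := fun x => wf ρ h x = (win ρ x : ℂ) • Ξ x) (coeFn_wf ρ h)] with u h1 h2
  rw [h1, h2, inner_smul_left, inner_smul_right, h.corr, Complex.conj_ofReal, mul_assoc]

lemma charFun_wf (ρ : ℝ) {Ξ : E → F} {φ : E → ℂ} (h : Stat Ξ φ) (t : E) :
    charFun (spec (wf ρ h)) ((2 * π) • t) = charFun (gam ρ) ((2 * π) • t) * φ t := by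
  rw [gam, charFun_wf_aux, charFun_wf_aux, mul_one]

lemma isProb_gam {ρ : ℝ} (hρ : 0 < ρ) : IsProbabilityMeasure (gam ρ : Measure E) := by
  have h := charFun_wf_aux ρ (stat_one (E := E)) 0
  rw [smul_zero, charFun_zero, mul_one] at h
  have h2 : (∫ u : E, (win ρ u : ℂ) * win ρ (u + 0)) = ((∫ u : E, win ρ u ^ 2 : ℝ) : ℂ) := by
    rw [← integral_complex_ofReal]; simp [sq]
  rw [h2, integral_win_sq hρ] at h
  exact isProbabilityMeasure_iff_real.2 (by exact_mod_cast h)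

lemma mass_wf {ρ : ℝ} (hρ : 0 < ρ) {Ξ : E → F} {φ : E → ℂ} (h : Stat Ξ φ) :
    (spec (wf ρ h)).real Set.univ ≤ 1 := by
  rw [spec_real_univ]
  refine (norm_sq_le_of_win hρ _ (ε := 1) ?_).trans_eq (one_pow 2)
  filter_upwards [coeFn_wf ρ h] with u hu
  rw [hu, norm_smul, Complex.norm_real]
  exact mul_le_mul_of_nonneg_left (h.bdd u) (norm_nonneg _)

omit [InnerProductSpace ℝ E] [FiniteDimensional ℝ E] in
lemma exists_tail (γ : Measure E) [IsFiniteMeasure γ] {τ : ℝ} (hτ : 0 < τ) :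
    ∀ᶠ R : ℝ in atTop, γ.real (ball 0 R)ᶜ ≤ τ := by
  have h := tendsto_measure_iInter_atTop (μ := γ) (s := fun n : ℝ => (ball (0 : E) n)ᶜ)
    (fun n => measurableSet_ball.compl.nullMeasurableSet)
    (fun a b hab => Set.compl_subset_compl.2 (ball_subset_ball hab)) ⟨0, measure_ne_top _ _⟩
  have h0 : ⋂ n : ℝ, (ball (0 : E) n)ᶜ = ∅ := by
    ext x
    simp only [Set.mem_iInter, Set.mem_compl_iff, mem_ball_zero_iff, not_lt, Set.mem_empty_iff_false,
      iff_false, not_forall, not_le]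
    exact ⟨‖x‖ + 1, by linarith⟩
  rw [h0, measure_empty] at h
  have h1 := (ENNReal.tendsto_toReal ENNReal.zero_ne_top).comp h
  exact (h1.eventually (ge_mem_nhds (by simpa using hτ)))

lemma charFun_map_adj {T T' : E →L[ℝ] E} (hT : ∀ z t, inner ℝ (T' z) t = inner ℝ z (T t))
    (ν : Measure E) (t : E) : charFun (ν.map T') t = charFun ν (T t) := by
  rw [charFun_apply, charFun_apply, integral_map T'.continuous.aemeasurable (by fun_prop)]
  simp_rw [hT]

/-- one step: the spectral measure is almost sub-invariant under the dual map -/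
theorem step {κ : Type*} {l : Filter κ} {Ξ : κ → E → F} {φ : κ → E → ℂ}
    (h : ∀ k, Stat (Ξ k) (φ k)) {T T' : E →L[ℝ] E}
    (hT : ∀ z t, inner ℝ (T' z) t = inner ℝ z (T t))
    (hsh : ∀ ε > 0, ∃ ρ > 0, ∀ᶠ k in l, ∃ (H : E → F) (B : F →L[ℂ] F), ‖B‖ ≤ 1 ∧
      Stat H (fun t => φ k (T t)) ∧ ∀ u, ‖u‖ < ρ → ‖H u - B (Ξ k u)‖ ≤ ε)
    {ε : ℝ} (hε : 0 < ε) : ∀ᶠ R : ℝ in atTop, ∀ᶠ k in l, ∀ S : Set E, MeasurableSet S →
      (spec (wf 1 (h k))).real (T' ⁻¹' S) ≤ (spec (wf 1 (h k))).real (thickening (4 * R) S) + ε := by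
  set δ := ε / 10 with hδ
  have hδ0 : 0 < δ := by positivity
  obtain ⟨ρ, hρ, hk⟩ := hsh (√(δ / (1 + δ⁻¹))) (by positivity)
  have := isProb_gam (E := E) hρ
  have := isProb_gam (E := E) one_pos
  have : IsProbabilityMeasure ((gam 1 : Measure E).map T') :=
    Measure.isProbabilityMeasure_map T'.continuous.aemeasurable
  filter_upwards [exists_tail (gam ρ : Measure E) hδ0, exists_tail (gam 1 : Measure E) hδ0,
    exists_tail ((gam 1 : Measure E).map T') hδ0] with R h1 h2 h3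
  filter_upwards [hk] with k ⟨H, B, hB, hH, hu⟩ S hS
  have hsurj : ∀ t : E, ∃ s : E, t = (2 * π) • s := fun t =>
    ⟨(2 * π)⁻¹ • t, by rw [smul_smul, mul_inv_cancel₀ (by positivity), one_smul]⟩
  set μ := spec (wf 1 (h k)) with hμ
  have hm : μ.real Set.univ ≤ 1 := mass_wf one_pos _
  have e1 := conv_compare (μ₁ := μ.map T') (μ₂ := spec (wf ρ hH)) (γ₁ := (gam 1).map T')
    (γ₂ := gam ρ) (fun t => by
      obtain ⟨s, rfl⟩ := hsurj t
      rw [charFun_map_adj hT, charFun_map_adj hT, map_smul, hμ, charFun_wf, charFun_wf]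
      ring)
    (by rwa [map_measureReal_apply T'.continuous.measurable MeasurableSet.univ])
    (mass_wf hρ _) h3 h1 S
  rw [map_measureReal_apply T'.continuous.measurable hS] at e1
  set S₁ := thickening R (thickening R S)
  have e2 := spec_le B hB (wf ρ hH) (wf ρ (h k)) (S := S₁) isOpen_thickening.measurableSet hδ0
  have e3 := conv_compare (μ₁ := spec (wf ρ (h k))) (μ₂ := μ) (γ₁ := gam ρ)
    (γ₂ := gam 1) (fun t => by
      obtain ⟨s, rfl⟩ := hsurj t
      rw [hμ, charFun_wf, charFun_wf]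
      ring) (mass_wf hρ _) hm h1 h2 S₁
  have e4 : ‖wf ρ hH - B.compLpL 2 volume (wf ρ (h k))‖ ^ 2 ≤ δ / (1 + δ⁻¹) := by
    refine (norm_sq_le_of_win hρ _ (ε := √(δ / (1 + δ⁻¹))) ?_).trans_eq
      (Real.sq_sqrt (by positivity))
    filter_upwards [Lp.coeFn_sub (wf ρ hH) (B.compLpL 2 volume (wf ρ (h k))),
      B.coeFn_compLpL (wf ρ (h k)), coeFn_wf ρ hH, coeFn_wf ρ (h k)] with u a1 a2 a3 a4
    rw [a1, Pi.sub_apply, a2, a3, a4, map_smul, ← smul_sub, norm_smul, Complex.norm_real,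
      Real.norm_eq_abs]
    by_cases hu' : u ∈ ball (0 : E) ρ
    · exact mul_le_mul_of_nonneg_left (hu u (mem_ball_zero_iff.1 hu')) (abs_nonneg _)
    · simp [win, Set.indicator_of_notMem hu']
  have e5 : (1 + δ⁻¹) * ‖wf ρ hH - B.compLpL 2 volume (wf ρ (h k))‖ ^ 2 ≤ δ := by
    refine (mul_le_mul_of_nonneg_left e4 (by positivity)).trans_eq ?_
    field_simp
  have e6 : μ.real (thickening R (thickening R S₁)) ≤ μ.real (thickening (4 * R) S) := by
    refine measureReal_mono ?_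
    rw [show 4 * R = R + (R + (R + R)) by ring]
    refine subset_trans ?_ (thickening_thickening_subset _ _ _)
    refine thickening_subset_of_subset _ (subset_trans ?_ (thickening_thickening_subset _ _ _))
    exact thickening_subset_of_subset _ (thickening_thickening_subset _ _ _)
  have e7 : (spec (wf ρ (h k))).real S₁ ≤ 1 :=
    (measureReal_mono (Set.subset_univ _)).trans (mass_wf hρ _)
  nlinarith

omit [FiniteDimensional ℝ E] in
lemma norm_charFun_sub_le (ν : Measure E) [IsFiniteMeasure ν] (hν : ν.real Set.univ ≤ 1)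
    {A : Set E} (hA : MeasurableSet A) {L : ℝ} (hL0 : 0 ≤ L) (hL : ∀ z, z ∉ A → ‖z‖ ≤ L) (t : E) :
    ‖charFun ν t - charFun ν 0‖ ≤ 2 * ν.real A + L * ‖t‖ := by
  have hi : ∀ s : E, Integrable (fun x : E => Complex.exp ((inner ℝ x s : ℝ) * Complex.I)) ν :=
    fun s => Integrable.of_bound (by fun_prop) 1 (Eventually.of_forall fun x =>
      (Complex.norm_exp_ofReal_mul_I _).le)
  rw [charFun_apply, charFun_apply, ← integral_sub (hi _) (hi _)]
  have hi2 : Integrable (fun x => A.indicator (fun _ => (2 : ℝ)) x + L * ‖t‖) ν :=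
    ((integrable_const _).indicator hA).add (integrable_const _)
  refine (norm_integral_le_of_norm_le hi2 (Eventually.of_forall fun x => ?_)).trans ?_
  · by_cases hx : x ∈ A
    · rw [Set.indicator_of_mem hx]
      refine (norm_sub_le _ _).trans ?_
      rw [Complex.norm_exp_ofReal_mul_I, Complex.norm_exp_ofReal_mul_I]
      have : 0 ≤ L * ‖t‖ := by positivity
      linarith
    · rw [Set.indicator_of_notMem hx, zero_add, inner_zero_right, Complex.ofReal_zero, zero_mul,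
        Complex.exp_zero, mul_comm]
      refine Real.norm_exp_I_mul_ofReal_sub_one_le.trans ((norm_inner_le_norm _ _).trans ?_)
      exact mul_le_mul_of_nonneg_right (hL x hx) (norm_nonneg _)
  · rw [integral_add ((integrable_const _).indicator hA) (integrable_const _),
      integral_indicator_const _ hA, integral_const, smul_eq_mul, smul_eq_mul, mul_comm]
    exact add_le_add le_rfl (mul_le_of_le_one_left (by positivity) hν)

end general

/-- the plane -/
abbrev E2 := EuclideanSpace ℝ (Fin 2)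

/-- the shear `t ↦ t + m tᵢ eⱼ` -/
noncomputable def sh (i j : Fin 2) (m : ℝ) : E2 →L[ℝ] E2 :=
  ContinuousLinearMap.id ℝ E2 +
    (m • EuclideanSpace.proj i : E2 →L[ℝ] ℝ).smulRight (EuclideanSpace.single j 1)

lemma sh_apply (i j : Fin 2) (m : ℝ) (t : E2) (a : Fin 2) :
    sh i j m t a = t a + if a = j then m * t i else 0 := by
  simp [sh]

lemma sh_adj (i j : Fin 2) (m : ℝ) (z t : E2) :
    inner ℝ (sh j i m z) t = inner ℝ z (sh i j m t) := by
  simp [sh, inner_add_left, inner_add_right, inner_smul_left, inner_smul_right,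
    EuclideanSpace.inner_single_left, EuclideanSpace.inner_single_right]
  ring

/-- a truncated cone -/
def cone (i j : Fin 2) (m c Λ : ℝ) : Set E2 := {z | |z i - m * z j| ≤ c * |z j| ∧ Λ < |z j|}

lemma measurableSet_cone (i j : Fin 2) (m c Λ : ℝ) : MeasurableSet (cone i j m c Λ) :=
  (measurableSet_le (f := fun z : E2 => |z i - m * z j|) (g := fun z => c * |z j|) (by fun_prop)
    (by fun_prop)).inter
    (measurableSet_lt (f := fun _ : E2 => Λ) (g := fun z => |z j|) (by fun_prop) (by fun_prop))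

/-- high frequencies -/
def HF (Λ : ℝ) : Set E2 := {z | Λ < |z 0| ∨ Λ < |z 1|}

lemma measurableSet_HF (Λ : ℝ) : MeasurableSet (HF Λ) :=
  (measurableSet_lt (f := fun _ : E2 => Λ) (g := fun z => |z 0|) (by fun_prop) (by fun_prop)).union
    (measurableSet_lt (f := fun _ : E2 => Λ) (g := fun z => |z 1|) (by fun_prop) (by fun_prop))

lemma thick_cone (i j : Fin 2) {m ρ Λ : ℝ} (hm0 : 0 ≤ m) (hm : m ≤ 6) (hΛ : 100 * ρ ≤ Λ) :
    thickening ρ (cone i j m 1 Λ) ⊆ cone i j m (5 / 4) (Λ / 2) := by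
  intro z hz
  obtain ⟨y, ⟨hy1, hy2⟩, hzy⟩ := mem_thickening_iff.1 hz
  rw [dist_eq_norm] at hzy
  have hi : |z i - y i| < ρ := (PiLp.norm_apply_le (z - y) i).trans_lt hzy
  have hj : |z j - y j| < ρ := (PiLp.norm_apply_le (z - y) j).trans_lt hzy
  have h0 : 0 < ρ := (abs_nonneg _).trans_lt hi
  have h1 : |y j| - ρ ≤ |z j| := by
    have := abs_sub_abs_le_abs_sub (y j) (z j)
    rw [abs_sub_comm] at this
    linarith
  refine ⟨?_, by linarith⟩
  have h2 : |z i - m * z j| ≤ |y i - m * y j| + |z i - y i| + m * |z j - y j| := by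
    rw [show z i - m * z j = (y i - m * y j) + (z i - y i) + -(m * (z j - y j)) by ring]
    refine (abs_add_three _ _ _).trans_eq ?_
    rw [abs_neg, abs_mul, abs_of_nonneg hm0]
  have h3 : m * |z j - y j| ≤ 6 * ρ := mul_le_mul hm hj.le (abs_nonneg _) (by norm_num)
  linarith

lemma disjoint_cone (i j : Fin 2) {m m' Λ : ℝ} (hΛ : 0 ≤ Λ) (h : 3 ≤ m' - m) :
    Disjoint (cone i j m (5 / 4) Λ) (cone i j m' (5 / 4) Λ) := by
  rw [Set.disjoint_left]
  rintro z ⟨h1, h2⟩ ⟨h3, -⟩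
  have h4 : |(m' - m) * z j| ≤ |z i - m * z j| + |z i - m' * z j| := by
    rw [show (m' - m) * z j = (z i - m * z j) - (z i - m' * z j) by ring]
    exact abs_sub _ _
  rw [abs_mul, abs_of_nonneg (by linarith : 0 ≤ m' - m)] at h4
  nlinarith [abs_nonneg (z j)]

lemma cone_subset (i j : Fin 2) (m c Λ : ℝ) : cone i j m c Λ ⊆ HF Λ := by
  rintro z ⟨-, h⟩
  fin_cases j
  · exact Or.inl h
  · exact Or.inr h

lemma preimage_cone {i j : Fin 2} (hij : i ≠ j) (m Λ : ℝ) :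
    sh j i m ⁻¹' cone i j m 1 Λ = cone i j 0 1 Λ := by
  ext z
  simp [cone, sh_apply, hij.symm]

lemma HF_subset (Λ : ℝ) : HF Λ ⊆ cone 0 1 0 1 Λ ∪ cone 1 0 0 1 Λ := by
  intro z hz
  simp only [cone, zero_mul, sub_zero, one_mul, Set.mem_union, Set.mem_ofPred_eq]
  rcases le_total |z 0| |z 1| with h | h
  · exact Or.inl ⟨h, hz.elim (fun h' => h'.trans_le h) id⟩
  · exact Or.inr ⟨h, hz.elim id (fun h' => h'.trans_le h)⟩

variable {F : Type*} [NormedAddCommGroup F] [InnerProductSpace ℂ F] [CompleteSpace F]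

/-- **Equicontinuity.** -/
theorem equi {κ : Type*} {l : Filter κ} {Ξ : κ → E2 → F} {φ : κ → E2 → ℂ}
    (h : ∀ k, Stat (Ξ k) (φ k))
    (hsh : ∀ i j : Fin 2, i ≠ j → ∀ m : ℝ, ∀ ε > 0, ∃ ρ > 0, ∀ᶠ k in l,
      ∃ (H : E2 → F) (B : F →L[ℂ] F), ‖B‖ ≤ 1 ∧
      Stat H (fun t => φ k (sh i j m t)) ∧ ∀ u, ‖u‖ < ρ → ‖H u - B (Ξ k u)‖ ≤ ε)
    {ε : ℝ} (hε : 0 < ε) : ∃ δ > 0, ∀ᶠ k in l, ∀ u, ‖u‖ < δ → ‖Ξ k u - Ξ k 0‖ ≤ ε := by
  set μ : κ → Measure E2 := fun k => spec (wf 1 (h k)) with hμ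
  have hm : ∀ k, (μ k).real Set.univ ≤ 1 := fun k => mass_wf one_pos _
  have c1 : ∀ i j : Fin 2, i ≠ j → ∀ η > 0, ∀ᶠ Λ : ℝ in atTop, ∀ᶠ k in l,
      3 * (μ k).real (cone i j 0 1 Λ) ≤ (μ k).real (HF (Λ / 2)) + 3 * η := by
    intro i j hij η hη
    obtain ⟨R, ⟨⟨h0, h3⟩, h6⟩, hR⟩ := ((((step h (sh_adj i j 0) (hsh i j hij 0) hη).and
      (step h (sh_adj i j 3) (hsh i j hij 3) hη)).and
      (step h (sh_adj i j 6) (hsh i j hij 6) hη)).and (eventually_ge_atTop 0)).exists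
    filter_upwards [eventually_ge_atTop (100 * (4 * R))] with Λ hΛ
    filter_upwards [h0, h3, h6] with k h0 h3 h6
    have a0 := h0 _ (measurableSet_cone i j 0 1 Λ)
    have a3 := h3 _ (measurableSet_cone i j 3 1 Λ)
    have a6 := h6 _ (measurableSet_cone i j 6 1 Λ)
    rw [preimage_cone hij] at a0 a3 a6
    have b0 := measureReal_mono (μ := μ k) (thick_cone i j (m := 0) le_rfl (by norm_num) hΛ)
    have b3 := measureReal_mono (μ := μ k) (thick_cone i j (m := 3) (by norm_num) (by norm_num) hΛ)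
    have b6 := measureReal_mono (μ := μ k) (thick_cone i j (m := 6) (by norm_num) le_rfl hΛ)
    have hΛ0 : 0 ≤ Λ / 2 := by linarith
    have u1 := measureReal_union (μ := μ k) (disjoint_cone i j (m := 0) (m' := 3) hΛ0 (by norm_num))
      (measurableSet_cone i j 3 _ _)
    have u2 := measureReal_union (μ := μ k) (Set.disjoint_union_left.2
      ⟨disjoint_cone i j (m := 0) (m' := 6) hΛ0 (by norm_num),
        disjoint_cone i j (m := 3) (m' := 6) hΛ0 (by norm_num)⟩) (measurableSet_cone i j 6 _ _)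
    have u3 := measureReal_mono (μ := μ k) (Set.union_subset (Set.union_subset
      (cone_subset i j 0 (5 / 4) (Λ / 2)) (cone_subset i j 3 (5 / 4) (Λ / 2)))
      (cone_subset i j 6 (5 / 4) (Λ / 2)))
    simp only [hμ] at *
    linarith
  have c2 : ∀ n : ℕ, ∃ Λ ≥ 0, ∀ᶠ k in l, (μ k).real (HF Λ) ≤ (3 / 4) ^ n := by
    intro n
    induction n with
    | zero => exact ⟨0, le_rfl, Eventually.of_forall fun k => by
        simpa using (measureReal_mono (Set.subset_univ _)).trans (hm k)⟩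
    | succ n ih =>
      obtain ⟨Λ₀, hΛ₀, hk⟩ := ih
      have hη : (0 : ℝ) < (3 / 4) ^ n / 24 := by positivity
      obtain ⟨Λ, ⟨h1, h2⟩, h3⟩ := (((c1 0 1 (by decide) _ hη).and (c1 1 0 (by decide) _ hη)).and
        (eventually_ge_atTop (2 * Λ₀))).exists
      refine ⟨Λ, by linarith, ?_⟩
      filter_upwards [hk, h1, h2] with k hk h1 h2
      have a1 := (measureReal_mono (μ := μ k) (HF_subset Λ)).trans (measureReal_union_le _ _)
      have a2 : (μ k).real (HF (Λ / 2)) ≤ (μ k).real (HF Λ₀) :=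
        measureReal_mono fun z hz => hz.imp (fun h' => by linarith) (fun h' => by linarith)
      rw [pow_succ]
      linarith
  obtain ⟨n, hn⟩ := exists_pow_lt_of_lt_one (show 0 < ε ^ 2 / 16 by positivity)
    (show (3 / 4 : ℝ) < 1 by norm_num)
  obtain ⟨Λ, hΛ, hk⟩ := c2 n
  have := isProb_gam (E := E2) one_pos
  have hc : Continuous fun u : E2 => ‖charFun (gam 1 : Measure E2) ((2 * π) • u) - 1‖
      + 2 * Λ * ‖(2 * π) • u‖ := by
    have := continuous_charFun (μ := (gam 1 : Measure E2))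
    fun_prop
  have hc0 := hc.continuousAt (x := 0) |>.eventually (gt_mem_nhds (a := ε ^ 2 / 4) (by
    simp only [smul_zero, charFun_zero, probReal_univ]; simp; positivity))
  obtain ⟨δ, hδ, hδ'⟩ := Metric.eventually_nhds_iff.1 hc0
  refine ⟨δ, hδ, ?_⟩
  filter_upwards [hk] with k hk u hu
  have a1 := hδ' (y := u) (by simpa using hu)
  have a2 := norm_charFun_sub_le (μ k) (hm k) (measurableSet_HF Λ) (L := 2 * Λ) (by linarith)
    (fun z hz => by
      simp only [HF, Set.mem_ofPred_eq, not_or, not_lt] at hz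
      refine (pow_le_pow_iff_left₀ (norm_nonneg _) (by linarith) two_ne_zero).1 ?_
      rw [EuclideanSpace.real_norm_sq_eq, Fin.sum_univ_two, ← sq_abs (z 0), ← sq_abs (z 1)]
      nlinarith [abs_nonneg (z 0), abs_nonneg (z 1)]) ((2 * π) • u)
  have a3 := charFun_wf 1 (h k) u
  have a4 := charFun_wf 1 (h k) 0
  rw [smul_zero, charFun_zero (gam 1), probReal_univ, Complex.ofReal_one, one_mul] at a4
  have a5 : ‖φ k u‖ ≤ 1 := by
    rw [← (h k).corr 0 u]
    exact (norm_inner_le_norm _ _).trans (mul_le_one₀ ((h k).bdd _) (norm_nonneg _) ((h k).bdd _))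
  have a6 : ‖φ k 0 - φ k u‖ ≤ ε ^ 2 / 2 := by
    have e : φ k 0 - φ k u = -(charFun (μ k) ((2 * π) • u) - charFun (μ k) 0)
        + (charFun (gam 1 : Measure E2) ((2 * π) • u) - 1) * φ k u := by
      simp only [hμ]; rw [a3, a4]; ring
    rw [e]
    refine (norm_add_le _ _).trans ?_
    rw [norm_neg, norm_mul]
    have := mul_le_of_le_one_right
      (norm_nonneg (charFun (gam 1 : Measure E2) ((2 * π) • u) - 1)) a5
    linarith [sq_nonneg ε]
  have a7 : ‖Ξ k u - Ξ k 0‖ ^ 2 = 2 * (φ k 0 - φ k u).re := by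
    have b1 := (h k).corr 0 0
    have b2 := (h k).corr u 0
    have b3 := (h k).corr 0 u
    rw [add_zero, inner_self_eq_norm_sq_to_K] at b1 b2
    rw [zero_add] at b3
    have b4 : ‖Ξ k 0‖ ^ 2 = (φ k 0).re := by rw [← b1]; norm_cast
    have b5 : ‖Ξ k u‖ ^ 2 = (φ k 0).re := by rw [← b2]; norm_cast
    rw [norm_sub_rev, @norm_sub_sq ℂ, b3, b4, b5, Complex.sub_re]
    simp only [RCLike.re_to_complex]
    ring
  refine (pow_le_pow_iff_left₀ (norm_nonneg _) hε.le two_ne_zero).1 ?_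
  have := (Complex.re_le_norm _).trans a6
  linarith

end Crest.Agent.N111.Eng
end

-- ▼ part N111/Eng/Engine
section

/-!
# Row 111, engine III: asymptotic invariance propagates from `SL₂` to `SL₃(ℝ)`.
-/

set_option autoImplicit false

namespace Crest.Agent.N111.Eng

open MeasureTheory Filter Topology
open scoped ENNReal InnerProductSpace Pointwise

variable {K : Type*} [NormedAddCommGroup K] [InnerProductSpace ℂ K]

/-- `(V g ξ)(x) = ξ (g • x)` -/
noncomputable def V (g : G) : L2X K →L[ℂ] L2X K := ind (URep.triv Γ K) g⁻¹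

lemma V_coeFn (g : G) (ξ : L2X K) : V g ξ =ᵐ[μ] fun x => ξ (g • x) := by
  simpa [V] using ind_coeFn (URep.triv Γ K) g⁻¹ ξ

lemma V_mul (g h : G) (ξ : L2X K) : V (g * h) ξ = V h (V g ξ) := by
  rw [V, mul_inv_rev, URep.mul_apply]; rfl

@[simp] lemma V_one (ξ : L2X K) : V 1 ξ = ξ := by simp [V]

@[simp] lemma norm_V (g : G) (ξ : L2X K) : ‖V g ξ‖ = ‖ξ‖ := URep.norm_map _ _ _

@[simp] lemma inner_V (g : G) (ξ η : L2X K) : ⟪V g ξ, V g η⟫_ℂ = ⟪ξ, η⟫_ℂ :=
  URep.inner_map_map _ _ _ _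

lemma continuous_V (ξ : L2X K) : Continuous fun g => V g ξ :=
  (ind_cont (URep.triv Γ K) ξ).comp continuous_inv

/-- the twisting field `x ↦ B (coc g x)` -/
noncomputable def Tw (B : Γ → K →L[ℂ] K) (g : G) : L2X K →L[ℂ] L2X K :=
  fld μ fun x => B (coc g x)

lemma Tw_coeFn {B : Γ → K →L[ℂ] K} (hB : ∀ γ, ‖B γ‖ ≤ 1) (g : G) (ξ : L2X K) :
    Tw B g ξ =ᵐ[μ] fun x => B (coc g x) (ξ x) := (isFld_coc B hB g).coeFn ξ

lemma norm_Tw_le {B : Γ → K →L[ℂ] K} (hB : ∀ γ, ‖B γ‖ ≤ 1) (g : G) : ‖Tw B g‖ ≤ 1 :=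
  norm_fld_le zero_le_one (Eventually.of_forall fun _ => hB _)

/-- the defect of invariance -/
noncomputable def df (B : Γ → K →L[ℂ] K) (ξ : L2X K) (g : G) : ℝ := ‖V g ξ - Tw B g ξ‖

lemma df_coeFn {B : Γ → K →L[ℂ] K} (hB : ∀ γ, ‖B γ‖ ≤ 1) (ξ : L2X K) (g : G) :
    (V g ξ - Tw B g ξ : L2X K) =ᵐ[μ] fun x => ξ (g • x) - B (coc g x) (ξ x) := by
  filter_upwards [Lp.coeFn_sub (V g ξ) (Tw B g ξ), V_coeFn g ξ, Tw_coeFn hB g ξ] with x h1 h2 h3
  rw [h1, Pi.sub_apply, h2, h3]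

lemma df_sq {B : Γ → K →L[ℂ] K} (hB : ∀ γ, ‖B γ‖ ≤ 1) (ξ : L2X K) (g : G) :
    df B ξ g ^ 2 = ∫ x, ‖ξ (g • x) - B (coc g x) (ξ x)‖ ^ 2 ∂μ := by
  rw [df, norm_sq_eq_integral]
  exact integral_congr_ae ((df_coeFn hB ξ g).mono fun x hx => by simp only [hx])

omit [InnerProductSpace ℂ K] in
lemma norm_le_one {ξ : L2X K} (hξ : ∀ᵐ x ∂μ, ‖ξ x‖ ≤ 1) : ‖ξ‖ ≤ 1 := by
  refine (pow_le_one_iff_of_nonneg (norm_nonneg _) two_ne_zero).1 ?_
  rw [norm_sq_eq_integral]
  refine (integral_mono_ae (integrable_norm_sq ξ) (integrable_const (1 : ℝ)) ?_).trans (by simp)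
  filter_upwards [hξ] with x hx using pow_le_one₀ (norm_nonneg _) hx

/-- fields taking countably many values, each of which is asymptotically zero on `ξ` -/
theorem tendsto_fld {κ S : Type*} {l : Filter κ} [Countable S] [MeasurableSpace S]
    [DiscreteMeasurableSpace S] {c : X → S} (hc : Measurable c) {D : κ → S → K →L[ℂ] K} {C : ℝ}
    (hD : ∀ k s, ‖D k s‖ ≤ C) {ξ : κ → L2X K} (hξ : ∀ k, ∀ᵐ x ∂μ, ‖ξ k x‖ ≤ 1)
    (h : ∀ s, Tendsto (fun k => ‖amp (D k s) (ξ k)‖) l (𝓝 0)) :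
    Tendsto (fun k => ‖fld μ (fun x => D k (c x)) (ξ k)‖) l (𝓝 0) := by
  have hA : ∀ s, MeasurableSet (c ⁻¹' {s}) := fun s => hc (MeasurableSet.of_discrete)
  have hd : Pairwise (Function.onFun Disjoint fun s => c ⁻¹' {s}) := fun s t hst =>
    Set.disjoint_left.2 fun x h1 h2 => hst (h1.symm.trans h2)
  have hU : ⋃ s, c ⁻¹' {s} = Set.univ := by ext x; simp
  let a : κ → S → ℝ := fun k s => ∫ x in c ⁻¹' {s}, ‖fld μ (fun x => D k (c x)) (ξ k) x‖ ^ 2 ∂μ
  have e1 : ∀ k, ‖fld μ (fun x => D k (c x)) (ξ k)‖ ^ 2 = ∑' s, a k s := fun k => by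
    rw [norm_sq_eq_integral, ← integral_iUnion hA hd (integrable_norm_sq _).integrableOn, hU,
      Measure.restrict_univ]
  have hf : ∀ k, fld μ (fun x => D k (c x)) (ξ k) =ᵐ[μ] fun x => D k (c x) (ξ k x) := fun k =>
    (IsFld.of_countable hc (D k) (hD k)).coeFn _
  have ha0 : ∀ k s, 0 ≤ a k s := fun k s => integral_nonneg fun x => by positivity
  have e2 : ∀ k s, a k s ≤ ‖amp (D k s) (ξ k)‖ ^ 2 := fun k s => by
    rw [norm_sq_eq_integral]
    refine le_trans (le_of_eq ?_) (setIntegral_le_integral (s := c ⁻¹' {s}) (integrable_norm_sq _)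
      (Eventually.of_forall fun x => by positivity))
    refine setIntegral_congr_ae (hA s) ?_
    filter_upwards [hf k, amp_coeFn (D k s) (ξ k)] with x h1 h2 hx
    rw [h1, h2, show c x = s from hx]
  have e3 : ∀ k s, a k s ≤ μ.real (c ⁻¹' {s}) * C ^ 2 := fun k s => by
    rw [← smul_eq_mul, ← setIntegral_const]
    refine setIntegral_mono_ae (integrable_norm_sq _).integrableOn (integrable_const _).integrableOn ?_
    filter_upwards [hf k, hξ k] with x h1 h2
    rw [h1]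
    refine pow_le_pow_left₀ (norm_nonneg _) (((D k _).le_of_opNorm_le (hD k _) _).trans ?_) 2
    exact mul_le_of_le_one_right ((norm_nonneg _).trans (hD k s)) h2
  have hs : Summable fun s => μ.real (c ⁻¹' {s}) * C ^ 2 := by
    refine Summable.mul_right _ (ENNReal.summable_toReal ?_)
    rw [← measure_iUnion hd hA]; exact measure_ne_top _ _
  have e4 := tendsto_tsum_of_dominated_convergence (𝓕 := l) (f := a) (g := fun _ => 0) hs
    (fun s => squeeze_zero (ha0 · s) (e2 · s) (by simpa using (h s).pow 2))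
    (Eventually.of_forall fun k s => by rw [Real.norm_of_nonneg (ha0 k s)]; exact e3 k s)
  simp only [tsum_zero, ← e1] at e4
  simpa using e4.sqrt

/-- the data of the engine -/
structure EData {κ : Type*} (l : Filter κ) (ξ : κ → L2X K) (B : κ → Γ → K →L[ℂ] K) : Prop where
  bdd : ∀ k, ∀ᵐ x ∂μ, ‖ξ k x‖ ≤ 1
  contr : ∀ k γ, ‖B k γ‖ ≤ 1
  mul : ∀ γ γ', Tendsto (fun k => ‖amp (B k γ * B k γ' - B k (γ * γ')) (ξ k)‖) l (𝓝 0)

variable {κ : Type*} {l : Filter κ} {ξ : κ → L2X K} {B : κ → Γ → K →L[ℂ] K}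

variable (l ξ B) in
/-- `limsup df ≤ ε` -/
def Sm (g : G) (ε : ℝ) : Prop := ∀ ε' > ε, ∀ᶠ k in l, df (B k) (ξ k) g ≤ ε'

variable (l ξ B) in
/-- asymptotic invariance -/
def Inv (g : G) : Prop := Tendsto (fun k => df (B k) (ξ k) g) l (𝓝 0)

lemma inv_iff {g : G} : Inv l ξ B g ↔ ∀ ε > 0, Sm l ξ B g ε := by
  refine ⟨fun h ε hε ε' hε' => h.eventually (ge_mem_nhds (hε.trans hε')), fun h => ?_⟩
  refine tendsto_order.2 ⟨fun a ha => Eventually.of_forall fun k => ha.trans_le (norm_nonneg _),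
    fun a ha => (h (a / 4) (by positivity) (a / 2) (by linarith)).mono fun k hk => by linarith⟩

lemma Inv.sm {g : G} (h : Inv l ξ B g) : Sm l ξ B g 0 := fun _ hε => h.eventually (ge_mem_nhds hε)

theorem EData.sm_mul (hE : EData l ξ B) {g h : G} {ε η : ℝ} (hg : Sm l ξ B g ε)
    (hh : Sm l ξ B h η) : Sm l ξ B (g * h) (ε + η) := by
  intro ε' hε'
  set δ := (ε' - (ε + η)) / 3 with hδ
  have hδ0 : 0 < δ := by rw [hδ]; linarith
  have hD : ∀ k (s : Γ × Γ), ‖B k s.1 * B k s.2 - B k (s.1 * s.2)‖ ≤ 2 := fun k s => by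
    refine (norm_sub_le _ _).trans ?_
    have := (norm_mul_le (B k s.1) (B k s.2)).trans
      (mul_le_one₀ (hE.contr k _) (norm_nonneg _) (hE.contr k _))
    linarith [hE.contr k (s.1 * s.2)]
  have hc : Measurable fun x : X => (coc g (h • x), coc h x) := by fun_prop
  have h3 := tendsto_fld (l := l) hc hD hE.bdd fun s => hE.mul s.1 s.2
  filter_upwards [hg (ε + δ) (by linarith), hh (η + δ) (by linarith),
    h3.eventually (ge_mem_nhds hδ0)] with k h1 h2 h3
  have hF : IsFld μ fun x => B k (coc g (h • x)) := (isFld_coc _ (hE.contr k) g).smul_arg h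
  have e : V (g * h) (ξ k) - Tw (B k) (g * h) (ξ k)
      = V h (V g (ξ k) - Tw (B k) g (ξ k))
        + fld μ (fun x => B k (coc g (h • x))) (V h (ξ k) - Tw (B k) h (ξ k))
        + fld μ (fun x => B k (coc g (h • x)) * B k (coc h x)
          - B k (coc g (h • x) * coc h x)) (ξ k) := by
    refine Lp.ext ?_
    have hadd : ∀ a b c : L2X K, (a + b + c : L2X K) =ᵐ[μ] fun x => a x + b x + c x :=
      fun a b c => by
        filter_upwards [Lp.coeFn_add (a + b) c, Lp.coeFn_add a b] with x h1 h2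
        rw [h1, Pi.add_apply, h2, Pi.add_apply]
    filter_upwards [df_coeFn (hE.contr k) (ξ k) (g * h), hadd _ _ _,
      V_coeFn h (V g (ξ k) - Tw (B k) g (ξ k)), ae_smul h (df_coeFn (hE.contr k) (ξ k) g),
      hF.coeFn (V h (ξ k) - Tw (B k) h (ξ k)), df_coeFn (hE.contr k) (ξ k) h,
      (IsFld.of_countable hc _ (hD k)).coeFn (ξ k)] with x a1 a2 a4 a5 a6 a7 a8
    rw [a1, a2, a4, a5, a6, a7, a8, coc_mul, mul_smul]
    simp
  have h4 : ‖fld μ (fun x => B k (coc g (h • x))) (V h (ξ k) - Tw (B k) h (ξ k))‖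
      ≤ df (B k) (ξ k) h :=
    (ContinuousLinearMap.le_of_opNorm_le _
      (norm_fld_le zero_le_one (Eventually.of_forall fun _ => hE.contr k _)) _).trans_eq (one_mul _)
  have h5 : df (B k) (ξ k) (g * h) ≤ df (B k) (ξ k) g + df (B k) (ξ k) h + δ := by
    rw [df, e]
    refine norm_add₃_le.trans (add_le_add (add_le_add (norm_V _ _).le h4) h3)
  linarith

theorem EData.inv_mul (hE : EData l ξ B) {g h : G} (hg : Inv l ξ B g) (hh : Inv l ξ B h) :
    Inv l ξ B (g * h) :=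
  inv_iff.2 fun ε hε ε' hε' => hE.sm_mul hg.sm hh.sm ε' (by linarith)

lemma tendsto_sqrt_real {α : Type*} {F : Filter α} {A : α → Set X}
    (h : Tendsto (fun a => μ (A a)) F (𝓝 0)) :
    Tendsto (fun a => 2 * √(μ.real (A a))) F (𝓝 0) := by
  simpa [Measure.real] using ((ENNReal.tendsto_toReal ENNReal.zero_ne_top).comp h).sqrt.const_mul 2

/-- two fields that agree off a small set -/
lemma norm_fld_sub_le {c c' : X → Γ} (hc : Measurable c) (hc' : Measurable c')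
    {D : Γ → K →L[ℂ] K} (hD : ∀ γ, ‖D γ‖ ≤ 1) {ζ : L2X K} (hζ : ∀ᵐ x ∂μ, ‖ζ x‖ ≤ 1) :
    ‖fld μ (fun x => D (c x)) ζ - fld μ (fun x => D (c' x)) ζ‖ ≤ 2 * √(μ.real {x | c x ≠ c' x}) := by
  have e : (fld μ (fun x => D (c x)) ζ - fld μ (fun x => D (c' x)) ζ : L2X K)
      =ᵐ[μ] fun x => D (c x) (ζ x) - D (c' x) (ζ x) := by
    filter_upwards [Lp.coeFn_sub (fld μ (fun x => D (c x)) ζ) (fld μ (fun x => D (c' x)) ζ),
      (IsFld.of_countable hc D hD).coeFn ζ, (IsFld.of_countable hc' D hD).coeFn ζ] with x h1 h2 h3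
    rw [h1, Pi.sub_apply, h2, h3]
  refine norm_le_of_support _ (measurableSet_eq_fun hc hc').compl (measure_ne_top _ _) zero_le_two
    ?_ (e.mono fun x hx hx' => by simp only [hx, show c x = c' x from not_not.1 hx', sub_self])
  filter_upwards [e, hζ] with x hx h1
  rw [hx]
  have h2 : ∀ γ, ‖D γ (ζ x)‖ ≤ 1 := fun γ => ((D γ).le_of_opNorm_le (hD γ) _).trans (by simpa)
  linarith [norm_sub_le (D (c x) (ζ x)) (D (c' x) (ζ x)), h2 (c x), h2 (c' x)]

lemma tendsto_coc_smul_ne (h : G) :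
    Tendsto (fun u : G => μ {x | coc h (u • x) ≠ coc h x}) (𝓝 1) (𝓝 0) := by
  have h1 := (tendsto_coc_ne h).comp
    ((by fun_prop : Continuous fun u : G => h * u).tendsto' 1 h (mul_one h))
  have h2 := h1.add tendsto_coc_ne_one
  rw [add_zero] at h2
  refine tendsto_of_tendsto_of_tendsto_of_le_of_le tendsto_const_nhds h2 (fun _ => bot_le)
    fun u => le_trans (measure_mono fun x hx => ?_) (measure_union_le _ _)
  by_contra hx'
  simp only [Set.mem_union, Set.mem_ofPred_eq, not_or, not_not, coc_mul] at hx'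
  exact hx (by rw [← hx'.1, hx'.2, mul_one])

variable [CompleteSpace K]

/-- equicontinuity along a vector group normalised by asymptotically invariant shears -/
theorem EData.sm_small (hE : EData l ξ B) (h1 : Inv l ξ B 1) {u : E2 → G} (hu : Continuous u)
    (hadd : ∀ s t, u (s + t) = u t * u s)
    (hsh : ∀ i j : Fin 2, i ≠ j → ∀ m : ℝ, ∃ h, Inv l ξ B h ∧ ∀ t, h * u t = u (sh i j m t) * h)
    {ε : ℝ} (hε : 0 < ε) : ∀ᶠ t in 𝓝 (0 : E2), Sm l ξ B (u t) ε := by
  have hu0 : u 0 = 1 := by simpa using hadd 0 0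
  have hut : Tendsto u (𝓝 0) (𝓝 1) := hu.tendsto' _ _ hu0
  have hst : ∀ ζ : L2X K, ‖ζ‖ ≤ 1 → Stat (fun t => V (u t) ζ) (fun t => ⟪ζ, V (u t) ζ⟫_ℂ) :=
    fun ζ hζ => ⟨((continuous_V ζ).comp hu).aestronglyMeasurable,
      fun s t => by rw [hadd, V_mul, inner_V], fun s => by rwa [norm_V]⟩
  obtain ⟨δ, hδ, hk⟩ := equi (l := l) (fun k => hst (ξ k) (norm_le_one (hE.bdd k)))
    (fun i j hij m η hη => by
      obtain ⟨h, hh, hc⟩ := hsh i j hij m
      obtain ⟨ρ, hρ, hρ'⟩ := Metric.eventually_nhds_iff.1 ((tendsto_sqrt_real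
        ((tendsto_coc_smul_ne h).comp hut)).eventually (ge_mem_nhds (half_pos hη)))
      refine ⟨ρ, hρ, ?_⟩
      filter_upwards [hh.eventually (ge_mem_nhds (half_pos hη))] with k hk
      refine ⟨fun t => V (u t) (V h (ξ k)), Tw (B k) h, norm_Tw_le (hE.contr k) h, ?_, fun t ht => ?_⟩
      · convert hst (V h (ξ k)) (by rw [norm_V]; exact norm_le_one (hE.bdd k)) using 2 with t
        rw [← V_mul, hc, V_mul, inner_V]
      · have hb : ∀ᵐ x ∂μ, ‖V (u t) (ξ k) x‖ ≤ 1 := by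
          filter_upwards [V_coeFn (u t) (ξ k), ae_smul (u t) (hE.bdd k)] with x h1 h2
          rwa [h1]
        have e : V (u t) (Tw (B k) h (ξ k))
            = fld μ (fun x => B k (coc h (u t • x))) (V (u t) (ξ k)) := by
          refine Lp.ext ?_
          filter_upwards [V_coeFn (u t) (Tw (B k) h (ξ k)),
            ae_smul (u t) (Tw_coeFn (hE.contr k) h (ξ k)),
            ((isFld_coc _ (hE.contr k) h).smul_arg (u t)).coeFn (V (u t) (ξ k)),
            V_coeFn (u t) (ξ k)] with x a1 a2 a3 a4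
          rw [a1, a2, a3, a4]
        have a1 := norm_fld_sub_le (c := fun x => coc h (u t • x)) (c' := fun x => coc h x)
          (by fun_prop) (by fun_prop) (hE.contr k) hb
        have a2 := hρ' (y := t) (by simpa using ht)
        have a3 : ‖V (u t) (V h (ξ k)) - V (u t) (Tw (B k) h (ξ k))‖ = df (B k) (ξ k) h := by
          rw [← map_sub, norm_V, df]
        rw [← e] at a1
        have a4 := norm_sub_le_norm_sub_add_norm_sub (V (u t) (V h (ξ k)))
          (V (u t) (Tw (B k) h (ξ k))) (Tw (B k) h (V (u t) (ξ k)))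
        exact a4.trans (by rw [a3]; exact (add_le_add hk (a1.trans a2)).trans_eq (add_halves η)))
    (half_pos hε)
  filter_upwards [Metric.ball_mem_nhds 0 hδ, (tendsto_sqrt_real
    (tendsto_coc_ne_one.comp hut)).eventually (ge_mem_nhds (half_pos hε))] with t ht ht' ε' hε'
  filter_upwards [hk, h1.eventually (ge_mem_nhds (sub_pos.2 hε'))] with k hk hk1
  have a1 := hk t (mem_ball_zero_iff.1 ht)
  have a2 := norm_fld_sub_le (c := fun x => coc (u t) x) (c' := fun x => coc 1 x)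
    (by fun_prop) (by fun_prop) (hE.contr k) (hE.bdd k)
  simp only [hu0, V_one] at a1
  simp only [df, V_one] at hk1
  have a3 : {x | coc (u t) x ≠ coc 1 x} = {x | coc (u t) x ≠ 1} := by simp
  rw [a3, norm_sub_rev] at a2
  have a4 := norm_sub_le_norm_sub_add_norm_sub (V (u t) (ξ k)) (ξ k) (Tw (B k) (u t) (ξ k))
  have a5 := norm_sub_le_norm_sub_add_norm_sub (ξ k) (Tw (B k) 1 (ξ k)) (Tw (B k) (u t) (ξ k))
  have a6 : ‖Tw (B k) 1 (ξ k) - Tw (B k) (u t) (ξ k)‖ ≤ ε / 2 := a2.trans ht'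
  rw [df]
  linarith

lemma exists_small {P : E2 → Prop} (h : ∀ᶠ t in 𝓝 (0 : E2), P t) (i : Fin 2) :
    ∃ a : ℝ, a ≠ 0 ∧ P (EuclideanSpace.single i a) ∧ P (EuclideanSpace.single i (-a)) := by
  obtain ⟨δ, hδ, h⟩ := Metric.eventually_nhds_iff.1 h
  refine ⟨δ / 2, by positivity, h ?_, h ?_⟩ <;>
    simp [abs_of_pos hδ] <;> linarith

/-- **Propagation of invariance.** -/
theorem EData.inv_all (hE : EData l ξ B)
    (h12 : ∀ b, Inv l ξ B (tv (show (1 : Fin 3) ≠ 2 by decide) b))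
    (h21 : ∀ b, Inv l ξ B (tv (show (2 : Fin 3) ≠ 1 by decide) b)) (g : G) : Inv l ξ B g := by
  have h1 : Inv l ξ B 1 := by simpa using h12 0
  have n01 : (0 : Fin 3) ≠ 1 := by decide
  have n02 : (0 : Fin 3) ≠ 2 := by decide
  have n12 : (1 : Fin 3) ≠ 2 := by decide
  have hp : ∀ ε > 0, ∀ᶠ t in 𝓝 (0 : E2), Sm l ξ B (tv n01 (t 0) * tv n02 (t 1)) ε := by
    intro ε hε
    refine hE.sm_small h1 (u := fun t => tv n01 (t 0) * tv n02 (t 1)) (by fun_prop)
      (fun s t => ?_) (fun i j hij m => ?_) hε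
    · ext p q
      simp only [← mul_assoc, mul_tv_apply, tv_apply]
      fin_cases p <;> fin_cases q <;> simp [add_comm]
    · fin_cases i <;> fin_cases j <;> simp at hij
      · refine ⟨_, h12 (-m), fun t => ?_⟩
        ext p q
        simp only [← mul_assoc, mul_tv_apply, tv_apply, sh_apply]
        fin_cases p <;> fin_cases q <;> simp
      · refine ⟨_, h21 (-m), fun t => ?_⟩
        ext p q
        simp only [← mul_assoc, mul_tv_apply, tv_apply, sh_apply]
        fin_cases p <;> fin_cases q <;> simp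
  have hm : ∀ ε > 0, ∀ᶠ t in 𝓝 (0 : E2), Sm l ξ B (tv n01.symm (t 0) * tv n02.symm (t 1)) ε := by
    intro ε hε
    refine hE.sm_small h1 (u := fun t => tv n01.symm (t 0) * tv n02.symm (t 1)) (by fun_prop)
      (fun s t => ?_) (fun i j hij m => ?_) hε
    · ext p q
      simp only [← mul_assoc, mul_tv_apply, tv_apply]
      fin_cases p <;> fin_cases q <;> simp [add_comm]
    · fin_cases i <;> fin_cases j <;> simp at hij
      · refine ⟨_, h21 m, fun t => ?_⟩
        ext p q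
        simp only [← mul_assoc, mul_tv_apply, tv_apply, sh_apply]
        fin_cases p <;> fin_cases q <;> simp [add_comm, mul_comm]
      · refine ⟨_, h12 m, fun t => ?_⟩
        ext p q
        simp only [← mul_assoc, mul_tv_apply, tv_apply, sh_apply]
        fin_cases p <;> fin_cases q <;> simp [add_comm, mul_comm]
  have left : ∀ {i j k : Fin 3} (hij : i ≠ j) (hjk : j ≠ k) (hik : i ≠ k),
      (∀ ε > 0, ∃ a, a ≠ 0 ∧ Sm l ξ B (tv hij a) ε ∧ Sm l ξ B (tv hij (-a)) ε) →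
      (∀ b, Inv l ξ B (tv hjk b)) → ∀ c, Inv l ξ B (tv hik c) := by
    intro i j k hij hjk hik ha hb c
    refine inv_iff.2 fun ε hε => ?_
    obtain ⟨a, ha0, ha1, ha2⟩ := ha _ (half_pos hε)
    have := hE.sm_mul (hE.sm_mul (hE.sm_mul ha1 (hb (c / a)).sm) ha2) (hb (-(c / a))).sm
    rw [← tv_inv, ← tv_inv, tv_comm hij hjk hik, mul_div_cancel₀ _ ha0] at this
    simpa using this
  have right : ∀ {i j k : Fin 3} (hij : i ≠ j) (hjk : j ≠ k) (hik : i ≠ k),
      (∀ ε > 0, ∃ a, a ≠ 0 ∧ Sm l ξ B (tv hjk a) ε ∧ Sm l ξ B (tv hjk (-a)) ε) →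
      (∀ b, Inv l ξ B (tv hij b)) → ∀ c, Inv l ξ B (tv hik c) := by
    intro i j k hij hjk hik ha hb c
    refine inv_iff.2 fun ε hε => ?_
    obtain ⟨a, ha0, ha1, ha2⟩ := ha _ (half_pos hε)
    have := hE.sm_mul (hE.sm_mul (hE.sm_mul (hb (c / a)).sm ha1) (hb (-(c / a))).sm) ha2
    rw [← tv_inv, ← tv_inv, tv_comm hij hjk hik, div_mul_cancel₀ _ ha0] at this
    simpa using this
  have h02 := left n01 n12 n02 (fun ε hε => by simpa using exists_small (hp ε hε) 0) h12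
  have h01 := left n02 n12.symm n01 (fun ε hε => by simpa using exists_small (hp ε hε) 1) h21
  have h10 := right n12 n02.symm n01.symm (fun ε hε => by simpa using exists_small (hm ε hε) 1) h12
  have h20 := right n12.symm n01.symm n02.symm
    (fun ε hε => by simpa using exists_small (hm ε hε) 0) h21
  refine tv_induction (Inv l ξ B) (fun i j hij b => ?_) (fun _ _ => hE.inv_mul) g
  fin_cases i <;> fin_cases j
  exacts [absurd rfl hij, h01 b, h02 b, h10 b, absurd rfl hij, h12 b, h20 b, h21 b, absurd rfl hij]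

omit [CompleteSpace K] in
lemma measurable_defect (ζ : L2X K) (D : Γ → K →L[ℂ] K) {α : Type*} [MeasurableSpace α]
    {y x : α → X} {c : α → Γ} (hy : Measurable y) (hx : Measurable x) (hc : Measurable c) :
    Measurable fun a => ‖ζ (y a) - D (c a) (ζ (x a))‖ₑ := by
  have h := Lp.stronglyMeasurable ζ
  refine ((h.comp_measurable hy).sub (sm_apply (T := fun a => D (c a)) (fun v => ?_)
    (h.comp_measurable hx))).enorm
  exact (StronglyMeasurable.of_discrete (f := fun γ : Γ => D γ v)).comp_measurable hc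

omit [CompleteSpace K] in
lemma lintegral_defect_le {D : Γ → K →L[ℂ] K} (hD : ∀ γ, ‖D γ‖ ≤ 1) (ζ : L2X K) (g : G) :
    ∫⁻ x, ‖ζ (g • x) - D (coc g x) (ζ x)‖ₑ ∂μ ≤ ENNReal.ofReal (df D ζ g) := by
  rw [df, Lp.norm_def, ENNReal.ofReal_toReal (Lp.eLpNorm_ne_top _),
    eLpNorm_congr_ae (df_coeFn hD ζ g), ← eLpNorm_one_eq_lintegral_enorm]
  exact eLpNorm_le_eLpNorm_of_exponent_le one_le_two
    ((Lp.aestronglyMeasurable _).congr (df_coeFn hD ζ g))

omit [CompleteSpace K] in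
lemma enorm_defect_le {D : K →L[ℂ] K} (hD : ‖D‖ ≤ 1) {a b : K} (ha : ‖a‖ ≤ 1) (hb : ‖b‖ ≤ 1) :
    ‖a - D b‖ₑ ≤ 2 := by
  rw [← ofReal_norm, ← ENNReal.ofReal_ofNat]
  refine ENNReal.ofReal_le_ofReal ((norm_sub_le _ _).trans ?_)
  have := D.le_of_opNorm_le hD b
  linarith

omit [CompleteSpace K] in
lemma lintegral_pair_le {D : Γ → K →L[ℂ] K} (hD : ∀ γ, ‖D γ‖ ≤ 1) {ζ : L2X K}
    (hζ : ∀ᵐ x ∂μ, ‖ζ x‖ ≤ 1) (γ : Γ) {A : Set X} (hA : MeasurableSet A) {L : Set G}
    (hL : MeasurableSet L) (hAL : ∀ x ∈ A, ∀ y ∈ A, sec y * ι γ * (sec x)⁻¹ ∈ L) :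
    ∫⁻ x, ∫⁻ y, ‖ζ y - D γ (ζ x)‖ₑ ∂μ ∂μ
      ≤ ∫⁻ g in L, ∫⁻ x, ‖ζ (g • x) - D (coc g x) (ζ x)‖ₑ ∂μ ∂m + 4 * μ Aᶜ := by
  let Φ : G → X → ℝ≥0∞ := fun g x => L.indicator (fun g => ‖ζ (g • x) - D (coc g x) (ζ x)‖ₑ) g
  have hΦ : Measurable (Function.uncurry Φ) :=
    (measurable_defect ζ D (y := fun p : G × X => p.1 • p.2) (x := Prod.snd)
      (c := fun p => coc p.1 p.2) (by fun_prop) (by fun_prop) (by fun_prop)).indicator
      (measurable_fst hL)
  have e1 : ∫⁻ g in L, ∫⁻ x, ‖ζ (g • x) - D (coc g x) (ζ x)‖ₑ ∂μ ∂m = ∫⁻ x, ∫⁻ g, Φ g x ∂m ∂μ := by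
    rw [← lintegral_lintegral_swap hΦ.aemeasurable, ← lintegral_indicator hL]
    refine lintegral_congr fun g => ?_
    by_cases hg : g ∈ L <;> simp [Φ, hg]
  have e2 : ∀ x, ∫⁻ y, Φ (sec y * ι γ * (sec x)⁻¹) x ∂μ ≤ ∫⁻ g, Φ g x ∂m := fun x => by
    have hx : Measurable fun g => Φ g x := hΦ.of_uncurry_right
    rw [← lintegral_mul_right_eq_self (fun g => Φ g x) (sec x)⁻¹,
      lintegral_unfold (f := fun g => Φ (g * (sec x)⁻¹) x) (hx.comp (measurable_mul_const _))]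
    exact lintegral_mono fun y => ENNReal.le_tsum (f := fun δ : Γ => Φ (sec y * ι δ * (sec x)⁻¹) x) γ
  have hi : Measurable (Aᶜ.indicator fun _ : X => (2 : ℝ≥0∞)) := measurable_const.indicator hA.compl
  have hi' : ∫⁻ x, Aᶜ.indicator (fun _ : X => (2 : ℝ≥0∞)) x ∂μ = 2 * μ Aᶜ :=
    lintegral_indicator_const hA.compl _
  rw [e1, show 4 * μ Aᶜ = ∫⁻ x, Aᶜ.indicator (fun _ : X => (2 : ℝ≥0∞)) x + 2 * μ Aᶜ ∂μ by
    rw [lintegral_add_left hi, hi', lintegral_const, measure_univ]; ring,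
    ← lintegral_add_right _ (hi.add_const _)]
  refine lintegral_mono_ae ?_
  filter_upwards [hζ] with x hx
  refine le_trans ?_ (add_le_add (e2 x) le_rfl)
  rw [show Aᶜ.indicator (fun _ : X => (2 : ℝ≥0∞)) x + 2 * μ Aᶜ
      = ∫⁻ y, Aᶜ.indicator (fun _ : X => (2 : ℝ≥0∞)) y + Aᶜ.indicator (fun _ => 2) x ∂μ by
    rw [lintegral_add_left hi, hi', lintegral_const, measure_univ]; ring,
    ← lintegral_add_right _ (hi.add_const _)]
  refine lintegral_mono_ae ?_
  filter_upwards [hζ] with y hy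
  have h2 : ‖ζ y - D γ (ζ x)‖ₑ ≤ 2 := enorm_defect_le (hD γ) hy hx
  by_cases hxA : x ∈ A
  · by_cases hyA : y ∈ A
    · simp [Φ, hAL x hxA y hyA, smul_sec_mul, coc_sec_mul]
    · exact h2.trans (le_add_left (le_add_right (by simp [hyA])))
  · exact h2.trans (le_add_left (le_add_left (by simp [hxA])))

omit [CompleteSpace K] in
theorem EData.tendsto_pair [l.IsCountablyGenerated] (hE : EData l ξ B) (h : ∀ g, Inv l ξ B g)
    (γ : Γ) : Tendsto (fun k => ∫⁻ x, ∫⁻ y, ‖ξ k y - B k γ (ξ k x)‖ₑ ∂μ ∂μ) l (𝓝 0) := by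
  refine ENNReal.tendsto_nhds_zero.2 fun ε hε => ?_
  have hε8 : ε / 8 ≠ 0 := (ENNReal.div_pos hε.ne' (by norm_num)).ne'
  obtain ⟨R, hR⟩ := exists_box hε8
  set L : Set G := box R * {ι γ} * (box R)⁻¹
  have hL : IsCompact L := ((isCompact_box R).mul isCompact_singleton).mul (isCompact_box R).inv
  have hd := tendsto_lintegral_filter_of_dominated_convergence (μ := m.restrict L) (l := l)
    (F := fun k g => ∫⁻ x, ‖ξ k (g • x) - B k (coc g x) (ξ k x)‖ₑ ∂μ) (f := fun _ => 0)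
    (fun _ => 2) (Eventually.of_forall fun k => (measurable_defect (ξ k) (B k)
      (y := fun p : G × X => p.1 • p.2) (x := Prod.snd) (c := fun p => coc p.1 p.2)
      (by fun_prop) (by fun_prop) (by fun_prop)).lintegral_prod_right')
    (Eventually.of_forall fun k => Eventually.of_forall fun g => by
      refine (lintegral_defect_le (hE.contr k) _ g).trans ?_
      refine (ENNReal.ofReal_le_ofReal ((norm_sub_le _ _).trans ?_)).trans_eq
        (ENNReal.ofReal_ofNat 2)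
      have h1 := norm_le_one (hE.bdd k)
      have h2 := (Tw (B k) g).le_of_opNorm_le (norm_Tw_le (hE.contr k) g) (ξ k)
      rw [norm_V]
      linarith)
    (by simpa using ENNReal.mul_ne_top (by norm_num) hL.measure_lt_top.ne)
    (Eventually.of_forall fun g => tendsto_of_tendsto_of_tendsto_of_le_of_le tendsto_const_nhds
      (by simpa using ENNReal.tendsto_ofReal (h g)) (fun _ => bot_le)
      fun k => lintegral_defect_le (hE.contr k) _ g)
  rw [lintegral_zero] at hd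
  filter_upwards [hd.eventually (ge_mem_nhds (ENNReal.half_pos hε.ne'))] with k hk
  refine (lintegral_pair_le (hE.contr k) (hE.bdd k) γ (A := sec ⁻¹' box R)
    (measurable_sec (isCompact_box R).measurableSet) hL.measurableSet fun x hx y hy =>
      Set.mul_mem_mul (Set.mul_mem_mul hy rfl) (Set.inv_mem_inv.2 hx)).trans ?_
  rw [← ENNReal.add_halves ε]
  refine add_le_add hk ((mul_le_mul_right hR 4).trans_eq ?_)
  rw [show (8 : ℝ≥0∞) = 4 * 2 by norm_num, ← mul_div_assoc,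
    ENNReal.mul_div_mul_left _ _ (by norm_num) (by norm_num)]

/-- **ENGINE.**  An asymptotically `SL₂`-invariant field is asymptotically constant and fixed. -/
theorem EData.engine [l.IsCountablyGenerated] (hE : EData l ξ B)
    (h12 : ∀ b, Inv l ξ B (tv (show (1 : Fin 3) ≠ 2 by decide) b))
    (h21 : ∀ b, Inv l ξ B (tv (show (2 : Fin 3) ≠ 1 by decide) b)) :
    Tendsto (fun k => ‖ξ k - cst K (∫ x, ξ k x ∂μ)‖) l (𝓝 0) ∧
      ∀ γ, Tendsto (fun k => ‖B k γ (∫ x, ξ k x ∂μ) - ∫ x, ξ k x ∂μ‖) l (𝓝 0) := by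
  have hi : ∀ k, Integrable (ξ k) μ := fun k => (Lp.memLp (ξ k)).integrable one_le_two
  have key : ∀ γ, Tendsto (fun k => ∫ y, ‖ξ k y - B k γ (∫ x, ξ k x ∂μ)‖ ∂μ) l (𝓝 0) := by
    intro γ
    have h := (ENNReal.tendsto_toReal ENNReal.zero_ne_top).comp
      (hE.tendsto_pair (hE.inv_all h12 h21) γ)
    refine squeeze_zero (fun k => integral_nonneg fun y => norm_nonneg _) (fun k => ?_) h
    have hm := measurable_defect (ξ k) (B k) (y := (Prod.snd : X × X → X)) (x := Prod.fst)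
      (c := fun _ => γ) measurable_snd measurable_fst measurable_const
    rw [Function.comp_apply, lintegral_lintegral_swap hm.aemeasurable,
      integral_norm_eq_lintegral_enorm (f := fun y => ξ k y - B k γ (∫ x, ξ k x ∂μ))
        ((hi k).sub (integrable_const _)).1]
    refine ENNReal.toReal_mono ?_ (lintegral_mono fun y => ?_)
    · refine ne_top_of_le_ne_top (b := ∫⁻ y, ∫⁻ x, (2 : ℝ≥0∞) ∂μ ∂μ) (by simp) ?_
      refine lintegral_mono_ae ?_
      filter_upwards [hE.bdd k] with y hy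
      refine lintegral_mono_ae ?_
      filter_upwards [hE.bdd k] with x hx
      exact enorm_defect_le (hE.contr k γ) hy hx
    · refine le_trans (le_of_eq ?_) (enorm_integral_le_lintegral_enorm _)
      rw [integral_sub (integrable_const _) ((B k γ).integrable_comp (hi k)),
        (B k γ).integral_comp_comm (hi k)]
      simp
  have hfix : ∀ γ, Tendsto (fun k => ‖B k γ (∫ x, ξ k x ∂μ) - ∫ x, ξ k x ∂μ‖) l (𝓝 0) := by
    intro γ
    refine squeeze_zero (fun k => norm_nonneg _) (fun k => ?_) (key γ)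
    refine le_trans (le_of_eq ?_) (norm_integral_le_integral_norm _)
    rw [integral_sub (hi k) (integrable_const _), norm_sub_rev]
    simp
  refine ⟨?_, hfix⟩
  have h2 : Tendsto (fun k => ‖ξ k - cst K (∫ x, ξ k x ∂μ)‖ ^ 2) l (𝓝 0) := by
    have h3 := ((key 1).add (hfix 1)).const_mul 2
    rw [add_zero, mul_zero] at h3
    refine squeeze_zero (fun k => by positivity) (fun k => ?_) h3
    set v := ∫ x, ξ k x ∂μ
    have hv : ‖v‖ ≤ 1 := by simpa using norm_integral_le_of_norm_le_const (hE.bdd k)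
    have hi2 : Integrable (fun y => ‖ξ k y - B k 1 v‖) μ := ((hi k).sub (integrable_const _)).norm
    rw [norm_sq_eq_integral, show ‖B k 1 v - v‖ = ∫ _, ‖B k 1 v - v‖ ∂μ by simp,
      ← integral_add hi2 (integrable_const _), ← integral_const_mul]
    refine integral_mono_ae (integrable_norm_sq _) ((hi2.add (integrable_const _)).const_mul _) ?_
    filter_upwards [Lp.coeFn_sub (ξ k) (cst K v), cst_coeFn v, hE.bdd k] with x h1 h2 h3
    rw [h1, Pi.sub_apply, h2, sq]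
    refine mul_le_mul ((norm_sub_le _ _).trans (by linarith))
      (norm_sub_le_norm_sub_add_norm_sub _ _ _) (norm_nonneg _) zero_le_two
  simpa using h2.sqrt

end Crest.Agent.N111.Eng
end

-- ▼ part N111/C/Defs

/-!
# Row 111, module C (concentration): frozen intermediate statements (helper58).

Everything lives in `ℓ²(Σ)`, `Σ = κ → Γ`, `N = LA Σ`, `x̂ = x (dt 1)`.
-/

set_option autoImplicit false

namespace Crest.Agent.N111.Cn

open MeasureTheory Topology Filter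
open scoped InnerProductSpace
open Crest.OperatorAlgebra

/-- bounded operators on `ℓ²(Σ)` -/
abbrev Op (K : Type) : Type := Ell2 K →L[ℂ] Ell2 K

/-- the setting transported to `ℓ²(Σ)`: `w γ` is a unitary of the corner `p N p`, `p = w 1` -/
structure LSet (κ : Type) [Fintype κ] [DecidableEq κ] where
  w : Γ → Op (κ → Γ)
  mem : ∀ γ, w γ ∈ LA (κ → Γ)
  mul : ∀ γ γ', w (γ * γ') = w γ * w γ'
  star : ∀ γ, star (w γ) = w γ⁻¹
  ne : w 1 (dt 1) ≠ 0
  erg : ∀ Z ∈ LA (κ → Γ), (∀ γ, Commute Z (w γ)) → ∃ c : ℂ, w 1 * Z = c • w 1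
  tr : ∀ i, ∃ ω : Op (κ → Γ) →ₗ[ℂ] ℂ, ω (w 1) = 1 ∧ (∀ T, ω (w 1 * T) = ω T) ∧
    (∀ T, 0 ≤ T → 0 ≤ (ω T).re) ∧
    ∀ T, (∀ γ, Commute T (w γ)) → (∀ g, g i = 1 → Commute T (rho (κ → Γ) g)) →
      ∀ μ, ω (rho (κ → Γ) (Pi.mulSingle i μ) * T * rho (κ → Γ) (Pi.mulSingle i μ)⁻¹) = ω T

/-- bounded real functions -/
def RB (f : Γ → ℝ) : Prop := ∃ C, ∀ μ, |f μ| ≤ C

/-- no right invariant mean at infinity on the left slowly varying functions -/
def NoMeanStmt : Prop :=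
  ∀ m : (Γ → ℝ) → ℝ,
    (∀ f g, RB f → RB g → m (fun μ => f μ + g μ) = m f + m g) →
    (∀ (c : ℝ) f, RB f → m (fun μ => c * f μ) = c * m f) →
    (∀ f, RB f → (∀ μ, 0 ≤ f μ) → 0 ≤ m f) →
    (∀ f, Tendsto f cofinite (𝓝 0) → m f = 0) →
    (∀ f, RB f → (∀ ν, Tendsto (fun μ => f (ν * μ) - f μ) cofinite (𝓝 0)) →
      ∀ ν, m (fun μ => f (μ * ν)) = m f) →
    m (fun _ => 1) = 0

/-- asymptotically central, asymptotically bounded vectors -/
structure LSet.Cen {κ : Type} [Fintype κ] [DecidableEq κ] (S : LSet κ) {α : Type} (l : Filter α)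
    (ζ : α → Ell2 (κ → Γ)) : Prop where
  bnL : ∀ z ∈ (lam (κ → Γ)).span, ∀ ε > 0, ∀ᶠ k in l, ‖z (ζ k)‖ ≤ 2 * ‖z (dt 1)‖ + ε
  bnR : ∀ z ∈ (lam (κ → Γ)).span, ∀ ε > 0, ∀ᶠ k in l, ‖Rm z (ζ k)‖ ≤ 2 * ‖z (dt 1)‖ + ε
  cen : ∀ γ, ∀ z ∈ (lam (κ → Γ)).span, ∀ ε > 0, ∀ᶠ k in l,
    ‖z (ζ k) - Rm z (ζ k)‖ ≤ 4 * ‖(z - S.w γ) (dt 1)‖ + ε

/-- END: asymptotically central vectors of the corner are asymptotically scalar -/
def EndStmt : Prop :=
  ∀ (κ : Type) [Fintype κ] [DecidableEq κ] (S : LSet κ) (α : Type) (l : Filter α)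
    (ζ : α → Ell2 (κ → Γ)), S.Cen l ζ →
    (∀ z ∈ (lam (κ → Γ)).span, ∀ ε > 0, ∀ᶠ k in l,
      ‖z (ζ k) - ζ k‖ ≤ 2 * ‖(z - S.w 1) (dt 1)‖ + ε) →
    ∀ ε > 0, ∀ᶠ k in l, ∃ c : ℂ, ‖ζ k - c • S.w 1 (dt 1)‖ ≤ ε

/-- two-sided slowly varying sequences of functions -/
def Slow {K : Type} [Group K] (Φ : ℕ → K → ℂ) : Prop :=
  ∀ s : K, ∀ ε > 0, ∀ᶠ n in atTop, ∀ g, ‖Φ n (s * g) - Φ n g‖ ≤ ε ∧ ‖Φ n (g * s) - Φ n g‖ ≤ ε

/-- `a` commutes with the lower `SL₂` block -/
def CommH (a : G) : Prop :=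
  ∀ b, Commute a (tv (show (1 : Fin 3) ≠ 2 by decide) b) ∧
    Commute a (tv (show (2 : Fin 3) ≠ 1 by decide) b)

/-- CORE: a centred slowly varying multiplier that is constant off a finite set kills `y` -/
def CoreStmt : Prop :=
  ∀ (κ : Type) [Fintype κ] [DecidableEq κ] (S : LSet κ) (a : ℕ → G) (Φ : ℕ → (κ → Γ) → ℂ),
    (∀ n, CommH (a n)) → (∀ n g, ‖Φ n g‖ ≤ 1) → Slow Φ →
    (∀ n, ∃ c : ℂ, {g | Φ n g ≠ c}.Finite) →
    (∀ n, ∫ x, ⟪S.w (coc (a n) x)⁻¹ (dt 1), mulOp (Φ n) (S.w (coc (a n) x)⁻¹ (dt 1))⟫_ℂ ∂μ = 0) →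
    Tendsto (fun n => ∫ x, ‖mulOp (Φ n) (S.w (coc (a n) x)⁻¹ (dt 1))‖ ^ 2 ∂μ) atTop (𝓝 0)

/-- transport of a `Setting` to `ℓ²(Σ)` -/
def TransStmt : Prop :=
  ∀ (κ H : Type) [Fintype κ] [DecidableEq κ] [NormedAddCommGroup H] [InnerProductSpace ℂ H]
    [CompleteSpace H] (S : Setting κ H), ∃ L : LSet κ, ‖L.w 1 (dt 1)‖ = ‖S.ξ‖ ∧
    ∀ (i : κ) (j₀ : H →L[ℂ] H) (I : Ind (L2X H)), S.IsInd i j₀ I → ‖I.ξ‖ = ‖S.ξ‖ ∧
      ∀ (k : ℕ) (F : Γ → ℝ), RB F → I.ms k F = ∫ x, (⟪L.w (coc (al k)⁻¹ x)⁻¹ (dt 1),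
        mulOp (fun g => (F (g i)⁻¹ : ℂ)) (L.w (coc (al k)⁻¹ x)⁻¹ (dt 1))⟫_ℂ).re ∂μ

end Crest.Agent.N111.Cn
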