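import Crest.Agent.N111.C.Form
import Crest.Agent.N111.Lib.Geo
import Crest.Agent.N111.C.Ap
import Crest.Agent.N111.C.Defs
import Crest.Agent.N111.Grp.NoInv
import Crest.Agent.N111.B.Set

-- ▼ part N111/C/End
section

/-!
# Row 111, module C: END, asymptotically central vectors are asymptotically scalar (helper38).
-/

set_option autoImplicit false
set_option linter.unusedSectionVars false

namespace Crest.Agent.N111.Cn

open Topology Filter
open scoped InnerProductSpace ComplexConjugate ComplexOrder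
open Crest.OperatorAlgebra

/-! ### cutoffs at infinity -/

theorem abs_clamp_sub (a b : ℝ) : |max 0 (min 1 a) - max 0 (min 1 b)| ≤ |a - b| :=
  (abs_max_sub_max_le_max _ _ _ _).trans (max_le (by simp)
    ((abs_min_sub_min_le_max _ _ _ _).trans (max_le (by simp) le_rfl)))

/-- slowly varying cutoffs at infinity -/
structure IsChi (χ : ℕ → Γ → ℝ) : Prop where
  nonneg : ∀ R μ, 0 ≤ χ R μ
  le_one : ∀ R μ, χ R μ ≤ 1
  zero : ∀ μ, ∀ᶠ R in atTop, χ R μ = 0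
  fin : ∀ R, {μ | χ R μ ≠ 1}.Finite
  slow : ∀ ν, ∀ ε > 0, ∀ᶠ R in atTop, ∀ μ, |χ R (ν * μ) - χ R μ| ≤ ε ∧ |χ R (μ * ν) - χ R μ| ≤ ε

theorem exists_chi : ∃ χ, IsChi χ := by
  have h0 : ∀ c : ℝ, ∀ ε > 0, ∀ᶠ R : ℕ in atTop, c / (R + 1) ≤ ε := fun c ε hε =>
    (tendsto_const_nhds.div_atTop (tendsto_atTop_add_const_right _ 1
      tendsto_natCast_atTop_atTop)).eventually (ge_mem_nhds hε)
  refine ⟨fun R μ => max 0 (min 1 (Real.log (nm (ι μ)) / (R + 1) - 1)), fun _ _ => le_max_left _ _,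
    fun _ _ => max_le zero_le_one (min_le_left _ _), fun μ => ?_, fun R => ?_, fun ν ε hε => ?_⟩
  · exact (h0 (Real.log (nm (ι μ))) 1 one_pos).mono fun R hR =>
      max_eq_left ((min_le_right _ _).trans (by linarith))
  · refine (finite_nm_le (Real.exp (2 * (R + 1)))).subset fun μ hμ => ?_
    by_contra h
    have h1 := (Real.lt_log_iff_exp_lt (nm_pos (ι μ))).2 (not_le.1 h)
    have h2 : 2 ≤ Real.log (nm (ι μ)) / (R + 1) := (le_div_iff₀ (by positivity)).2 h1.le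
    exact hμ ((congrArg _ (min_eq_left (by linarith))).trans (max_eq_right zero_le_one))
  · filter_upwards [h0 (Real.log (3 * max (nm (ι ν)) (nm (ι ν)⁻¹))) ε hε] with R hR μ
    obtain ⟨h1, h2⟩ := abs_log_nm_mul_sub_le (ι μ) (ι ν)
    have key : ∀ a b : ℝ, |a - b| ≤ Real.log (3 * max (nm (ι ν)) (nm (ι ν)⁻¹)) →
        |a / (R + 1) - 1 - (b / (R + 1) - 1)| ≤ ε := fun a b h => by
      rw [sub_sub_sub_cancel_right, ← sub_div, abs_div, abs_of_pos (by positivity : (0 : ℝ) < R + 1)]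
      exact (div_le_div_of_nonneg_right h (by positivity)).trans hR
    simp only [map_mul]
    exact ⟨(abs_clamp_sub _ _).trans (key _ _ h2), (abs_clamp_sub _ _).trans (key _ _ h1)⟩

/-! ### real multipliers -/

section
variable {K : Type}

/-- multiplication by a real function -/
noncomputable def rm (φ : K → ℝ) : Op K := mulOp fun g => (φ g : ℂ)

/-- bounded real functions -/
def Rb (φ : K → ℝ) : Prop := Bdd fun g => (φ g : ℂ)

variable {φ ψ : K → ℝ} {C : ℝ}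

theorem rb_of (h : ∀ g, |φ g| ≤ C) : Rb φ := ⟨C, fun g => by simpa using h g⟩

theorem norm_rm_le (hC : 0 ≤ C) (h : ∀ g, |φ g| ≤ C) : ‖rm φ‖ ≤ C :=
  norm_mulOp_le hC fun g => by simpa using h g

theorem norm_rm_sub_le (hφ : Rb φ) (hψ : Rb ψ) (hC : 0 ≤ C) (h : ∀ g, |φ g - ψ g| ≤ C) :
    ‖rm φ - rm ψ‖ ≤ C := by
  rw [rm, rm, ← mulOp_sub hφ hψ]
  exact norm_mulOp_le hC fun g => by exact_mod_cast h g

theorem hasSum_rm (hφ : Rb φ) (ξ : Ell2 K) :
    HasSum (fun g => ((φ g * ‖ξ g‖ ^ 2 : ℝ) : ℂ)) ⟪ξ, rm φ ξ⟫_ℂ := by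
  refine (hasSum_inner ξ (rm φ ξ)).congr_fun fun g => ?_
  rw [rm, hφ.mulOp_apply, mul_left_comm, Complex.conj_mul']
  push_cast; rfl

theorem rm_nonneg (hφ : Rb φ) (h : ∀ g, 0 ≤ φ g) (ξ : Ell2 K) : 0 ≤ ⟪ξ, rm φ ξ⟫_ℂ :=
  have := Complex.orderClosedTopology
  (hasSum_rm hφ ξ).nonneg fun g => Complex.zero_le_real.2 (mul_nonneg (h g) (sq_nonneg _))

theorem sum_le_rm (hφ : Rb φ) (h : ∀ g, 0 ≤ φ g) (ξ : Ell2 K) (s : Finset K) :
    ∑ g ∈ s, φ g * ‖ξ g‖ ^ 2 ≤ (⟪ξ, rm φ ξ⟫_ℂ).re :=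
  sum_le_hasSum s (fun g _ => mul_nonneg (h g) (sq_nonneg _))
    (by simpa only [Complex.ofReal_re] using Complex.hasSum_re (hasSum_rm hφ ξ))

variable [Group K]

theorem rho_rm (hφ : Rb φ) (h : K) : rho K h * rm φ * rho K h⁻¹ = rm fun g => φ (g * h) := by
  ext1 ξ
  refine l2_ext fun x => ?_
  have := Bdd.comp hφ fun g => g * h
  simp [rm, hφ.mulOp_apply, this.mulOp_apply]

theorem norm_rm_lam_le (hφ : Rb φ) (h : K) (hC : 0 ≤ C) (H : ∀ g, |φ (h⁻¹ * g) - φ g| ≤ C) :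
    ‖rm φ * lam K h - lam K h * rm φ‖ ≤ C := by
  have h1 := Bdd.comp hφ fun g => h⁻¹ * g
  have e : lam K h * rm φ = rm (fun g => φ (h⁻¹ * g)) * lam K h := by
    ext1 ξ
    exact l2_ext fun x => by simp [rm, hφ.mulOp_apply, h1.mulOp_apply]
  rw [e, ← sub_mul]
  refine (norm_mul_le _ _).trans ((mul_le_mul (norm_rm_sub_le hφ h1 hC fun g => ?_)
    ((lam K).norm_le h) (norm_nonneg _) hC).trans_eq (mul_one _))
  rw [abs_sub_comm]; exact H g

end

theorem tendsto_zero_of {β E : Type*} [NormedAddCommGroup E] {l : Filter β} {f : β → E}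
    (h : ∀ ε > 0, ∀ᶠ k in l, ‖f k‖ ≤ ε) : Tendsto f l (𝓝 0) :=
  NormedAddGroup.tendsto_nhds_zero.2 fun ε hε =>
    (h (ε / 2) (half_pos hε)).mono fun _ hk => hk.trans_lt (half_lt_self hε)

/-! ### the corner -/

variable {κ : Type} [Fintype κ] [DecidableEq κ] {S : LSet κ} {α : Type} {l : Filter α}
  {ζ ζ' : α → Ell2 (κ → Γ)} {X : α → Op (κ → Γ)} {T : Op (κ → Γ)} {C : ℝ}

theorem LSet.norm_le (S : LSet κ) (γ : Γ) : ‖S.w γ‖ ≤ 1 := by
  have h : ∀ γ, ‖S.w γ‖ * ‖S.w γ‖ = ‖S.w 1‖ := fun γ => by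
    rw [← CStarRing.norm_star_mul_self, S.star, ← S.mul, inv_mul_cancel]
  have h1 : ‖S.w 1‖ ≤ 1 := by nlinarith [h 1, norm_nonneg (S.w 1)]
  nlinarith [h γ, norm_nonneg (S.w γ)]

/-- `ζ` lives asymptotically in the corner -/
def LSet.Un (S : LSet κ) (l : Filter α) (ζ : α → Ell2 (κ → Γ)) : Prop :=
  ∀ z ∈ (lam (κ → Γ)).span, ∀ ε > 0, ∀ᶠ k in l, ‖z (ζ k) - ζ k‖ ≤ 2 * ‖(z - S.w 1) (dt 1)‖ + ε

theorem LSet.Cen.comp (h : S.Cen l ζ) {β : Type} {l' : Filter β} {f : β → α}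
    (hf : Tendsto f l' l) : S.Cen l' fun k => ζ (f k) :=
  ⟨fun z hz ε hε => hf.eventually (h.bnL z hz ε hε), fun z hz ε hε => hf.eventually
    (h.bnR z hz ε hε), fun γ z hz ε hε => hf.eventually (h.cen γ z hz ε hε)⟩

theorem LSet.cen_one (S : LSet κ) (l : Filter α) : S.Cen l fun _ => dt 1 :=
  ⟨fun z _ ε hε => .of_forall fun _ => by linarith [norm_nonneg (z (dt 1))],
    fun z hz ε hε => .of_forall fun _ => by
      rw [Rm_hat_LA (span_lam_le hz)]; linarith [norm_nonneg (z (dt 1))],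
    fun γ z hz ε hε => .of_forall fun _ => by
      rw [Rm_hat_LA (span_lam_le hz), sub_self, norm_zero]; positivity⟩

theorem IsLim.commute_w [l.NeBot] (h : IsLim l ζ ζ' X T) (hζ : S.Cen l ζ) (hζ' : S.Cen l ζ')
    (hX : ∀ k, ‖X k‖ ≤ C)
    (hl : ∀ g, Tendsto (fun k => X k * lam _ g - lam _ g * X k) l (𝓝 0)) (γ : Γ) :
    Commute T (S.w γ) :=
  h.commute hζ.bnR hζ'.bnR hX (S.mem γ) (S.norm_le γ) (by rw [S.star]; exact hζ.cen γ⁻¹)
    (hζ'.cen γ) hl

/-- a two-sided asymptotically central family has a scalar limit -/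
theorem IsLim.scalar [l.NeBot] (h : IsLim l ζ ζ' X T) (hζ : S.Cen l ζ) (hζ' : S.Cen l ζ')
    (hu : S.Un l ζ') (hX : ∀ k, ‖X k‖ ≤ C)
    (hl : ∀ g, Tendsto (fun k => X k * lam _ g - lam _ g * X k) l (𝓝 0))
    (hr : ∀ g, Tendsto (fun k => X k - rho _ g * X k * rho _ g⁻¹) l (𝓝 0)) :
    ∃ c : ℂ, T = c • S.w 1 := by
  have hw := h.commute_w hζ hζ' hX hl
  obtain ⟨c, hc⟩ := S.erg T (fun g => (h.commute_rho hζ.bnR hζ'.bnR (hr g)).eq.symm) hw
  refine ⟨c, ?_⟩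
  rw [← hc, ← (hw 1).eq]
  refine (h.mul_unit hζ.bnR hX (S.mem 1) (S.norm_le 1) fun z hz ε hε => ?_).symm
  filter_upwards [hζ'.cen 1 z hz _ (half_pos hε), hu z hz _ (half_pos hε)] with k h1 h2
  rw [norm_sub_rev] at h1
  linarith [norm_sub_le_norm_sub_add_norm_sub (Rm z (ζ' k)) (z (ζ' k)) (ζ' k)]

/-- the cut multiplier in leg `i` -/
noncomputable def Yo (χ : ℕ → Γ → ℝ) (i : κ) (f : Γ → ℝ) (R : ℕ) : Op (κ → Γ) :=
  rm fun g => χ R (g i) * f (g i)

theorem div_mul_le {C ε : ℝ} (hC : 0 ≤ C) (hε : 0 < ε) : ε / (C + 1) * C ≤ ε := by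
  rw [div_mul_eq_mul_div, div_le_iff₀ (by linarith)]; nlinarith

namespace IsChi
variable {χ : ℕ → Γ → ℝ} (H : IsChi χ) {f f' : Γ → ℝ} (i : κ)
include H

theorem abs_le {x : ℝ} (h : |x| ≤ C) (R : ℕ) (μ : Γ) : |χ R μ * x| ≤ C := by
  rw [abs_mul, abs_of_nonneg (H.nonneg R μ)]
  exact (mul_le_of_le_one_left (abs_nonneg _) (H.le_one R μ)).trans h

theorem norm_le (h : ∀ μ, |f μ| ≤ C) (R : ℕ) : ‖Yo χ i f R‖ ≤ C :=
  norm_rm_le ((abs_nonneg _).trans (h 1)) fun _ => H.abs_le (h _) _ _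

theorem rb (hf : RB f) (R : ℕ) : Rb fun g : κ → Γ => χ R (g i) * f (g i) :=
  hf.elim fun _ h => rb_of fun _ => H.abs_le (h _) _ _

theorem small (hf : Tendsto f cofinite (𝓝 0)) {ε : ℝ} (hε : 0 < ε) :
    ∀ᶠ R in atTop, ∀ μ, |χ R μ * f μ| ≤ ε := by
  have hfin := eventually_cofinite.1 (hf.abs.eventually (ge_mem_nhds (by simpa using hε)))
  filter_upwards [hfin.eventually_all.2 fun μ _ => H.zero μ] with R hR μ
  by_cases h : |f μ| ≤ ε
  · exact H.abs_le h _ _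
  · rw [hR μ h, zero_mul, abs_zero]; exact hε.le

theorem add (hf : RB f) (hf' : RB f') (R : ℕ) :
    Yo χ i (fun μ => f μ + f' μ) R = Yo χ i f R + Yo χ i f' R := by
  simp only [Yo, rm, ← mulOp_add (H.rb i hf R) (H.rb i hf' R), mul_add, Complex.ofReal_add]

theorem smul (c : ℝ) (hf : RB f) (R : ℕ) :
    Yo χ i (fun μ => c * f μ) R = (c : ℂ) • Yo χ i f R := by
  simp only [Yo, rm, ← mulOp_smul _ (H.rb i hf R), mul_left_comm _ c, Complex.ofReal_mul c]

theorem tendsto_zero (hf : Tendsto f cofinite (𝓝 0)) : Tendsto (Yo χ i f) atTop (𝓝 0) :=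
  tendsto_zero_of fun _ hε => (H.small hf hε).mono fun _ h => norm_rm_le hε.le fun _ => h _

theorem left (hf : RB f) (hs : ∀ ν, Tendsto (fun μ => f (ν * μ) - f μ) cofinite (𝓝 0))
    (g : κ → Γ) : Tendsto (fun R => Yo χ i f R * lam _ g - lam _ g * Yo χ i f R) atTop (𝓝 0) := by
  obtain ⟨C, hC⟩ := id hf
  have hC0 := (abs_nonneg _).trans (hC 1)
  refine tendsto_zero_of fun ε hε => ?_
  filter_upwards [H.small (hs (g i)⁻¹) (half_pos hε),
    H.slow (g i)⁻¹ (ε / 2 / (C + 1)) (by positivity)] with R a1 a2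
  refine norm_rm_lam_le (H.rb i hf R) g hε.le fun x => ?_
  have a3 := mul_le_mul (a2 (x i)).1 (hC ((g i)⁻¹ * x i)) (abs_nonneg _) (by positivity)
  rw [← abs_mul] at a3
  calc _ = |(χ R ((g i)⁻¹ * x i) - χ R (x i)) * f ((g i)⁻¹ * x i) +
        χ R (x i) * (f ((g i)⁻¹ * x i) - f (x i))| := by
        congr 1; simp only [Pi.mul_apply, Pi.inv_apply]; ring
    _ ≤ _ := (abs_add_le _ _).trans (by linarith [a1 (x i), div_mul_le hC0 (half_pos hε)])

theorem right (hf : RB f) (g : κ → Γ) : Tendsto (fun R => Yo χ i (fun μ => f (μ * g i)) R -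
    rho _ g * Yo χ i f R * rho _ g⁻¹) atTop (𝓝 0) := by
  obtain ⟨C, hC⟩ := id hf
  have hC0 := (abs_nonneg _).trans (hC 1)
  refine tendsto_zero_of fun ε hε => ?_
  filter_upwards [H.slow (g i) (ε / (C + 1)) (by positivity)] with R a2
  rw [Yo, Yo, rho_rm (H.rb i hf R)]
  refine norm_rm_sub_le (rb_of fun x => H.abs_le (hC _) _ _) (rb_of fun x => H.abs_le (hC _) _ _)
    hε.le fun x => ?_
  simp only [Pi.mul_apply]
  rw [← sub_mul, abs_mul, abs_sub_comm]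
  exact (mul_le_mul (a2 (x i)).2 (hC _) (abs_nonneg _) (by positivity)).trans (div_mul_le hC0 hε)

/-- the limit of the cutoffs vanishes -/
theorem lim_zero (hN : NoMeanStmt) (V : Ultrafilter α) (hζ : S.Cen V ζ) (hu : S.Un V ζ)
    {r : α → ℕ} (hr : Tendsto r V atTop) :
    Tendsto (fun k => (⟪ζ k, Yo χ i (fun _ => 1) (r k) (ζ k)⟫_ℂ).re) V (𝓝 0) := by
  have hex : ∀ f, ∃ T, RB f → IsLim V ζ ζ (fun k => Yo χ i f (r k)) T := fun f => by
    by_cases h : RB f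
    · obtain ⟨C, hC⟩ := h
      exact (exists_isLim V hζ.bnR hζ.bnR fun k => H.norm_le i hC _).imp fun _ h _ => h
    · exact ⟨0, fun h' => (h h').elim⟩
  choose T hT using hex
  obtain ⟨ω, ω1, -, ω0, ωr⟩ := S.tr i
  have rb1 : RB fun _ => 1 := ⟨1, fun _ => by simp⟩
  have key := hN (fun f => (ω (T f)).re) ?_ ?_ ?_ ?_ ?_
  · obtain ⟨c, hc⟩ := (hT _ rb1).scalar hζ hζ hu (C := 1)
      (fun _ => H.norm_le i (fun _ => by simp) _)
      (fun g => (H.left i rb1 (fun _ => by simpa using tendsto_const_nhds) g).comp hr)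
      fun g => (H.right i rb1 g).comp hr
    simp only [hc, map_smul, ω1, smul_eq_mul, mul_one] at key
    have h3 := (Complex.continuous_re.tendsto _).comp ((hT _ rb1).ent 1 1)
    have h4 : (⟪dt 1, T (fun _ => 1) (dt 1)⟫_ℂ).re = 0 := by
      rw [hc, ← tau_eq_inner, tau_smul, tau_proj (by rw [← S.mul, one_mul])
        (by rw [S.star, inv_one]), Complex.mul_re, key, Complex.ofReal_im]
      simp
    rw [h4] at h3
    simpa [Function.comp_def] using h3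
  · intro f g hf hg
    obtain ⟨C, hC⟩ := id hf
    obtain ⟨D, hD⟩ := id hg
    have := hT _ ⟨C + D, fun μ => (abs_add_le _ _).trans (add_le_add (hC μ) (hD μ))⟩
    simp only [H.add i hf hg] at this
    rw [this.unique ((hT f hf).add (hT g hg)), map_add, Complex.add_re]
  · intro c f hf
    obtain ⟨C, hC⟩ := id hf
    have := hT (fun μ => c * f μ) ⟨|c| * C, fun μ => by rw [abs_mul]; gcongr; exact hC μ⟩
    simp only [H.smul i c hf] at this
    rw [this.unique ((hT f hf).smul c), map_smul, smul_eq_mul, Complex.re_ofReal_mul]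
  · exact fun f hf h0 => ω0 _ ((hT f hf).nonneg fun q =>
      rm_nonneg (H.rb i hf _) fun g => mul_nonneg (H.nonneg _ _) (h0 _))
  · intro f hf
    obtain ⟨C, hC⟩ := hf.abs.bddAbove_range_of_cofinite
    have := (hT f ⟨C, fun μ => hC ⟨μ, rfl⟩⟩).unique (IsLim.zero.congr hζ.bnR hζ.bnR
      (by simpa only [sub_zero, Function.comp_def] using (H.tendsto_zero i hf).comp hr))
    rw [this, map_zero, Complex.zero_re]
  · intro f hf hs ν
    obtain ⟨C, hC⟩ := id hf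
    have e := (hT _ ⟨C, fun μ => hC (μ * ν)⟩).unique (((hT f hf).cj (Pi.mulSingle i ν)).congr
      hζ.bnR hζ.bnR (by
        simpa only [Pi.mulSingle_eq_same, Function.comp_def] using
          (H.right i hf (Pi.mulSingle i ν)).comp hr))
    rw [e, ωr _ ((hT f hf).commute_w hζ hζ (fun _ => H.norm_le i hC _)
      fun g => (H.left i hf hs g).comp hr) fun g hg => (hT f hf).commute_rho hζ.bnR hζ.bnR
        (by simpa only [hg, mul_one, Function.comp_def] using (H.right i hf g).comp hr)]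

end IsChi

/-- no escape of mass to infinity in leg `i` -/
theorem esc (hN : NoMeanStmt) (U : Ultrafilter α) (hζ : S.Cen U ζ) (hu : S.Un U ζ) (i : κ) {ε : ℝ}
    (hε : 0 < ε) : ∃ F : Finset Γ, ∀ᶠ k in U, ∀ s : Finset (κ → Γ), (∀ g ∈ s, g i ∉ F) →
      ∑ g ∈ s, ‖ζ k g‖ ^ 2 ≤ ε := by
  by_contra hcon
  replace hcon : ∀ F : Finset Γ, ∀ᶠ k in U, ∃ s : Finset (κ → Γ), (∀ g ∈ s, g i ∉ F) ∧
      ε < ∑ g ∈ s, ‖ζ k g‖ ^ 2 := fun F =>
    (Ultrafilter.eventually_not.2 (not_exists.1 hcon F)).mono fun k hk => by simpa using hk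
  obtain ⟨χ, H⟩ := exists_chi
  have : ((atTop : Filter ℕ).curry (U : Filter α)).NeBot :=
    ⟨fun h => (eventually_curry_iff.1 (eventually_false_iff_eq_bot.2 h)).exists.elim fun _ h =>
      h.exists.elim fun _ => id⟩
  obtain ⟨V, hV⟩ := Ultrafilter.exists_le ((atTop : Filter ℕ).curry (U : Filter α))
  replace hV : ∀ {p : ℕ × α → Prop}, (∀ᶠ R in atTop, ∀ᶠ k in U, p (R, k)) → ∀ᶠ q in V, p q :=
    fun h => (eventually_curry_iff.2 h).filter_mono hV
  have h1 : Tendsto Prod.fst (V : Filter (ℕ × α)) atTop := fun s hs =>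
    hV (Eventually.mono hs fun R hR => .of_forall fun _ => hR)
  have h2 : Tendsto Prod.snd (V : Filter (ℕ × α)) U := fun s hs => hV (.of_forall fun _ => hs)
  have h3 := H.lim_zero i hN V (hζ.comp h2) (fun z hz ε hε => h2.eventually (hu z hz ε hε)) h1
  refine hε.not_ge (ge_of_tendsto h3 (hV (.of_forall fun R => ?_)))
  filter_upwards [hcon (H.fin R).toFinset] with k ⟨s, hs, hs'⟩
  refine hs'.le.trans (le_trans (Finset.sum_le_sum fun g hg => ?_)
    (sum_le_rm (H.rb i (f := fun _ => 1) ⟨1, fun _ => by simp⟩ R)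
      (fun g => by simpa using H.nonneg R _) (ζ k) s))
  have := hs g hg
  simp only [Set.Finite.mem_toFinset, Set.mem_ofPred_eq, not_not] at this
  simp [this]

theorem endC (hN : NoMeanStmt) : EndStmt := by
  intro κ _ _ S α l ζ hζ hu ε hε
  refine mem_iff_ultrafilter.2 fun U hU => ?_
  replace hζ : S.Cen U ζ := hζ.comp (tendsto_id'.2 hU)
  replace hu : S.Un U ζ := fun z hz ε hε => hU (hu z hz ε hε)
  have h1 : ∀ _ : α, ‖(1 : Op (κ → Γ))‖ ≤ 1 := fun _ => ContinuousLinearMap.norm_id_le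
  have h0 := S.cen_one (U : Filter α)
  obtain ⟨Z, hZ⟩ := exists_isLim U (ζ := fun _ => dt 1) h0.bnR hζ.bnR h1
  obtain ⟨c, rfl⟩ := hZ.scalar h0 hζ hu h1 (fun g => by simp) fun g => by simp
  set v := (c • S.w 1) (dt 1) with hv
  have h2 : ∀ g, Tendsto (fun k => ζ k g) U (𝓝 (v g)) := fun g => by simpa [hv] using hZ.ent g 1
  have hn : (0 : ℝ) < Fintype.card κ + 1 := by positivity
  choose F hF using fun i => esc hN U hζ hu i (ε := (ε / 3) ^ 2 / (Fintype.card κ + 1))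
    (by positivity)
  obtain ⟨s₀, hs₀⟩ := exists_finset_approx v (ε := ε / 3) (by positivity)
  classical
  set t := s₀ ∪ Fintype.piFinset F
  have h3 : Tendsto (fun k => ∑ g ∈ t, ζ k g • dt g) U (𝓝 (∑ g ∈ t, v g • dt g)) :=
    tendsto_finsetSum _ fun g _ => (h2 g).smul_const _
  filter_upwards [eventually_all.2 hF, Metric.tendsto_nhds.1 h3 (ε / 3) (by positivity)]
    with k a1 a2
  refine ⟨c, ?_⟩
  have a3 := hs₀ t Finset.subset_union_left
  have a4 : ‖ζ k - ∑ g ∈ t, ζ k g • dt g‖ ≤ ε / 3 := by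
    refine norm_le_of_sum _ (by positivity) fun s => ?_
    calc _ ≤ ∑ x ∈ s, ∑ i, if x i ∉ F i then ‖ζ k x‖ ^ 2 else 0 := by
          refine Finset.sum_le_sum fun x _ => ?_
          have h0 : ∀ i ∈ Finset.univ, 0 ≤ if x i ∉ F i then ‖ζ k x‖ ^ 2 else 0 := fun i _ => by
            positivity
          rw [l2_sub_apply, l2_sum_apply]
          by_cases hx : x ∈ t
          · simpa [dt_apply, hx] using Finset.sum_nonneg h0
          · obtain ⟨i, hi⟩ := not_forall.1 fun h =>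
              hx (Finset.mem_union_right _ (Fintype.mem_piFinset.2 h))
            simpa [dt_apply, hx, hi] using Finset.single_le_sum h0 (Finset.mem_univ i)
      _ ≤ ∑ _i : κ, (ε / 3) ^ 2 / (Fintype.card κ + 1) := by
          rw [Finset.sum_comm]
          refine Finset.sum_le_sum fun i _ => ?_
          rw [← Finset.sum_filter]
          exact a1 i _ fun g hg => (Finset.mem_filter.1 hg).2
      _ ≤ _ := by
          rw [Finset.sum_const, Finset.card_univ, nsmul_eq_mul, mul_div_assoc', div_le_iff₀ hn]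
          nlinarith [sq_nonneg (ε / 3)]
  rw [dist_eq_norm] at a2
  rw [norm_sub_rev] at a3
  change ‖ζ k - v‖ ≤ ε
  linarith [norm_sub_le_norm_sub_add_norm_sub (ζ k) (∑ g ∈ t, ζ k g • dt g) v,
    norm_sub_le_norm_sub_add_norm_sub (∑ g ∈ t, ζ k g • dt g) (∑ g ∈ t, v g • dt g) v]

end Crest.Agent.N111.Cn
end

-- ▼ part N111/C/Core
section

/-!
# Row 111, module C: the core concentration statement.
-/

set_option autoImplicit false

namespace Crest.Agent.N111.Cn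

open MeasureTheory Topology Filter ContinuousLinearMap
open scoped InnerProductSpace ComplexConjugate
open Crest.OperatorAlgebra

variable {κ : Type} [Fintype κ] [DecidableEq κ] (S : LSet κ)

lemma LSet.pp : S.w 1 * S.w 1 = S.w 1 := by rw [← S.mul, one_mul]

lemma LSet.sp : Star.star (S.w 1) = S.w 1 := by rw [S.star, inv_one]

lemma LSet.star_mul_self (γ : Γ) : Star.star (S.w γ) * S.w γ = S.w 1 := by
  rw [S.star, ← S.mul, inv_mul_cancel]

lemma LSet.mul_star_self (γ : Γ) : S.w γ * Star.star (S.w γ) = S.w 1 := by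
  rw [S.star, ← S.mul, mul_inv_cancel]

lemma LSet.norm_hat_le (γ : Γ) : ‖S.w γ (dt 1)‖ ≤ 1 := (N111.norm_hat_le _).trans (S.norm_le γ)

lemma coc_comm {a h : G} (hc : Commute a h) (x : X) :
    (coc a (h • x))⁻¹ = coc h x * (coc a x)⁻¹ * (coc h (a • x))⁻¹ := by
  have h1 := coc_mul a h x
  rw [hc.eq, coc_mul] at h1
  rw [eq_mul_inv_of_mul_eq h1.symm]
  group

lemma tendsto_integral_coc {α : ℕ → Γ → ℝ} {C : ℝ} (hb : ∀ n γ, ‖α n γ‖ ≤ C)
    (h : ∀ γ, Tendsto (fun n => α n γ) atTop (𝓝 0)) (g : G) :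
    Tendsto (fun n => ∫ x, α n (coc g x) ∂μ) atTop (𝓝 0) := by
  simpa using tendsto_integral_of_dominated_convergence (μ := μ) (F := fun n x => α n (coc g x))
    (f := fun _ => 0) (fun _ => C)
    (fun n => (sm_comp (by fun_prop) (α n)).aestronglyMeasurable) (integrable_const _)
    (fun n => Eventually.of_forall fun x => hb _ _) (Eventually.of_forall fun x => h _)

lemma integral_smul_eq (g : G) {E : Type*} [NormedAddCommGroup E] [NormedSpace ℝ E] (f : X → E) :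
    ∫ x, f (g • x) ∂μ = ∫ x, f x ∂μ := integral_smul_eq_self f

lemma integral_le_comb {f b b' a a' : X → ℝ} {e : ℝ} (i1 : Integrable b μ) (i2 : Integrable b' μ)
    (i3 : Integrable a μ) (i4 : Integrable a' μ) (j1 : ∫ x, b' x ∂μ = ∫ x, b x ∂μ)
    (j2 : ∫ x, a' x ∂μ = ∫ x, a x ∂μ) (h0 : ∀ x, 0 ≤ f x)
    (h : ∀ x, f x ≤ 2 * b x - 2 * b' x + 4 * e + 4 * a x + 4 * a' x) :
    ∫ x, f x ∂μ ≤ 4 * e + 8 * ∫ x, a x ∂μ := by
  have k1 : Integrable (fun x => 2 * b x - 2 * b' x) μ := (i1.const_mul 2).sub (i2.const_mul 2)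
  have k2 : Integrable (fun x => 2 * b x - 2 * b' x + 4 * e) μ := k1.add (integrable_const _)
  have k3 : Integrable (fun x => 2 * b x - 2 * b' x + 4 * e + 4 * a x) μ := k2.add (i3.const_mul 4)
  refine (integral_mono_of_nonneg (Eventually.of_forall h0) (k3.add (i4.const_mul 4))
    (Eventually.of_forall h)).trans_eq ?_
  rw [integral_add' k3 (i4.const_mul 4), integral_add k2 (i3.const_mul 4),
    integral_add k1 (integrable_const _), integral_sub (i1.const_mul 2) (i2.const_mul 2)]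
  simp only [integral_const_mul, j1, j2, integral_const, probReal_univ, smul_eq_mul]
  ring

/-- two-sided covariance of the multiplier up to approximation errors -/
lemma cov_err {K : Type} [Group K] {M W₁ W₂ w₁ w₂ y a : Op K} (nM : ‖M‖ ≤ 1) (m₁ : W₁ ∈ LA K)
    (m₂ : W₂ ∈ LA K) (n₁ : ‖W₁‖ ≤ 1) (n₂ : ‖W₂‖ ≤ 1) (k₁ : w₁ ∈ LA K) (k₂ : w₂ ∈ LA K)
    (l₂ : ‖w₂‖ ≤ 1) (hy : y ∈ LA K) (ny : ‖y‖ ≤ 1) (ha : a ∈ LA K)
    (hM : a (dt 1) = M (y (dt 1))) :
    ‖M ((w₁ * y * star w₂) (dt 1)) - (W₁ * a * star W₂) (dt 1)‖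
      ≤ cn M W₁ + cn M (Rm (star W₂)) + ‖(W₁ - w₁) (dt 1)‖ + ‖(W₂ - w₂) (dt 1)‖ := by
  set R := Rm (star W₂) with hR
  have nR : ‖R‖ ≤ 1 := by rwa [hR, norm_Rm, nstar]
  have ny' : ‖y (dt 1)‖ ≤ 1 := (norm_hat_le y).trans ny
  have e1 : (W₁ * a * star W₂) (dt 1) = W₁ (R (M (y (dt 1)))) := by
    rw [← hM, hR, Rm_apply_LA (star_mem m₂) ha]; rfl
  have e2 : ‖W₁ (R (M (y (dt 1)))) - W₁ (M (R (y (dt 1))))‖ ≤ cn M R := by
    rw [← map_sub]
    exact ((W₁.le_of_opNorm_le n₁ _).trans_eq (one_mul _)).trans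
      ((cn_apply M R _).trans (mul_le_of_le_one_right (cn_nonneg _ _) ny'))
  have e3 : ‖W₁ (M (R (y (dt 1)))) - M (W₁ (R (y (dt 1))))‖ ≤ cn M W₁ :=
    (cn_apply M W₁ _).trans (mul_le_of_le_one_right (cn_nonneg _ _)
      (((R.le_of_opNorm_le nR _).trans_eq (one_mul _)).trans ny'))
  have e4 : ‖M (W₁ (R (y (dt 1)))) - M ((w₁ * y * star w₂) (dt 1))‖
      ≤ ‖(W₁ - w₁) (dt 1)‖ + ‖(W₂ - w₂) (dt 1)‖ := by
    rw [← map_sub]
    refine ((M.le_of_opNorm_le nM _).trans_eq (one_mul _)).trans ?_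
    have h1 : W₁ (R (y (dt 1))) - (w₁ * y * star w₂) (dt 1)
        = (W₁ - w₁) ((y * star w₂) (dt 1)) + (W₁ * y) (star (W₂ - w₂) (dt 1)) := by
      rw [hR, Rm_apply_LA (star_mem m₂) hy, star_sub]
      simp only [sub_apply, mul_apply_eq_comp, map_sub]
      abel
    rw [h1]
    refine (norm_add_le _ _).trans (add_le_add ?_ ?_)
    · refine (nhm (sub_mem m₁ k₁) (mul_mem hy (star_mem k₂))).trans
        (mul_le_of_le_one_right (norm_nonneg _) ((norm_mul_le _ _).trans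
          (mul_le_one₀ ny (norm_nonneg _) (by rwa [nstar]))))
    · rw [← norm_star_hat_LA (sub_mem m₂ k₂)]
      exact ((W₁ * y).le_of_opNorm_le ((norm_mul_le _ _).trans
        (mul_le_one₀ n₁ (norm_nonneg _) ny)) _).trans_eq (one_mul _)
  rw [e1, norm_sub_rev]
  linarith [norm_sub_le_norm_sub_add_norm_sub (W₁ (R (M (y (dt 1))))) (W₁ (M (R (y (dt 1)))))
      (M ((w₁ * y * star w₂) (dt 1))),
    norm_sub_le_norm_sub_add_norm_sub (W₁ (M (R (y (dt 1))))) (M (W₁ (R (y (dt 1)))))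
      (M ((w₁ * y * star w₂) (dt 1)))]

lemma Rm_comm {K : Type} [Group K] {a b : Op K} (ha : a ∈ LA K) (hb : b ∈ LA K) (v : Ell2 K) :
    Rm b (a v) = a (Rm b v) := by
  rw [← mul_apply_eq_comp, ← LA_comm_RA ha (Rm_mem_RA hb), mul_apply_eq_comp]

/-- from almost `Ad`-invariance to `Cen` -/
theorem LSet.cen_of {Φ : ℕ → (κ → Γ) → ℂ} (hb : ∀ n g, ‖Φ n g‖ ≤ 1) (hs : Slow Φ)
    {W : ℕ → Γ → Op (κ → Γ)} (nW : ∀ n γ, ‖W n γ‖ ≤ 1)
    (hW : ∀ γ, Ap (fun n => mulOp (Φ n)) (fun n => W n γ) (S.w γ)) {ζ : ℕ → Ell2 (κ → Γ)}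
    (hζ : ∀ n, BN (mulOp (Φ n)) (ζ n))
    (h : ∀ γ, Tendsto (fun n => ‖W n γ (Rm (Star.star (W n γ)) (ζ n)) - ζ n‖) atTop (𝓝 0)) :
    S.Cen atTop ζ ∧ ∀ z ∈ (lam (κ → Γ)).span, ∀ ε > 0, ∀ᶠ k in atTop,
      ‖z (ζ k) - ζ k‖ ≤ 2 * ‖(z - S.w 1) (dt 1)‖ + ε := by
  have tri : ∀ {a b c : ℕ → Ell2 (κ → Γ)}, Tendsto (fun n => ‖a n - b n‖) atTop (𝓝 0) →
      Tendsto (fun n => ‖b n - c n‖) atTop (𝓝 0) → Tendsto (fun n => ‖a n - c n‖) atTop (𝓝 0) :=
    fun h1 h2 => squeeze_zero (fun _ => norm_nonneg _)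
      (fun n => norm_sub_le_norm_sub_add_norm_sub _ _ _) (by simpa using h1.add h2)
  have sym : ∀ {a b : ℕ → Ell2 (κ → Γ)}, Tendsto (fun n => ‖a n - b n‖) atTop (𝓝 0) →
      Tendsto (fun n => ‖b n - a n‖) atTop (𝓝 0) := fun h1 => by
    simpa only [norm_sub_rev] using h1
  have app : ∀ {a b : ℕ → Ell2 (κ → Γ)} (T : ℕ → Op (κ → Γ)), (∀ n, ‖T n‖ ≤ 1) →
      Tendsto (fun n => ‖a n - b n‖) atTop (𝓝 0) →
      Tendsto (fun n => ‖T n (a n) - T n (b n)‖) atTop (𝓝 0) := fun T hT h1 =>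
    squeeze_zero (fun _ => norm_nonneg _) (fun n => by
      rw [← map_sub]; exact ((T n).le_of_opNorm_le (hT n) _).trans_eq (one_mul _)) h1
  have nR : ∀ n γ, ‖Rm (Star.star (W n γ))‖ ≤ 1 := fun n γ => by rw [norm_Rm, nstar]; exact nW n γ
  have mW : ∀ n γ, W n γ ∈ LA (κ → Γ) := fun n γ => (hW γ).mem n
  have hU : Tendsto (fun n => ‖W n 1 (ζ n) - ζ n‖) atTop (𝓝 0) := by
    have h1 := ((hW 1).mul (hW 1))
    rw [S.pp] at h1
    have h2 := app _ (nR · 1) (h1.close' (hW 1) hζ).1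
    simp only [mul_apply_eq_comp, Rm_comm (mW _ 1) (star_mem (mW _ 1))] at h2
    exact tri (tri (sym (app _ (nW · 1) (h 1))) h2) (h 1)
  have hU' : Tendsto (fun n => ‖Rm (Star.star (W n 1)) (ζ n) - ζ n‖) atTop (𝓝 0) := by
    have h1 := ((hW 1).adj.mul (hW 1).adj)
    rw [S.sp, S.pp, ← S.sp] at h1
    have h2 := app _ (nW · 1) (h1.close' (hW 1).adj hζ).2
    simp only [Rm_mul, mul_apply_eq_comp] at h2
    have h3 := app _ (nR · 1) (h 1)
    simp only [Rm_comm (mW _ 1) (star_mem (mW _ 1))] at h3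
    exact tri (tri (sym h3) h2) (h 1)
  have hC : ∀ γ, Tendsto (fun n => ‖W n γ (ζ n) - Rm (W n γ) (ζ n)‖) atTop (𝓝 0) := fun γ => by
    have h1 := ((hW γ).adj.mul (hW γ))
    rw [S.star_mul_self, ← S.sp] at h1
    have h2 := app _ (nW · γ) (tri (h1.close' (hW 1).adj hζ).2 hU')
    simp only [Rm_mul, mul_apply_eq_comp] at h2
    have h3 := app (fun n => Rm (W n γ)) (fun n => by rw [norm_Rm]; exact nW n γ) (h γ)
    simp only [Rm_comm (mW _ γ) (mW _ γ)] at h3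
    exact tri (sym h2) h3
  refine ⟨⟨fun z hz ε hε => ?_, fun z hz ε hε => ?_, fun γ z hz ε hε => ?_⟩, fun z hz ε hε => ?_⟩
  · filter_upwards [(slow_lam hb hs hz).eventually (ge_mem_nhds hε)] with n hn
    exact ((hζ n).L z (span_lam_le hz)).trans (by linarith)
  · filter_upwards [(slow_lam hb hs (star_mem hz)).eventually (ge_mem_nhds hε)] with n hn
    exact ((hζ n).R z (span_lam_le hz)).trans (by linarith)
  · have h3 : 0 < ε / 3 := by positivity
    filter_upwards [(Ap.const hb hs hz).close (hW γ) h3, (hC γ).eventually (ge_mem_nhds h3)]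
      with n h1 h2
    obtain ⟨h4, h5⟩ := h1 _ (hζ n)
    rw [norm_sub_rev] at h5
    linarith [norm_sub_le_norm_sub_add_norm_sub (z (ζ n)) (W n γ (ζ n)) (Rm z (ζ n)),
      norm_sub_le_norm_sub_add_norm_sub (W n γ (ζ n)) (Rm (W n γ) (ζ n)) (Rm z (ζ n))]
  · filter_upwards [(Ap.const hb hs hz).close (hW 1) (half_pos hε),
      hU.eventually (ge_mem_nhds (half_pos hε))] with n h1 h2
    linarith [(h1 _ (hζ n)).1, norm_sub_le_norm_sub_add_norm_sub (z (ζ n)) (W n 1 (ζ n)) (ζ n)]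

/-- **Concentration of absolute values.** -/
theorem absConc (hE : EndStmt) {a : ℕ → G} (ha : ∀ n, CommH (a n)) {Φ : ℕ → (κ → Γ) → ℂ}
    (hb : ∀ n g, ‖Φ n g‖ ≤ 1) (hs : Slow Φ) {A ξ : ℕ → Γ → Op (κ → Γ)}
    (hA : ∀ n γ, A n γ ∈ LA (κ → Γ)) (hA' : ∀ n γ, A n γ (dt 1) = mulOp (Φ n) (S.w γ (dt 1)))
    (hξ : ∀ n γ, IsAbs (A n γ) (ξ n γ) (1 / ((n : ℝ) + 1))) {ε : ℝ} (hε : 0 < ε) :
    ∀ᶠ n in atTop, ∃ c : ℂ, ‖c‖ * ‖S.w 1 (dt 1)‖ ≤ 2 + ε ∧
      ∫ x, ‖ξ n (coc (a n) x)⁻¹ (dt 1) - c • S.w 1 (dt 1)‖ ∂μ ≤ ε := by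
  obtain ⟨W, nW, hW, hR⟩ := exists_ap hb hs S.mem S.norm_le
  have nM : ∀ n, ‖mulOp (Φ n)‖ ≤ 1 := fun n => norm_mulOp_le zero_le_one (hb n)
  have mW : ∀ n γ, W n γ ∈ LA (κ → Γ) := fun n γ => (hW γ).mem n
  have nR : ∀ n γ, ‖Rm (star (W n γ))‖ ≤ 1 := fun n γ => by rw [norm_Rm, nstar]; exact nW n γ
  have he : ∀ n : ℕ, 1 / ((n : ℝ) + 1) ≤ 1 := fun n => by
    rw [div_le_one (by positivity)]; linarith [n.cast_nonneg (α := ℝ)]
  have nA : ∀ n γ, ‖A n γ (dt 1)‖ ≤ 1 := fun n γ => by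
    rw [hA']; exact (((mulOp _).le_of_opNorm_le (nM n) _).trans_eq (one_mul _)).trans (S.norm_hat_le γ)
  have nξ : ∀ n γ, ‖ξ n γ (dt 1)‖ ≤ 2 := fun n γ => by
    have h1 := (hξ n γ).norm_hat_sq (hA n γ)
    nlinarith [nA n γ, he n, norm_nonneg (A n γ (dt 1)), norm_nonneg (ξ n γ (dt 1))]
  have bn : ∀ n γ, BN (mulOp (Φ n)) (ξ n γ (dt 1)) := fun n γ =>
    (hξ n γ).bn (hA n γ) (he n) (S.mem γ) (S.norm_le γ) (nM n) (hA' n γ)
  have hc : ∀ n, Measurable fun x => (coc (a n) x)⁻¹ := fun n => by fun_prop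
  obtain ⟨e1, e2⟩ := engine_fun (v := fun n x => ξ n (coc (a n) x)⁻¹ (dt 1))
    (B := fun n γ => W n γ * Rm (star (W n γ)))
    (fun n => sm_comp (hc n) fun γ => ξ n γ (dt 1)) (fun n x => nξ _ _)
    (fun n γ => (norm_mul_le _ _).trans (mul_le_one₀ (nW n γ) (norm_nonneg _) (nR n γ)))
    (fun γ γ' η hη => by
      have h1 := (hW γ).mul (hW γ')
      rw [← S.mul] at h1
      filter_upwards [h1.close (hW (γ * γ')) (half_pos hη),
        h1.adj.close (hW (γ * γ')).adj (half_pos hη)] with n h2 h3 x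
      set ζ := ξ n (coc (a n) x)⁻¹ (dt 1)
      have h4 := (h2 ζ (bn _ _)).1
      have h5 := (h3 ζ (bn _ _)).2
      simp only [sub_self, zero_apply, norm_zero, mul_zero, zero_add] at h4 h5
      have m1 := mul_mem (mW n γ) (mW n γ')
      have e : (W n γ * Rm (star (W n γ))) ((W n γ' * Rm (star (W n γ'))) ζ)
          - (W n (γ * γ') * Rm (star (W n (γ * γ')))) ζ
          = Rm (star (W n γ * W n γ')) ((W n γ * W n γ') ζ - W n (γ * γ') ζ)
            + W n (γ * γ') (Rm (star (W n γ * W n γ')) ζ - Rm (star (W n (γ * γ'))) ζ) := by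
        rw [map_sub, map_sub, Rm_comm m1 (star_mem m1), Rm_comm (mW _ _) (star_mem m1), star_mul,
          Rm_mul]
        simp only [mul_apply_eq_comp, Rm_comm (mW n γ') (star_mem (mW n γ))]
        abel
      rw [e]
      have n1 : ‖Rm (star (W n γ * W n γ'))‖ ≤ 1 := by
        rw [norm_Rm, nstar]
        exact (norm_mul_le _ _).trans (mul_le_one₀ (nW _ _) (norm_nonneg _) (nW _ _))
      refine (norm_add_le _ _).trans ((add_le_add (le_of_opNorm_le _ n1 _)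
        (le_of_opNorm_le _ (nW _ _) _)).trans (by linarith)))
    (fun h hh => by
      have hcm : ∀ n, Commute (a n) h := fun n => by
        obtain ⟨b, rfl | rfl⟩ := hh
        exacts [(ha n b).1, (ha n b).2]
      let α : ℕ → Γ → ℝ := fun n γ => cn (mulOp (Φ n)) (W n γ)
        + cn (mulOp (Φ n)) (Rm (star (W n γ))) + ‖(W n γ - S.w γ) (dt 1)‖
      have α0 : ∀ n γ, 0 ≤ α n γ := fun n γ =>
        add_nonneg (add_nonneg (cn_nonneg _ _) (cn_nonneg _ _)) (norm_nonneg _)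
      have αb : ∀ n γ, ‖α n γ‖ ≤ 6 := fun n γ => by
        rw [Real.norm_of_nonneg (α0 n γ)]
        have := (norm_hat_le _).trans (norm_sub_le (W n γ) (S.w γ))
        linarith [cn_le _ _ (nM n) (nW n γ), cn_le _ _ (nM n) (nR n γ), nW n γ, S.norm_le γ]
      have αt := tendsto_integral_coc αb
        (fun γ => by simpa only [add_zero] using ((hW γ).c1.add (hR γ)).add (hW γ).lim) h
      have lim := (tendsto_one_div_add_atTop_nhds_zero_nat.const_mul 4).add (αt.const_mul 8)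
      simp only [mul_zero, add_zero] at lim
      refine squeeze_zero (fun n => integral_nonneg fun x => by positivity) (fun n => ?_) lim
      let β : Γ → ℝ := fun γ => ‖A n γ (dt 1)‖ ^ 2
      have βb : ∀ γ, ‖β γ‖ ≤ 1 := fun γ => by
        rw [Real.norm_of_nonneg (sq_nonneg _)]; exact pow_le_one₀ (norm_nonneg _) (nA n γ)
      have i1 := intg (hc n) βb
      have i2 := intg (c := fun x => (coc (a n) (h • x))⁻¹) (by fun_prop) βb
      have i3 := intg (c := fun x => coc h x) (by fun_prop) (αb n)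
      have i4 := intg (c := fun x => coc h (a n • x)) (by fun_prop) (αb n)
      have j1 := integral_smul_eq h fun x => β (coc (a n) x)⁻¹
      have j2 := integral_smul_eq (a n) fun x => α n (coc h x)
      refine integral_le_comb i1 i2 i3 i4 j1 j2 (fun x => by positivity) fun x => ?_
      set γ := (coc (a n) x)⁻¹
      set γ' := (coc (a n) (h • x))⁻¹ with hγ'
      set c₁ := coc h x
      set c₂ := coc h (a n • x)
      have k1 := abs_ineq (hA n γ) (hA n γ') (hξ n γ) (hξ n γ') (mW n c₁) (mW n c₂) (nW _ _) (nW _ _)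
      have k2 := cov_err (nM n) (mW n c₁) (mW n c₂) (nW _ _) (nW _ _) (S.mem c₁) (S.mem c₂)
        (S.norm_le c₂) (S.mem γ) (S.norm_le γ) (hA n γ) (hA' n γ)
      rw [S.star, ← S.mul, ← S.mul, ← coc_comm (hcm n), ← hA', ← hγ'] at k2
      have k3 : (W n c₁ * Rm (star (W n c₁))) (ξ n γ (dt 1))
          = (W n c₁ * ξ n γ * star (W n c₁)) (dt 1) := by
        rw [mul_apply_eq_comp, Rm_apply_LA (star_mem (mW n c₁)) (hξ n γ).mem]; rfl
      set u := A n γ' (dt 1)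
      set u' := (W n c₁ * A n γ * star (W n c₂)) (dt 1)
      have k4 : β γ' - ‖u - u'‖ ≤ (⟪u, u'⟫_ℂ).re := by
        have k5 : (⟪u, u - u'⟫_ℂ).re ≤ ‖u - u'‖ := (Complex.re_le_norm _).trans
          ((norm_inner_le_norm _ _).trans (mul_le_of_le_one_left (norm_nonneg _) (nA n γ')))
        have k6 : (⟪u, u⟫_ℂ).re = β γ' := inner_self_eq_norm_sq (𝕜 := ℂ) u
        rw [inner_sub_right, Complex.sub_re, k6] at k5
        linarith
      have k7 : ‖u - u'‖ ≤ α n c₁ + α n c₂ := by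
        simp only [α]
        linarith [cn_nonneg (mulOp (Φ n)) (W n c₂), cn_nonneg (mulOp (Φ n)) (Rm (star (W n c₁)))]
      rw [k3]
      simp only [β] at k4 ⊢
      linarith)
  have iv : ∀ n, Integrable (fun x => ξ n (coc (a n) x)⁻¹ (dt 1)) μ := fun n =>
    intg (hc n) (f := fun γ => ξ n γ (dt 1)) (nξ n)
  obtain ⟨c1, c2⟩ := S.cen_of hb hs nW hW (fun n => BN.integral (iv n) fun x => bn _ _) e2
  filter_upwards [hE κ S ℕ atTop _ c1 c2 _ (half_pos hε), e1.eventually (ge_mem_nhds (half_pos hε))]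
    with n ⟨c, h1⟩ h2
  set ζ := ∫ x, ξ n (coc (a n) x)⁻¹ (dt 1) ∂μ
  have nζ : ‖ζ‖ ≤ 2 := by
    simpa using norm_integral_le_of_norm_le_const (μ := μ)
      (Eventually.of_forall fun x => nξ n (coc (a n) x)⁻¹)
  refine ⟨c, ?_, ?_⟩
  · rw [← norm_smul]
    linarith [norm_le_norm_add_norm_sub ζ (c • S.w 1 (dt 1))]
  · have i1 : Integrable (fun x => ‖ξ n (coc (a n) x)⁻¹ (dt 1) - ζ‖) μ :=
      ((iv n).sub (integrable_const ζ)).norm
    refine (integral_mono ((iv n).sub (integrable_const _)).norm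
      (i1.add (integrable_const ‖ζ - c • S.w 1 (dt 1)‖))
      fun x => norm_sub_le_norm_sub_add_norm_sub _ _ _).trans ?_
    rw [integral_add' i1 (integrable_const _), integral_const, probReal_univ, one_smul]
    exact (add_le_add h2 h1).trans_eq (add_halves ε)

lemma exists_mult {K : Type} [Group K] {Φ : K → ℂ} (hB : Bdd Φ) (h : ∃ c : ℂ, {g | Φ g ≠ c}.Finite)
    {T : Op K} (hT : T ∈ LA K) : ∃ A ∈ LA K, A (dt 1) = mulOp Φ (T (dt 1)) := by
  obtain ⟨c, hc⟩ := h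
  refine ⟨c • T + ∑ g ∈ hc.toFinset, ((Φ g - c) * T (dt 1) g) • lam K g,
    add_mem (SMulMemClass.smul_mem _ hT) (span_lam_le (URep.mem_span.2 ⟨_, _, rfl⟩)),
    l2_ext fun x => ?_⟩
  classical
  rw [add_apply, sum_lam_hat, l2_add_apply, l2_sum_apply, hB.mulOp_apply, smul_apply, l2_smul_apply]
  simp only [l2_smul_apply, dt_apply, mul_ite, mul_one, mul_zero, Finset.sum_ite_eq,
    Set.Finite.mem_toFinset, Set.mem_ofPred_eq]
  split_ifs with hx
  · ring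
  · rw [not_not.1 hx, add_zero]

lemma slow_affine {K : Type} [Group K] {Φ : ℕ → K → ℂ} (h : Slow Φ) (a : ℂ) {b : ℂ} (hb : ‖b‖ ≤ 1) :
    Slow fun n g => a + b * Φ n g := fun s ε hε => (h s ε hε).mono fun n hn g => by
  constructor <;> rw [add_sub_add_left_eq_sub, ← mul_sub, norm_mul]
  · exact (mul_le_of_le_one_left (norm_nonneg _) hb).trans (hn g).1
  · exact (mul_le_of_le_one_left (norm_nonneg _) hb).trans (hn g).2

lemma polar_tau {K : Type} [Group K] {g y p X : Op K} (hyy : y * star y = p) (c₀ c₁ c₂ : ℂ) :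
    tau (X * (g * star y)) - (2⁻¹ * (4 * c₁ ^ 2 - 1 - c₀ ^ 2)
        - 2⁻¹ * Complex.I * (4 * c₂ ^ 2 - 1 - c₀ ^ 2)) * tau (X * p)
      = 2 * (tau (X * (((2⁻¹ : ℂ) • y + (2⁻¹ : ℂ) • g) * star ((2⁻¹ : ℂ) • y + (2⁻¹ : ℂ) • g)))
          - c₁ ^ 2 * tau (X * p))
        - 2 * Complex.I * (tau (X * (((2⁻¹ : ℂ) • y + (2⁻¹ * Complex.I : ℂ) • g)
          * star ((2⁻¹ : ℂ) • y + (2⁻¹ * Complex.I : ℂ) • g))) - c₂ ^ 2 * tau (X * p))
        - 2⁻¹ * (1 - Complex.I) * (tau (X * (g * star g)) - c₀ ^ 2 * tau (X * p)) := by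
  simp only [star_add, star_smul, add_mul, mul_add, smul_mul_assoc, mul_smul_comm, hyy, tau_add,
    tau_smul, star_mul', star_inv₀, star_ofNat, Complex.star_def, Complex.conj_I]
  linear_combination (2⁻¹ * tau (X * (g * star y)) - 2⁻¹ * tau (X * (y * star g))
    - 2⁻¹ * Complex.I * tau (X * (g * star g))) * Complex.I_mul_I

set_option maxHeartbeats 1000000 in
/-- **CORE.** -/
theorem core (hE : EndStmt) : CoreStmt := by
  intro κ _ _ S a Φ ha hb hs hf h0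
  have hB : ∀ n, Bdd (Φ n) := fun n => ⟨1, hb n⟩
  choose g hg hg' using fun n γ => exists_mult (hB n) (hf n) (S.mem γ)
  have aff : ∀ b : ℂ, ‖b‖ ≤ 2⁻¹ → (∀ n x, ‖2⁻¹ + b * Φ n x‖ ≤ 1) ∧
      (∀ n γ, (2⁻¹ : ℂ) • S.w γ + b • g n γ ∈ LA (κ → Γ)) ∧
      ∀ n γ, ((2⁻¹ : ℂ) • S.w γ + b • g n γ) (dt 1)
        = mulOp (fun x => 2⁻¹ + b * Φ n x) (S.w γ (dt 1)) := fun b hb' => by
    refine ⟨fun n x => (norm_add_le _ _).trans ?_, fun n γ =>
      add_mem (SMulMemClass.smul_mem _ (S.mem γ)) (SMulMemClass.smul_mem _ (hg n γ)), fun n γ => ?_⟩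
    · have := mul_le_mul hb' (hb n x) (norm_nonneg _) (by norm_num)
      rw [norm_mul]; simp only [norm_inv, Complex.norm_ofNat]; linarith
    · rw [mulOp_add (Bdd.const _) ((Bdd.const _).mul (hB n)), mulOp_smul _ (hB n), mulOp_const]
      simp [hg']
  obtain ⟨b1, m1, a1⟩ := aff 2⁻¹ (by simp)
  obtain ⟨b2, m2, a2⟩ := aff (2⁻¹ * Complex.I) (by simp)
  have he : ∀ n : ℕ, 0 < 1 / ((n : ℝ) + 1) := fun n => Nat.one_div_pos_of_nat
  choose ξ₀ hξ₀ using fun n γ => exists_isAbs (hg n γ) (he n)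
  choose ξ₁ hξ₁ using fun n γ => exists_isAbs (m1 n γ) (he n)
  choose ξ₂ hξ₂ using fun n γ => exists_isAbs (m2 n γ) (he n)
  set p := S.w 1 with hp
  set P := ‖p (dt 1)‖ with hP
  have P0 : 0 < P := norm_pos_iff.2 S.ne
  have P1 : P ≤ 1 := S.norm_hat_le 1
  set C := 3 / P with hC
  have C0 : 3 ≤ C := by rw [hC, le_div_iff₀ P0]; linarith
  have nM : ∀ n, ‖mulOp (Φ n)‖ ≤ 1 := fun n => norm_mulOp_le zero_le_one (hb n)
  have ng : ∀ n γ, ‖g n γ (dt 1)‖ ≤ 1 := fun n γ => by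
    rw [hg']; exact (((mulOp _).le_of_opNorm_le (nM n) _).trans_eq (one_mul _)).trans (S.norm_hat_le γ)
  have nab : ∀ {A ξ : Op (κ → Γ)} {n : ℕ} {Ψ : (κ → Γ) → ℂ} {γ}, A ∈ LA (κ → Γ) →
      IsAbs A ξ (1 / ((n : ℝ) + 1)) → (∀ x, ‖Ψ x‖ ≤ 1) → A (dt 1) = mulOp Ψ (S.w γ (dt 1)) →
      ‖ξ (dt 1)‖ ≤ 2 := fun {A ξ n Ψ γ} h1 h2 h3 h4 => by
    have h5 := h2.norm_hat_sq h1
    have h6 : ‖A (dt 1)‖ ≤ 1 := by
      rw [h4]; exact (((mulOp _).le_of_opNorm_le (norm_mulOp_le zero_le_one h3) _).trans_eq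
        (one_mul _)).trans (S.norm_hat_le γ)
    have h7 : 1 / ((n : ℝ) + 1) ≤ 1 := by
      rw [div_le_one (by positivity)]; linarith [n.cast_nonneg (α := ℝ)]
    nlinarith [norm_nonneg (A (dt 1)), norm_nonneg (ξ (dt 1))]
  have hc : ∀ n, Measurable fun x => (coc (a n) x)⁻¹ := fun n => by fun_prop
  simp only [← hg']
  refine tendsto_order.2 ⟨fun r hr => Eventually.of_forall fun n =>
    hr.trans_le (integral_nonneg fun _ => by positivity), fun r hr => ?_⟩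
  obtain ⟨η, η0, η1, hη⟩ : ∃ η : ℝ, 0 < η ∧ η ≤ 1 ∧ (40 * C / P ^ 2 + 40 * C + 11 + C) * η < r := by
    have h1 : 0 < 40 * C / P ^ 2 + 40 * C + 11 + C := by positivity
    refine ⟨min 1 (r / (2 * (40 * C / P ^ 2 + 40 * C + 11 + C))), by positivity, min_le_left _ _, ?_⟩
    refine (mul_le_mul_of_nonneg_left (min_le_right _ _) h1.le).trans_lt ?_
    rw [mul_div_assoc', mul_comm 2, mul_div_mul_left _ _ h1.ne']
    linarith
  have η2 : 0 < η ^ 2 := by positivity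
  have η3 : η ^ 2 ≤ η := by nlinarith
  obtain ⟨u, hu, nu, lu⟩ := exists_span_contraction (S.mem 1) (S.norm_le 1) η2
  filter_upwards [absConc S hE ha hb hs hg hg' hξ₀ η2,
    absConc S hE ha b1 (slow_affine hs _ (by simp; norm_num)) m1 a1 hξ₁ η2,
    absConc S hE ha b2 (slow_affine hs _ (by simp; norm_num)) m2 a2 hξ₂ η2,
    (slow_Rm hb hs hu).eventually (ge_mem_nhds η0),
    tendsto_one_div_add_atTop_nhds_zero_nat.eventually (ge_mem_nhds η2)]
    with n ⟨c₀, d₀, e₀⟩ ⟨c₁, d₁, e₁⟩ ⟨c₂, d₂, e₂⟩ hcn hn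
  have nc : ∀ {c : ℂ}, ‖c‖ * P ≤ 2 + η ^ 2 → ‖c‖ ≤ C := fun h => by
    rw [hC, le_div_iff₀ P0]; linarith
  set c' := 2⁻¹ * (4 * c₁ ^ 2 - 1 - c₀ ^ 2) - 2⁻¹ * Complex.I * (4 * c₂ ^ 2 - 1 - c₀ ^ 2)
  let E₀ : Γ → ℝ := fun γ => ‖ξ₀ n γ (dt 1) - c₀ • p (dt 1)‖
  let E₁ : Γ → ℝ := fun γ => ‖ξ₁ n γ (dt 1) - c₁ • p (dt 1)‖
  let E₂ : Γ → ℝ := fun γ => ‖ξ₂ n γ (dt 1) - c₂ • p (dt 1)‖
  let E : Γ → ℝ := fun γ => E₀ γ + E₁ γ + E₂ γ + η ^ 2
  have n0 : ∀ γ, ‖ξ₀ n γ (dt 1)‖ ≤ 2 := fun γ => nab (hg n γ) (hξ₀ n γ) (hb n) (hg' n γ)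
  have n1' : ∀ γ, ‖ξ₁ n γ (dt 1)‖ ≤ 2 := fun γ => nab (m1 n γ) (hξ₁ n γ) (b1 n) (a1 n γ)
  have n2 : ∀ γ, ‖ξ₂ n γ (dt 1)‖ ≤ 2 := fun γ => nab (m2 n γ) (hξ₂ n γ) (b2 n) (a2 n γ)
  have iE : ∀ {ξ : Γ → Op (κ → Γ)} (c : ℂ), (∀ γ, ‖ξ γ (dt 1)‖ ≤ 2) →
      Integrable (fun x => ‖ξ (coc (a n) x)⁻¹ (dt 1) - c • p (dt 1)‖) μ := fun {ξ} c h =>
    ((intg (hc n) (f := fun γ => ξ γ (dt 1)) h).sub (integrable_const _)).norm
  have iE01 : Integrable (fun x => E₀ (coc (a n) x)⁻¹ + E₁ (coc (a n) x)⁻¹) μ :=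
    (iE c₀ n0).add (iE c₁ n1')
  have iE012 : Integrable (fun x => E₀ (coc (a n) x)⁻¹ + E₁ (coc (a n) x)⁻¹
      + E₂ (coc (a n) x)⁻¹) μ := iE01.add (iE c₂ n2)
  have iE' : Integrable (fun x => E (coc (a n) x)⁻¹) μ := iE012.add (integrable_const _)
  have jE : ∫ x, E (coc (a n) x)⁻¹ ∂μ ≤ 4 * η ^ 2 := by
    simp only [E]
    rw [integral_add iE012 (integrable_const _), integral_add iE01 (iE c₂ n2),
      integral_add (iE c₀ n0) (iE c₁ n1'), integral_const, probReal_univ, one_smul]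
    linarith
  have F1 : ∀ γ, ∀ X ∈ LA (κ → Γ), ‖tau (X * (g n γ * star (S.w γ))) - c' * tau (X * p)‖
      ≤ ‖X‖ * (10 * C * E γ) := fun γ X hX => by
    have t : ∀ {A ξ : Op (κ → Γ)} {c : ℂ}, IsAbs A ξ (1 / ((n : ℝ) + 1)) → ‖ξ (dt 1)‖ ≤ 2 →
        ‖c‖ ≤ C → ‖ξ (dt 1) - c • p (dt 1)‖ + η ^ 2 ≤ E γ →
        ‖tau (X * (A * star A)) - c ^ 2 * tau (X * p)‖ ≤ ‖X‖ * (2 * C * E γ) :=
      fun {A ξ c} h1 h2 h3 h4 => (h1.tau_le (he n).le (S.mem 1) S.pp (S.norm_le 1) hX c).trans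
        (mul_le_mul_of_nonneg_left (by
          nlinarith [norm_nonneg (ξ (dt 1) - c • p (dt 1)), mul_le_mul_of_nonneg_right
            (show ‖ξ (dt 1)‖ + ‖c‖ ≤ 2 * C by linarith) (norm_nonneg (ξ (dt 1) - c • p (dt 1)))])
          (norm_nonneg _))
    have p0 : 0 ≤ E₀ γ := norm_nonneg _
    have p1 : 0 ≤ E₁ γ := norm_nonneg _
    have p2 : 0 ≤ E₂ γ := norm_nonneg _
    have t0 := t (hξ₀ n γ) (n0 γ) (nc d₀) (by simp only [E, E₀] at *; linarith)
    have t1 := t (hξ₁ n γ) (n1' γ) (nc d₁) (by simp only [E, E₁] at *; linarith)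
    have t2 := t (hξ₂ n γ) (n2 γ) (nc d₂) (by simp only [E, E₂] at *; linarith)
    rw [polar_tau (S.mul_star_self γ)]
    refine (norm_sub_le _ _).trans ((add_le_add (norm_sub_le _ _) le_rfl).trans ?_)
    have k : ‖(2⁻¹ * (1 - Complex.I) : ℂ)‖ ≤ 1 := by
      have := norm_sub_le (1 : ℂ) Complex.I
      rw [norm_mul]; simp at this ⊢; linarith
    rw [norm_mul, norm_mul, norm_mul (2⁻¹ * (1 - Complex.I))]
    have k2 := mul_le_mul k t0 (norm_nonneg _) zero_le_one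
    simp only [norm_mul, Complex.norm_ofNat, Complex.norm_I] at k2 ⊢
    linarith
  have tp : tau p = ((P ^ 2 : ℝ) : ℂ) := tau_proj S.pp S.sp
  have F2 : ‖c'‖ * P ^ 2 ≤ 40 * C * η ^ 2 := by
    let f : Γ → ℂ := fun γ => ⟪S.w γ (dt 1), g n γ (dt 1)⟫_ℂ
    have fb : ∀ γ, ‖f γ‖ ≤ 1 := fun γ => (norm_inner_le_norm _ _).trans
      (mul_le_one₀ (S.norm_hat_le γ) (norm_nonneg _) (ng n γ))
    have k1 : ∫ x, f (coc (a n) x)⁻¹ ∂μ = 0 := by simpa only [f, hg'] using h0 n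
    have k2 : ∀ γ, ‖f γ - c' * tau p‖ ≤ 10 * C * E γ := fun γ => by
      have := F1 γ 1 (one_mem _)
      rw [one_mul, one_mul, tau_mul_comm_LA (hg n γ) (star_mem (S.mem γ)), tau_star_mul] at this
      refine this.trans (mul_le_of_le_one_left ?_ n1)
      have : 0 ≤ E γ := by simp only [E, E₀, E₁, E₂]; positivity
      positivity
    have k3 := norm_integral_le_of_norm_le (iE'.const_mul (10 * C))
      (Eventually.of_forall fun x => k2 (coc (a n) x)⁻¹)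
    rw [integral_sub (intg (hc n) fb) (integrable_const _), k1, integral_const, probReal_univ,
      one_smul, zero_sub, norm_neg, integral_const_mul, tp, norm_mul, Complex.norm_real,
      Real.norm_of_nonneg (sq_nonneg P)] at k3
    nlinarith
  have F3 : ∀ γ, ‖g n γ (dt 1)‖ ^ 2
      ≤ (η⁻¹ * (10 * C) + 2) * E γ + (η⁻¹ * ‖c'‖ + C * η + 3 * η) := fun γ => by
    obtain ⟨X, hX, nX, k⟩ := (hξ₀ n γ).norm_sq_le (hg n γ) (he n).le (S.mem 1) S.sp (S.norm_le 1)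
      (S.mem γ) (S.norm_le γ) (S.star_mul_self γ) (span_lam_le hu) (ng n γ) η0 c₀
    have E0 : E₀ γ ≤ E γ := by
      have : 0 ≤ E₁ γ + E₂ γ + η ^ 2 := by simp only [E₁, E₂]; positivity
      simp only [E]; linarith
    have E1 : 0 ≤ E γ := (norm_nonneg _).trans E0
    have k1 := (F1 γ X hX).trans (mul_le_mul_of_nonneg_right nX (by positivity))
    have k2 : ‖c' * tau (X * p)‖ ≤ η⁻¹ * ‖c'‖ := by
      rw [norm_mul, mul_comm]
      refine mul_le_mul_of_nonneg_right ((norm_tau_le _).trans ((norm_hat_le _).trans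
        ((norm_mul_le _ _).trans ((mul_le_of_le_one_right (norm_nonneg _)
          (S.norm_le 1)).trans nX)))) (norm_nonneg _)
    have k3 := norm_le_norm_add_norm_sub' (tau (X * (g n γ * star (S.w γ)))) (c' * tau (X * p))
    have k4 : ‖g n γ (dt 1) - Rm u (g n γ (dt 1))‖ ≤ η + η ^ 2 := by
      rw [hg']
      have k5 := (cn_apply (mulOp (Φ n)) (Rm u) (S.w γ (dt 1))).trans
        (mul_le_of_le_one_right (cn_nonneg _ _) (S.norm_hat_le γ))
      have k6 : ‖mulOp (Φ n) (Rm u (S.w γ (dt 1))) - mulOp (Φ n) (S.w γ (dt 1))‖ ≤ η ^ 2 := by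
        have k7 : Rm u (S.w γ (dt 1)) - S.w γ (dt 1) = S.w γ ((u - S.w 1) (dt 1)) := by
          rw [Rm_apply_LA (span_lam_le hu) (S.mem γ), sub_apply, map_sub, ← mul_apply_eq_comp (S.w γ)
            (S.w 1), ← S.mul, mul_one]
        rw [← map_sub, k7]
        exact (((mulOp _).le_of_opNorm_le (nM n) _).trans_eq (one_mul _)).trans
          ((((S.w γ).le_of_opNorm_le (S.norm_le γ) _).trans_eq (one_mul _)).trans lu.le)
      rw [norm_sub_rev]
      linarith [norm_sub_le_norm_sub_add_norm_sub (Rm u (mulOp (Φ n) (S.w γ (dt 1))))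
        (mulOp (Φ n) (Rm u (S.w γ (dt 1)))) (mulOp (Φ n) (S.w γ (dt 1)))]
    have k5 : η⁻¹ * ‖(u - S.w 1) (dt 1)‖ ≤ η := by
      rw [inv_mul_le_iff₀ η0, ← sq]; exact lu.le
    have k6 := mul_le_mul_of_nonneg_right (nc d₀) η0.le
    simp only [E₀] at E0
    nlinarith
  have i5 : Integrable (fun x => (η⁻¹ * (10 * C) + 2) * E (coc (a n) x)⁻¹) μ := iE'.const_mul _
  refine (integral_mono_of_nonneg (Eventually.of_forall fun x => by positivity)
    (i5.add (integrable_const _)) (Eventually.of_forall fun x => F3 _)).trans_lt ?_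
  rw [integral_add' i5 (integrable_const _), integral_const_mul, integral_const, probReal_univ,
    one_smul]
  have k1 := mul_le_mul_of_nonneg_left jE (show 0 ≤ η⁻¹ * (10 * C) + 2 by positivity)
  have k2 : (η⁻¹ * (10 * C) + 2) * (4 * η ^ 2) = 40 * C * η + 8 * η ^ 2 := by field_simp; ring
  have k3 : η⁻¹ * ‖c'‖ ≤ 40 * C / P ^ 2 * η := by
    rw [inv_mul_le_iff₀ η0, div_mul_eq_mul_div, mul_div_assoc', le_div_iff₀ (by positivity)]
    linarith
  nlinarith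

end Crest.Agent.N111.Cn
end

-- ▼ part N111/C/NoMean
section

/-!
# Row 111, module C: no right invariant mean at infinity on left slowly varying functions.

With `A μ = log (2 nm μ)` the cutoff `θ = (2 A μ - A μ⁻¹) / (A μ + A μ⁻¹)` takes values in `[0, 1]`,
is two-sided slowly varying, `θ + θ ∘ dl = 1`, and `θ μ * nm μ⁻¹ / (nm μ)² → 0`.
-/

set_option autoImplicit false
set_option maxHeartbeats 400000

namespace Crest.Agent.N111.Cn

open Topology Filter Matrix NoInv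

namespace NM

/-! ### the weights of `hᵀ h` -/

/-- `hᵀ h` -/
def qq (h : G) : Matrix (Fin 3) (Fin 3) ℝ := (h : Matrix (Fin 3) (Fin 3) ℝ)ᵀ * h

theorem qq_psd (h : G) : (qq h).PosSemidef := by
  simpa [qq] using Matrix.posSemidef_conjTranspose_mul_self (h : Matrix (Fin 3) (Fin 3) ℝ)

theorem qq_diag (h : G) (i : Fin 3) : qq h i i = ∑ k, h k i ^ 2 := by
  simp only [qq, Matrix.mul_apply, transpose_apply, sq]

theorem trace_qq (h : G) : trace (qq h) = ∑ l, ∑ k, h k l ^ 2 := by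
  simp only [trace, diag_apply, qq_diag]

theorem sq_nm_le (h : G) : nm h ^ 2 ≤ trace (qq h) := by
  have h0 : 0 ≤ trace (qq h) := (qq_psd h).trace_nonneg
  refine (Real.le_sqrt (nm_pos h).le h0).1 ((nm_le_iff (Real.sqrt_nonneg _)).2 fun i k =>
    Real.abs_le_sqrt ?_)
  rw [trace_qq]
  exact (Finset.single_le_sum (f := fun i => h i k ^ 2) (fun _ _ => sq_nonneg _)
    (Finset.mem_univ i)).trans (Finset.single_le_sum (f := fun l => ∑ i, h i l ^ 2)
      (fun _ _ => by positivity) (Finset.mem_univ k))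

theorem trace_pos (h : G) : 0 < trace (qq h) := (pow_pos (nm_pos h) 2).trans_le (sq_nm_le h)

theorem wt_nonneg (i : Fin 3) (h : G) : 0 ≤ wt i (qq h) :=
  div_nonneg (qq_psd h).diag_nonneg (trace_pos h).le

theorem abs_wt_le (i : Fin 3) (h : G) : |wt i (qq h)| ≤ 1 := by
  rw [abs_of_nonneg (wt_nonneg i h), ← sum_wt (trace_pos h).ne']
  exact Finset.single_le_sum (fun k _ => wt_nonneg k h) (Finset.mem_univ i)

theorem qq_mul_tv {i k : Fin 3} (hik : i ≠ k) (b : ℝ) (h : G) :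
    qq (h * tv hik.symm b) = NoInv.cj (tv hik b) (qq h) := by
  have e : ((tv hik.symm b : G) : Matrix (Fin 3) (Fin 3) ℝ)ᵀ = (tv hik b : G) := by
    ext p q
    rw [transpose_apply, tv_apply, tv_apply]
    simp only [eq_comm (a := q), and_comm]
  rw [NoInv.cj, ← e, transpose_transpose, qq, qq, Matrix.SpecialLinearGroup.coe_mul, transpose_mul]
  simp only [Matrix.mul_assoc]

theorem minor_le (h : G) (p m i l : Fin 3) : |h p i * h m l - h m i * h p l| ≤ 6 * nm h⁻¹ := by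
  have h1 := abs_minor_le (ac h (ev i)) (ac h (ev l)) p m
  have h2 := norm_ac_le (dl h) (ev i ⨯₃ ev l)
  have h3 := norm_cross_le (ev i) (ev l)
  rw [norm_ev, norm_ev] at h3
  rw [nm_dl] at h2
  simp only [ac_ev, ac_cross] at h1
  nlinarith [nm_pos h⁻¹]

theorem minor_mul_le (g h : G) (k m i l : Fin 3) :
    |(g * h) k i * h m l - h m i * (g * h) k l| ≤ 18 * nm g * nm h⁻¹ := by
  have b : ∀ p, |g k p * (h p i * h m l - h m i * h p l)| ≤ nm g * (6 * nm h⁻¹) := fun p => by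
    rw [abs_mul]
    exact mul_le_mul (abs_le_nm _ _ _) (minor_le h p m i l) (abs_nonneg _) (nm_pos g).le
  have e : (g * h) k i * h m l - h m i * (g * h) k l =
      g k 0 * (h 0 i * h m l - h m i * h 0 l) + g k 1 * (h 1 i * h m l - h m i * h 1 l) +
        g k 2 * (h 2 i * h m l - h m i * h 2 l) := by
    rw [mul_entry, mul_entry]
    ring
  rw [e]
  linarith [abs_add_three (g k 0 * (h 0 i * h m l - h m i * h 0 l))
    (g k 1 * (h 1 i * h m l - h m i * h 1 l)) (g k 2 * (h 2 i * h m l - h m i * h 2 l)),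
    b 0, b 1, b 2]

theorem cross_mul_le (g h : G) (i : Fin 3) :
    |qq (g * h) i i * trace (qq h) - trace (qq (g * h)) * qq h i i| ≤
      27 * (2 * (nm (g * h) * nm h) * (18 * nm g * nm h⁻¹)) := by
  have e : qq (g * h) i i * trace (qq h) - trace (qq (g * h)) * qq h i i =
      ∑ p : Fin 3 × Fin 3 × Fin 3,
        (((g * h) p.1 i * h p.2.1 p.2.2) ^ 2 - (h p.2.1 i * (g * h) p.1 p.2.2) ^ 2) := by
    simp only [qq_diag, trace_qq, Fintype.sum_prod_type, Fin.sum_univ_three]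
    ring
  rw [e]
  refine (Finset.abs_sum_le_sum_abs _ _).trans ((Finset.sum_le_card_nsmul _ _
    (2 * (nm (g * h) * nm h) * (18 * nm g * nm h⁻¹)) fun p _ => ?_).trans_eq (by simp))
  have h1 := mul_le_mul (abs_le_nm (g * h) p.1 i) (abs_le_nm h p.2.1 p.2.2) (abs_nonneg _)
    (nm_pos _).le
  have h2 := mul_le_mul (abs_le_nm (g * h) p.1 p.2.2) (abs_le_nm h p.2.1 i) (abs_nonneg _)
    (nm_pos _).le
  rw [← abs_mul] at h1 h2
  rw [mul_comm] at h2
  rw [sq_sub_sq, abs_mul]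
  exact mul_le_mul ((abs_add_le _ _).trans (by linarith)) (minor_mul_le g h _ _ _ _)
    (abs_nonneg _) (by have := nm_pos h; have := nm_pos (g * h); positivity)

/-- left multiplication hardly moves the weights of a proximal element -/
theorem abs_wt_sub_le (g h : G) (i : Fin 3) :
    |wt i (qq (g * h)) - wt i (qq h)| ≤ 2916 * nm g * nm g⁻¹ * (nm h⁻¹ / nm h ^ 2) := by
  have p1 := nm_pos h
  have p2 := nm_pos (g * h)
  have p3 := nm_pos g
  have p4 := nm_pos g⁻¹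
  have p5 := nm_pos h⁻¹
  have h1 := nm_mul_le g⁻¹ (g * h)
  rw [inv_mul_cancel_left] at h1
  rw [wt, wt, div_sub_div _ _ (trace_pos _).ne' (trace_pos _).ne', abs_div,
    abs_of_pos (mul_pos (trace_pos _) (trace_pos _))]
  refine (div_le_div₀ (by positivity) (cross_mul_le g h i) (by positivity)
    (mul_le_mul (sq_nm_le (g * h)) (sq_nm_le h) (sq_nonneg _) (trace_pos _).le)).trans ?_
  rw [div_le_iff₀ (by positivity)]
  calc _ = 972 * nm g * nm h⁻¹ * nm (g * h) * nm h := by ring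
    _ ≤ 972 * nm g * nm h⁻¹ * nm (g * h) * (3 * nm g⁻¹ * nm (g * h)) := by gcongr
    _ = _ := by field_simp; ring

/-! ### the cutoff -/

/-- `log (2 nm μ)` -/
noncomputable def la (μ : Γ) : ℝ := Real.log (2 * nm (ι μ))

theorem la_pos (μ : Γ) : 0 < la μ := Real.log_pos (by linarith [one_le_nm μ])

theorem la_sub (μ : Γ) : 2 * la μ - la μ⁻¹ = Real.log (2 * (nm (ι μ) ^ 2 / nm (ι μ)⁻¹)) := by
  have h1 := nm_pos (ι μ)
  have h2 := nm_pos (ι μ)⁻¹
  have e : 2 * (nm (ι μ) ^ 2 / nm (ι μ)⁻¹) = (2 * nm (ι μ)) ^ 2 / (2 * nm (ι μ)⁻¹) := by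
    field_simp
  rw [e, Real.log_div (by positivity) (by positivity), Real.log_pow, la, la, map_inv]
  norm_num

theorem la_inv_le (μ : Γ) : la μ⁻¹ ≤ 2 * la μ := by
  rw [← sub_nonneg, la_sub]
  refine Real.log_nonneg ?_
  rw [← mul_div_assoc, le_div_iff₀ (nm_pos _), one_mul]
  exact nm_inv_le _

theorem la_dl (μ : Γ) : la (dl μ) = la μ⁻¹ := by rw [la, la, ι_dl, nm_dl, map_inv]

theorem tendsto_la : Tendsto (fun μ => la μ + la μ⁻¹) cofinite atTop :=
  tendsto_atTop.2 fun R => eventually_cofinite.2 <| (finite_nm_le (Real.exp R)).subset fun μ h => by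
    have h1 : la μ ≤ R := by linarith [not_le.1 h, la_pos μ⁻¹]
    have h2 := nm_pos (ι μ)
    have h3 := (Real.log_le_iff_le_exp (by positivity)).1 h1
    show nm (ι μ) ≤ _
    linarith

theorem tendsto_div (C : ℝ) : Tendsto (fun μ => C / (la μ + la μ⁻¹)) cofinite (𝓝 0) :=
  tendsto_const_nhds.div_atTop tendsto_la

theorem exists_la_le (ν : Γ) :
    ∃ D, ∀ μ, |la (ν * μ) - la μ| ≤ D ∧ |la (μ * ν) - la μ| ≤ D :=
  ⟨_, fun μ => by
    simp only [la, Real.log_mul two_ne_zero (nm_pos _).ne', add_sub_add_left_eq_sub, map_mul]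
    exact (abs_log_nm_mul_sub_le (ι μ) (ι ν)).symm⟩

/-- the cutoff -/
noncomputable def th (μ : Γ) : ℝ := (2 * la μ - la μ⁻¹) / (la μ + la μ⁻¹)

theorem th_nonneg (μ : Γ) : 0 ≤ th μ :=
  div_nonneg (sub_nonneg.2 (la_inv_le μ)) (add_pos (la_pos _) (la_pos _)).le

theorem th_add (μ : Γ) : th μ + th (dl μ) = 1 := by
  have := add_pos (la_pos μ) (la_pos μ⁻¹)
  rw [th, th, ← map_inv, la_dl, la_dl, inv_inv, add_comm (la μ⁻¹)]
  field_simp
  ring

theorem abs_th_le (μ : Γ) : |th μ| ≤ 1 := by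
  rw [abs_of_nonneg (th_nonneg μ)]
  linarith [th_add μ, th_nonneg (dl μ)]

theorem ratio_le {a c a' c' D : ℝ} (ha : 0 < a) (hc : 0 < c) (ha' : 0 < a') (hc' : 0 < c')
    (h1 : |a' - a| ≤ D) (h2 : |c' - c| ≤ D) :
    |(2 * a' - c') / (a' + c') - (2 * a - c) / (a + c)| ≤ 3 * D / (a + c) := by
  have e : (2 * a' - c') / (a' + c') - (2 * a - c) / (a + c) =
      3 * ((c' * (a' - a) - a' * (c' - c)) / (a' + c')) / (a + c) := by
    field_simp
    ring
  rw [e, abs_div, abs_of_pos (add_pos ha hc), abs_mul, abs_div, abs_of_pos (add_pos ha' hc'),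
    abs_of_pos (by norm_num : (0 : ℝ) < 3)]
  gcongr
  rw [div_le_iff₀ (add_pos ha' hc')]
  refine (abs_sub _ _).trans ?_
  rw [abs_mul, abs_mul, abs_of_pos ha', abs_of_pos hc']
  nlinarith

theorem th_slow {φ : Γ → Γ} {D D' : ℝ} (h1 : ∀ μ, |la (φ μ) - la μ| ≤ D)
    (h2 : ∀ μ, |la (φ μ)⁻¹ - la μ⁻¹| ≤ D') :
    Tendsto (fun μ => th (φ μ) - th μ) cofinite (𝓝 0) :=
  squeeze_zero_norm (fun μ => ratio_le (la_pos _) (la_pos _) (la_pos _) (la_pos _)
    ((h1 μ).trans (le_max_left D D')) ((h2 μ).trans (le_max_right D D'))) (tendsto_div _)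

theorem th_left (ν : Γ) : Tendsto (fun μ => th (ν * μ) - th μ) cofinite (𝓝 0) := by
  obtain ⟨D, hD⟩ := exists_la_le ν
  obtain ⟨D', hD'⟩ := exists_la_le ν⁻¹
  exact th_slow (fun μ => (hD μ).1) fun μ => by rw [_root_.mul_inv_rev]; exact (hD' μ⁻¹).2

theorem th_right (ν : Γ) : Tendsto (fun μ => th (μ * ν) - th μ) cofinite (𝓝 0) := by
  obtain ⟨D, hD⟩ := exists_la_le ν
  obtain ⟨D', hD'⟩ := exists_la_le ν⁻¹
  exact th_slow (fun μ => (hD μ).2) fun μ => by rw [_root_.mul_inv_rev]; exact (hD' μ⁻¹).1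

theorem th_mul_le (μ : Γ) : th μ * (nm (ι μ)⁻¹ / nm (ι μ) ^ 2) ≤ 2 / (la μ + la μ⁻¹) := by
  have h1 := nm_pos (ι μ)
  have h2 := nm_pos (ι μ)⁻¹
  have h3 := add_pos (la_pos μ) (la_pos μ⁻¹)
  rw [th, div_mul_eq_mul_div, la_sub]
  gcongr
  refine (mul_le_mul_of_nonneg_right (Real.log_le_self (by positivity))
    (by positivity)).trans_eq ?_
  field_simp

theorem tendsto_mul_wt {e : Γ → ℝ} (he : Tendsto e cofinite (𝓝 0)) (i : Fin 3) (φ : Γ → G) :
    Tendsto (fun μ => e μ * wt i (qq (φ μ))) cofinite (𝓝 0) :=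
  squeeze_zero_norm (a := fun μ => ‖e μ‖) (fun μ => by
    rw [norm_mul]
    exact mul_le_of_le_one_right (norm_nonneg _) (abs_wt_le i _)) (by simpa using he.norm)

/-- the three pieces of the cutoff -/
noncomputable def fi (i : Fin 3) (μ : Γ) : ℝ := th μ * wt i (qq (ι μ))

theorem fi_left (i : Fin 3) (ν : Γ) :
    Tendsto (fun μ => fi i (ν * μ) - fi i μ) cofinite (𝓝 0) := by
  have h1 := tendsto_mul_wt (th_left ν) i fun μ => ι (ν * μ)
  have h2 : Tendsto (fun μ => th μ * (wt i (qq (ι (ν * μ))) - wt i (qq (ι μ)))) cofinite (𝓝 0) :=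
    squeeze_zero_norm (fun μ => by
      have p1 := nm_pos (ι ν)
      have p2 := nm_pos (ι ν)⁻¹
      rw [norm_mul, Real.norm_of_nonneg (th_nonneg μ), map_mul, mul_div_assoc]
      refine (mul_le_mul_of_nonneg_left (abs_wt_sub_le _ _ i) (th_nonneg μ)).trans ?_
      rw [mul_left_comm]
      exact mul_le_mul_of_nonneg_left (th_mul_le μ) (by positivity))
      (tendsto_div (2916 * nm (ι ν) * nm (ι ν)⁻¹ * 2))
  simpa only [add_zero] using (h1.add h2).congr fun μ => by simp only [fi]; ring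

/-! ### means -/

theorem rb_add {f g : Γ → ℝ} (hf : RB f) (hg : RB g) : RB fun μ => f μ + g μ :=
  hf.elim fun C h => hg.elim fun C' h' =>
    ⟨C + C', fun μ => (abs_add_le _ _).trans (add_le_add (h μ) (h' μ))⟩

theorem rb_sub {f g : Γ → ℝ} (hf : RB f) (hg : RB g) : RB fun μ => f μ - g μ :=
  hf.elim fun C h => hg.elim fun C' h' =>
    ⟨C + C', fun μ => (abs_sub _ _).trans (add_le_add (h μ) (h' μ))⟩

theorem rb_comp {f : Γ → ℝ} (hf : RB f) (φ : Γ → Γ) : RB fun μ => f (φ μ) :=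
  hf.imp fun _ h _ => h _

theorem rb_th : RB th := ⟨1, abs_th_le⟩

theorem rb_th_wt (i : Fin 3) (φ : Γ → G) : RB fun μ => th μ * wt i (qq (φ μ)) :=
  ⟨1, fun μ => by
    rw [abs_mul]
    exact mul_le_one₀ (abs_th_le μ) (abs_nonneg _) (abs_wt_le i _)⟩

theorem rb_fi (i : Fin 3) : RB (fi i) := rb_th_wt i ι

/-- the hypotheses of `NoMeanStmt` -/
structure Mn (m : (Γ → ℝ) → ℝ) : Prop where
  add : ∀ f g, RB f → RB g → m (fun μ => f μ + g μ) = m f + m g
  smul : ∀ (c : ℝ) f, RB f → m (fun μ => c * f μ) = c * m f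
  pos : ∀ f, RB f → (∀ μ, 0 ≤ f μ) → 0 ≤ m f
  zero : ∀ f, Tendsto f cofinite (𝓝 0) → m f = 0
  inv : ∀ f, RB f → (∀ ν, Tendsto (fun μ => f (ν * μ) - f μ) cofinite (𝓝 0)) →
    ∀ ν, m (fun μ => f (μ * ν)) = m f

namespace Mn
variable {m : (Γ → ℝ) → ℝ} (H : Mn m) {f g : Γ → ℝ}
include H

theorem eq_add (hf : RB f) (hg : RB g) : m f = m g + m fun μ => f μ - g μ := by
  rw [← H.add _ _ hg (rb_sub hf hg)]
  simp only [add_sub_cancel]

theorem dual : Mn fun f => m fun μ => f (dl μ) := by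
  have hd : Tendsto (dl : Γ → Γ) cofinite cofinite :=
    (Function.LeftInverse.injective dl_dl).tendsto_cofinite
  refine ⟨fun f g hf hg => H.add _ _ (rb_comp hf _) (rb_comp hg _),
    fun c f hf => H.smul _ _ (rb_comp hf _), fun f hf h => H.pos _ (rb_comp hf _) fun _ => h _,
    fun f h => H.zero _ (h.comp hd), fun f hf h ν => ?_⟩
  have := H.inv (fun μ => f (dl μ)) (rb_comp hf _)
    (fun ν => by simpa only [map_mul, Function.comp_def] using (h (dl ν)).comp hd) (dl ν)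
  simpa only [map_mul, dl_dl] using this

theorem fi_eq (i : Fin 3) (ν : Γ) : m (fi i) = m fun μ => th μ * wt i (qq (ι (μ * ν))) := by
  rw [← H.inv _ (rb_fi i) (fi_left i) ν, H.eq_add (rb_comp (rb_fi i) _)
    (rb_th_wt i fun μ => ι (μ * ν)), H.zero (fun μ => _ - _), add_zero]
  exact (tendsto_mul_wt (th_right ν) i fun μ => ι (μ * ν)).congr fun μ => by simp only [fi]; ring

theorem fi_le (i : Fin 3) : 4 * m (fi i) ≤ 13 / 10 * m th := by
  set u : Fin 4 → Γ → ℝ := fun k μ =>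
    th μ * wt i (qq (ι (μ * tz (succ_ne i).symm (6 * (k : ℕ))))) with hu
  have r : ∀ k, RB (u k) := fun k => rb_th_wt i _
  have e : ∀ k, m (u k) = m (fi i) := fun k => (H.fi_eq i _).symm
  have r4 := rb_add (rb_add (rb_add (r 0) (r 1)) (r 2)) (r 3)
  have r13 : RB fun μ => 13 / 10 * th μ := ⟨13 / 10, fun μ => by
    rw [abs_mul, abs_of_pos (by norm_num : (0 : ℝ) < 13 / 10)]
    exact mul_le_of_le_one_right (by norm_num) (abs_th_le μ)⟩
  have h1 := H.eq_add r13 r4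
  have h2 := H.pos _ (rb_sub r13 r4) fun μ => by
    have h := mul_le_mul_of_nonneg_left (sum_wt_cj_le (qq_psd (ι μ)) i) (th_nonneg μ)
    simp only [← qq_mul_tv, Fin.sum_univ_four] at h
    simp only [hu, map_mul, ι_tz, Int.cast_mul, Int.cast_ofNat, Int.cast_natCast]
    linarith
  rw [H.smul _ _ rb_th, H.add _ _ (rb_add (rb_add (r 0) (r 1)) (r 2)) (r 3),
    H.add _ _ (rb_add (r 0) (r 1)) (r 2), H.add _ _ (r 0) (r 1), e, e, e, e] at h1
  linarith

theorem th_eq : m th = 0 := by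
  have h1 := H.add _ _ (rb_add (rb_fi 0) (rb_fi 1)) (rb_fi 2)
  have h2 : (fun μ => fi 0 μ + fi 1 μ + fi 2 μ) = th := funext fun μ => by
    have := sum_wt (trace_pos (ι μ)).ne'
    rw [Fin.sum_univ_three] at this
    simp only [fi, ← mul_add, this, mul_one]
  rw [h2, H.add _ _ (rb_fi 0) (rb_fi 1)] at h1
  linarith [H.fi_le 0, H.fi_le 1, H.fi_le 2, H.pos _ rb_th th_nonneg]

end Mn

end NM

theorem noMean : NoMeanStmt := fun m h1 h2 h3 h4 h5 => by
  have H : NM.Mn m := ⟨h1, h2, h3, h4, h5⟩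
  have h := H.add _ _ NM.rb_th (NM.rb_comp NM.rb_th dl)
  simp only [NM.th_add] at h
  rw [h, H.th_eq, H.dual.th_eq, add_zero]

end Crest.Agent.N111.Cn
end

-- ▼ part N111/C/Trans

/-!
# Row 111, module C: transport of a setting to `ℓ²(Σ)` and reduction of `ConcStmt` to `CoreStmt`.
-/

set_option autoImplicit false

namespace Crest.Agent.N111.Cn

open MeasureTheory Topology Filter ContinuousLinearMap
open scoped InnerProductSpace ComplexConjugate
open Crest.OperatorAlgebra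

namespace Tr

section J
variable {κ H : Type} [Fintype κ] [DecidableEq κ] [NormedAddCommGroup H] [InnerProductSpace ℂ H]
  [CompleteSpace H] (S : Setting κ H)

theorem pars' (η : H) : HasSum (fun g : κ → Γ => ‖⟪S.R g⁻¹ S.ξ, η⟫_ℂ‖ ^ 2) (‖η‖ ^ 2) :=
  (Equiv.inv (κ → Γ)).hasSum_iff.2 (S.pars η)

theorem exists_J : ∃ J : H →L[ℂ] Ell2 (κ → Γ), ∀ η g, J η g = ⟪S.R g⁻¹ S.ξ, η⟫_ℂ := by
  refine B.exists_rows (fun g : κ → Γ => innerSL ℂ (S.R g⁻¹ S.ξ)) (C := 1) fun η F => ?_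
  simpa using sum_le_hasSum F (fun _ _ => sq_nonneg _) (pars' S η)

/-- the analysis operator of the frame -/
noncomputable def J : H →L[ℂ] Ell2 (κ → Γ) := (exists_J S).choose

theorem J_apply (η : H) (g : κ → Γ) : J S η g = ⟪S.R g⁻¹ S.ξ, η⟫_ℂ := (exists_J S).choose_spec η g

theorem norm_J (η : H) : ‖J S η‖ = ‖η‖ := by
  have h := hasSum_normSq (J S η)
  simp only [J_apply] at h
  exact (sq_eq_sq₀ (norm_nonneg _) (norm_nonneg _)).1 (h.unique (pars' S η))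

theorem adj_J (η : H) : adjoint (J S) (J S η) = η :=
  ext_inner_left ℂ fun v => by
    rw [adjoint_inner_right]
    exact LinearIsometry.inner_map_map
      (⟨(J S : H →ₗ[ℂ] Ell2 (κ → Γ)), norm_J S⟩ : H →ₗᵢ[ℂ] Ell2 (κ → Γ)) v η

theorem J_R (h : κ → Γ) (η : H) : J S (S.R h η) = rho (κ → Γ) h (J S η) :=
  l2_ext fun g => by rw [rho_apply, J_apply, J_apply, S.R.inner_right, ← S.R.mul_apply, mul_inv_rev]

theorem adj_rho (h : κ → Γ) (ζ : Ell2 (κ → Γ)) :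
    adjoint (J S) (rho (κ → Γ) h ζ) = S.R h (adjoint (J S) ζ) :=
  ext_inner_left ℂ fun v => by
    rw [adjoint_inner_right, URep.inner_right, ← J_R, S.R.inner_right, adjoint_inner_right]

theorem adj_dt : adjoint (J S) (dt 1) = S.ξ :=
  ext_inner_right ℂ fun v => by rw [adjoint_inner_left, inner_dt, J_apply]; simp

/-- the transported unitaries -/
noncomputable def w (γ : Γ) : Op (κ → Γ) := J S ∘L S.π γ ∘L adjoint (J S)

theorem w_apply (γ : Γ) (ζ : Ell2 (κ → Γ)) : w S γ ζ = J S (S.π γ (adjoint (J S) ζ)) := rfl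

theorem w_dt (γ : Γ) : w S γ (dt 1) = J S (S.π γ S.ξ) := by rw [w_apply, adj_dt]

/-- compression -/
noncomputable def cp : Op (κ → Γ) →ₗ[ℂ] (H →L[ℂ] H) where
  toFun T := adjoint (J S) ∘L T ∘L J S
  map_add' _ _ := by ext; simp
  map_smul' _ _ := by ext; simp

theorem cp_apply (T : Op (κ → Γ)) (η : H) : cp S T η = adjoint (J S) (T (J S η)) := rfl

theorem cp_π {T : Op (κ → Γ)} {γ : Γ} (h : Commute T (w S γ)) : Commute (cp S T) (S.π γ) := by
  ext η
  have := congrArg (fun A : Op (κ → Γ) => adjoint (J S) (A (J S η))) h.eq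
  simpa only [mul_apply_eq_comp, w_apply, adj_J, cp_apply] using this

theorem cp_R {T : Op (κ → Γ)} {g : κ → Γ} (h : Commute T (rho (κ → Γ) g)) :
    Commute (cp S T) (S.R g) := by
  ext η
  have := congrArg (fun A : Op (κ → Γ) => adjoint (J S) (A (J S η))) h.eq
  simpa only [mul_apply_eq_comp, adj_rho, J_R, cp_apply] using this

theorem w_mem (γ : Γ) : w S γ ∈ LA (κ → Γ) := URep.mem_comm.2 fun g => by
  ext1 ζ
  have := congrArg (fun A : H →L[ℂ] H => J S (A (adjoint (J S) ζ))) (S.comm γ g).eq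
  simpa only [mul_apply_eq_comp, w_apply, adj_rho, J_R] using this.symm

/-- the transported setting -/
noncomputable def lset : LSet κ where
  w := w S
  mem := w_mem S
  mul γ γ' := by ext1 ζ; simp only [mul_apply_eq_comp, w_apply, adj_J, URep.mul_apply]
  star γ := by
    rw [star_eq_adjoint, w, adjoint_comp, adjoint_comp, adjoint_adjoint, ← star_eq_adjoint,
      URep.star_apply]
    rfl
  ne := by
    rw [w_dt, ← norm_ne_zero_iff, norm_J, URep.norm_map, norm_ne_zero_iff]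
    exact S.ξ_ne
  erg Z hZ h := by
    obtain ⟨L, hL⟩ := S.erg
    have hT : cp S Z ∈ Set.centralizer (Set.range S.R) := by
      rintro _ ⟨g, rfl⟩
      exact (cp_R S (URep.mem_comm.1 hZ g).symm).eq.symm
    obtain ⟨c, hc⟩ := hL.erg (cp S Z S.ξ) fun γ => by
      have e1 := congrArg (fun A : H →L[ℂ] H => A S.ξ) (cp_π S (h γ)).eq
      have e2 := congrArg (fun A : H →L[ℂ] H => A (S.π γ S.ξ)) (hL.L_mem γ _ hT)
      simp only [mul_apply_eq_comp] at e1 e2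
      rw [← e1, ← e2, hL.L_Ω]
    refine ⟨c, LA_ext (mul_mem (w_mem S 1) hZ) (SMulMemClass.smul_mem _ (w_mem S 1)) ?_⟩
    have e := congrArg (fun A : Op (κ → Γ) => J S (adjoint (J S) (A (dt 1)))) (h 1).eq
    simp only [mul_apply_eq_comp, w_apply, adj_J, adj_dt, map_one, one_apply_eq_self] at e
    simp only [mul_apply_eq_comp, w_apply, adj_dt, map_one, one_apply_eq_self, smul_apply]
    rw [← e, ← cp_apply, hc, map_smul]
  tr i := by
    obtain ⟨ω, h1, h2, h3⟩ := S.tr i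
    refine ⟨ω ∘ₗ cp S, ?_, fun T => ?_, fun T hT => h2 _ ?_, fun T hw hr ν => ?_⟩
    · rw [LinearMap.comp_apply, ← h1]
      congr 1
      ext η
      simp only [cp_apply, w_apply, adj_J, map_one, one_apply_eq_self]
    · simp only [LinearMap.comp_apply]
      congr 1
      ext η
      simp only [cp_apply, mul_apply_eq_comp, w_apply, adj_J, map_one, one_apply_eq_self]
    · exact (nonneg_iff_isPositive _).2 (((nonneg_iff_isPositive _).1 hT).adjoint_conj (J S))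
    · simp only [LinearMap.comp_apply]
      rw [← h3 (cp S T) (fun γ => cp_π S (hw γ)) (fun g hg => cp_R S (hr g hg)) ν]
      congr 1
      ext η
      simp only [cp_apply, mul_apply_eq_comp, adj_rho, J_R]

end J

section Mul
variable {K : Type}

theorem hasSum_inner_mulOp {Φ : K → ℂ} (h : Bdd Φ) (y : Ell2 K) :
    HasSum (fun g => (‖y g‖ ^ 2 : ℝ) • Φ g) ⟪y, mulOp Φ y⟫_ℂ := by
  refine (hasSum_inner y (mulOp Φ y)).congr_fun fun g => ?_
  rw [h.mulOp_apply, mul_left_comm, Complex.conj_mul', Complex.real_smul, mul_comm]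
  push_cast
  rfl

theorem bdd_real {f : K → ℝ} {C : ℝ} (h : ∀ g, |f g| ≤ C) : Bdd fun g => (f g : ℂ) :=
  ⟨C, fun g => by simpa using h g⟩

theorem hasSum_re_mulOp {f : K → ℝ} {C : ℝ} (h : ∀ g, |f g| ≤ C) (y : Ell2 K) :
    HasSum (fun g => (‖y g‖ ^ 2 : ℝ) • f g) (⟪y, mulOp (fun g => (f g : ℂ)) y⟫_ℂ).re := by
  refine (Complex.hasSum_re (hasSum_inner_mulOp (bdd_real h) y)).congr_fun fun g => ?_
  rw [Complex.smul_re, Complex.ofReal_re]

theorem hasSum_norm_mulOp {Φ : K → ℂ} (h : Bdd Φ) (y : Ell2 K) :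
    HasSum (fun g => (‖y g‖ ^ 2 : ℝ) • ‖Φ g‖ ^ 2) (‖mulOp Φ y‖ ^ 2) := by
  refine (hasSum_normSq (mulOp Φ y)).congr_fun fun g => ?_
  rw [h.mulOp_apply, norm_mul, mul_pow, smul_eq_mul, mul_comm]

end Mul

theorem summable_mul {K : Type} {p f : K → ℝ} {C : ℝ} (hp : Summable p) (h0 : ∀ g, 0 ≤ p g)
    (h : ∀ g, |f g| ≤ C) : Summable fun g => p g * f g :=
  (hp.mul_right C).of_norm_bounded fun g => by
    rw [Real.norm_eq_abs, abs_mul, abs_of_nonneg (h0 g)]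
    exact mul_le_mul_of_nonneg_left (h g) (h0 g)

theorem hasSum_pos {κ H : Type} [Fintype κ] [DecidableEq κ] [NormedAddCommGroup H]
    [InnerProductSpace ℂ H] [CompleteSpace H] {S : Setting κ H} {i : κ} {j₀ : H →L[ℂ] H}
    (hj : S.IsJ i j₀) {F : Γ → ℝ} {C : ℝ} (hF : ∀ ν, |F ν| ≤ C) (v : H) :
    HasSum (fun ν => F ν * ‖j₀ (S.R (B.ms i ν⁻¹) v)‖ ^ 2)
      (⟪J S v, mulOp (fun g => (F (g i)⁻¹ : ℂ)) (J S v)⟫_ℂ).re := by
  have h := hasSum_re_mulOp (f := fun g : κ → Γ => F (g i)⁻¹) (fun g => hF _) (J S v)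
  rw [← (Equiv.inv (κ → Γ)).hasSum_iff, ← (B.split i).hasSum_iff] at h
  refine h.prod_fiberwise fun ν => ?_
  have := (hj.2 (S.R (B.ms i ν⁻¹) v)).mul_left (F ν)
  simp only [B.ms_inv, ← URep.inner_left, ← URep.mul_apply] at this ⊢
  refine this.congr_fun fun g => ?_
  simp [J_apply, B.split, g.2, mul_comm]

end Tr

open Tr

theorem trans : TransStmt := by
  intro κ H _ _ _ _ _ S
  refine ⟨lset S, (congrArg norm (w_dt S 1)).trans (by rw [norm_J, URep.norm_map]),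
    fun i j₀ I hI => ⟨by rw [hI.ξ, norm_cst], fun k F ⟨C, hF⟩ => ?_⟩⟩
  have hae : ∀ ν, ∀ᵐ x ∂μ, I.j (I.ρ ν⁻¹ (I.U (al k) I.ξ)) x =
      j₀ (S.R (B.ms i ν⁻¹) (S.π (coc (al k)⁻¹ x)⁻¹ S.ξ)) := fun ν => by
    rw [hI.j, hI.ρ, hI.U, hI.ξ]
    filter_upwards [amp_coeFn j₀ (amp (S.R (B.ms i ν⁻¹)) (ind S.π (al k) (cst H S.ξ))),
      amp_coeFn (S.R (B.ms i ν⁻¹)) (ind S.π (al k) (cst H S.ξ)),
      ind_cst_coeFn S.π (al k) S.ξ] with x h1 h2 h3
    rw [h1, h2, h3]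
  have hall := ae_all_iff.2 hae
  refine HasSum.tsum_eq ?_
  simp only [norm_sq_eq_integral, ← integral_const_mul]
  refine hasSum_integral_of_dominated_convergence
    (fun ν x => C * ‖I.j (I.ρ ν⁻¹ (I.U (al k) I.ξ)) x‖ ^ 2)
    (fun ν => ((integrable_norm_sq _).const_mul _).aestronglyMeasurable)
    (fun ν => .of_forall fun x => ?_) (hall.mono fun x hx => ?_)
    ((integrable_const (C * ‖S.ξ‖ ^ 2)).congr (hall.mono fun x hx => ?_)) (hall.mono fun x hx => ?_)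
  · rw [Real.norm_eq_abs, abs_mul, abs_sq]
    exact mul_le_mul_of_nonneg_right (hF ν) (sq_nonneg _)
  · simp only [hx]
    exact (B.J_pars hI.hj _).summable.mul_left C
  · simp only [hx]
    rw [((B.J_pars hI.hj _).mul_left C).tsum_eq, URep.norm_map]
  · simp only [hx]
    have := hasSum_pos hI.hj hF (S.π (coc (al k)⁻¹ x)⁻¹ S.ξ)
    rwa [← w_dt] at this

namespace Tr

theorem norm_w {κ : Type} [Fintype κ] [DecidableEq κ] (L : LSet κ) (γ : Γ) :
    ‖L.w γ (dt 1)‖ ^ 2 = ‖L.w 1 (dt 1)‖ ^ 2 := by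
  have h : ∀ γ, ((‖L.w γ (dt 1)‖ ^ 2 : ℝ) : ℂ) = tau (L.w 1) := fun γ => by
    rw [← tau_star_mul_self, L.star, ← L.mul, inv_mul_cancel]
  exact_mod_cast (h γ).trans (h 1).symm

/-- integration of weighted sums over a countable family of vectors -/
theorem hasSum_int {K E : Type} [Countable K] [NormedAddCommGroup E] [NormedSpace ℝ E]
    [CompleteSpace E] {c : X → Γ} (hc : Measurable c) {y : Γ → Ell2 K} {T : ℝ}
    (hy : ∀ γ, ‖y γ‖ ^ 2 = T) {φ : K → E} {C : ℝ} (hφ : ∀ g, ‖φ g‖ ≤ C) {Ψ : X → E}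
    (h : ∀ x, HasSum (fun g => (‖y (c x) g‖ ^ 2 : ℝ) • φ g) (Ψ x)) :
    HasSum (fun g => (∫ x, ‖y (c x) g‖ ^ 2 ∂μ) • φ g) (∫ x, Ψ x ∂μ) := by
  simp only [← integral_smul_const]
  refine hasSum_integral_of_dominated_convergence (fun g x => ‖y (c x) g‖ ^ 2 * C)
    (fun g => (((measurable_of_countable fun γ => ‖y γ g‖ ^ 2).comp hc).aestronglyMeasurable).smul_const
      _) (fun g => .of_forall fun x => ?_)
    (.of_forall fun x => (hasSum_normSq _).summable.mul_right C)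
    ((integrable_const (T * C)).congr (.of_forall fun x => ?_)) (.of_forall h)
  · rw [norm_smul, Real.norm_of_nonneg (sq_nonneg _)]
    exact mul_le_mul_of_nonneg_left (hφ g) (sq_nonneg _)
  · simp only
    rw [((hasSum_normSq _).mul_right C).tsum_eq, hy]

/-- the variance is the minimal mean square deviation -/
theorem var_le {K : Type} {p f : K → ℝ} {T A1 A2 : ℝ} (hT : 0 < T) (h0 : ∀ g, 0 ≤ p g)
    (hp : HasSum p T) (h1 : HasSum (fun g => p g * f g) A1)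
    (h2 : HasSum (fun g => p g * f g ^ 2) A2) :
    0 ≤ T * A2 - A1 ^ 2 ∧ ∀ m B, HasSum (fun g => p g * (f g - m) ^ 2) B →
      T * A2 - A1 ^ 2 ≤ T * B := by
  have key : ∀ m, HasSum (fun g => p g * (f g - m) ^ 2) (A2 - 2 * m * A1 + m ^ 2 * T) := fun m =>
    ((h2.sub (h1.mul_left (2 * m))).add (hp.mul_left (m ^ 2))).congr_fun fun g => by ring
  refine ⟨?_, fun m B hB => ?_⟩
  · have h := (key (A1 / T)).nonneg fun g => mul_nonneg (h0 g) (sq_nonneg _)
    have e : T * (A2 - 2 * (A1 / T) * A1 + (A1 / T) ^ 2 * T) = T * A2 - A1 ^ 2 := by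
      field_simp; ring
    rw [← e]; positivity
  · rw [hB.unique (key m)]
    nlinarith [sq_nonneg (A1 - m * T)]

/-- a proper length function on `Σ` -/
noncomputable def len {κ : Type} [Fintype κ] (g : κ → Γ) : ℝ := ∑ j, Real.log (nm (ι (g j)))

theorem finite_len {κ : Type} [Fintype κ] (R : ℝ) : {g : κ → Γ | len g ≤ R}.Finite := by
  refine (Set.Finite.pi' fun _ : κ => finite_nm_le (Real.exp R)).subset fun g hg j => ?_
  refine (Real.log_le_iff_le_exp (nm_pos _)).1 (le_trans ?_ hg)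
  exact Finset.single_le_sum (f := fun j => Real.log (nm (ι (g j))))
    (fun j _ => Real.log_nonneg (one_le_nm _)) (Finset.mem_univ j)

theorem exists_len {κ : Type} [Fintype κ] (s : κ → Γ) :
    ∃ c, ∀ g, |len (s * g) - len g| ≤ c ∧ |len (g * s) - len g| ≤ c := by
  refine ⟨∑ j, Real.log (3 * max (nm (ι (s j))) (nm (ι (s j))⁻¹)), fun g => ?_⟩
  simp only [len, ← Finset.sum_sub_distrib, Pi.mul_apply, map_mul]
  exact ⟨(Finset.abs_sum_le_sum_abs _ _).trans (Finset.sum_le_sum fun j _ =>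
    (abs_log_nm_mul_sub_le _ _).2), (Finset.abs_sum_le_sum_abs _ _).trans
      (Finset.sum_le_sum fun j _ => (abs_log_nm_mul_sub_le _ _).1)⟩

theorem abs_clamp (a b : ℝ) : |max 0 (min 1 a) - max 0 (min 1 b)| ≤ |a - b| := by
  refine (abs_max_sub_max_le_max _ _ _ _).trans (max_le (by simp) ?_)
  exact (abs_min_sub_min_le_max _ _ _ _).trans (max_le (by simp) le_rfl)

/-- slowly varying finitely supported cutoffs carrying almost all the mass -/
theorem exists_cut {κ : Type} [Fintype κ] {p : ℕ → (κ → Γ) → ℝ} {T : ℝ} (h0 : ∀ n g, 0 ≤ p n g)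
    (hp : ∀ n, HasSum (p n) T) : ∃ χ : ℕ → (κ → Γ) → ℝ, (∀ n g, χ n g ∈ Set.Icc (0 : ℝ) 1) ∧
      (∀ n, {g | χ n g ≠ 0}.Finite) ∧ (∀ s, ∀ ε > 0, ∀ᶠ n in atTop, ∀ g,
        |χ n (s * g) - χ n g| ≤ ε ∧ |χ n (g * s) - χ n g| ≤ ε) ∧
      ∀ n, T - ∑' g, p n g * χ n g ≤ 1 / ((n : ℝ) + 1) := by
  have h1 : ∀ n : ℕ, ∃ R, ∀ χ : (κ → Γ) → ℝ, (∀ g, χ g ∈ Set.Icc (0 : ℝ) 1) →
      (∀ g, len g ≤ R → χ g = 1) → T - ∑' g, p n g * χ g ≤ 1 / ((n : ℝ) + 1) := fun n => by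
    obtain ⟨A, hA⟩ := ((tendsto_order.1 (hp n)).1 (T - 1 / ((n : ℝ) + 1))
      (by linarith [Nat.one_div_pos_of_nat (α := ℝ) (n := n)])).exists
    obtain ⟨R, hR⟩ := (A.finite_toSet.image len).bddAbove
    refine ⟨R, fun χ hχ h => ?_⟩
    have := (summable_mul (hp n).summable (h0 n) (C := 1) fun g =>
      abs_le.2 ⟨by linarith [(hχ g).1], (hχ g).2⟩).sum_le_tsum A
      fun g _ => mul_nonneg (h0 n g) (hχ g).1
    rw [Finset.sum_congr rfl fun g hg => by rw [h g (hR ⟨g, hg, rfl⟩), mul_one]] at this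
    linarith
  choose R hR using h1
  have hI : ∀ a : ℝ, max 0 (min 1 a) ∈ Set.Icc (0 : ℝ) 1 := fun a =>
    ⟨le_max_left _ _, max_le zero_le_one (min_le_left _ _)⟩
  refine ⟨fun n g => max 0 (min 1 ((R n + (n + 1) - len g) / (n + 1))), fun n g => hI _,
    fun n => (finite_len (R n + (n + 1))).subset fun g hg => ?_, fun s ε hε => ?_,
    fun n => hR n _ (fun g => hI _) fun g hg => ?_⟩
  · by_contra hc
    refine hg (max_eq_left (min_le_of_right_le (div_nonpos_of_nonpos_of_nonneg ?_ (by positivity))))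
    replace hc : R n + (n + 1) < len g := not_le.1 hc
    linarith
  · obtain ⟨c, hc⟩ := exists_len s
    filter_upwards [tendsto_natCast_atTop_atTop.eventually_ge_atTop (c / ε)] with n hn g
    have key : ∀ g' : κ → Γ, |len g' - len g| ≤ c → |max 0 (min 1 ((R n + (n + 1) - len g') / (n + 1))) -
        max 0 (min 1 ((R n + (n + 1) - len g) / (n + 1)))| ≤ ε := fun g' h => by
      refine (abs_clamp _ _).trans ?_
      rw [← sub_div, abs_div, sub_sub_sub_cancel_left, abs_sub_comm,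
        abs_of_pos (by positivity : (0 : ℝ) < n + 1), div_le_iff₀ (by positivity)]
      rw [div_le_iff₀ hε] at hn
      nlinarith
    exact ⟨key _ (hc g).1, key _ (hc g).2⟩
  · have : 1 ≤ (R n + (n + 1) - len g) / (n + 1) := (le_div_iff₀ (by positivity)).2 (by linarith)
    simp only [min_eq_left this, max_eq_right zero_le_one]

theorem commH_al (s : ℝ) : CommH (al s)⁻¹ := fun b => by
  have key : ∀ {i j : Fin 3} (h : i ≠ j), dgl (-2 * s) s i = dgl (-2 * s) s j →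
      Commute (al s)⁻¹ (tv h b) := fun h e => by
    refine Commute.inv_left (mul_inv_eq_iff_eq_mul.1 ?_)
    rw [al, dg_conj_tv, e, sub_self, Real.exp_zero, one_mul]
  exact ⟨key _ (by simp [dgl]; ring), key _ (by simp [dgl]; ring)⟩

end Tr

theorem conc_of (hC : CoreStmt) (hT : TransStmt) : ConcStmt := by
  intro κ H _ _ _ _ _ S i j₀ I hI k F hF hs
  obtain ⟨L, hL, hL'⟩ := hT κ H S
  obtain ⟨hξ, hms⟩ := hL' i j₀ I hI
  set T := ‖L.w 1 (dt 1)‖ ^ 2 with hTdef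
  have hT0 : 0 < T := pow_pos (norm_pos_iff.2 L.ne) 2
  have hc : ∀ n, Measurable fun x => (coc (al (k n))⁻¹ x)⁻¹ := fun n =>
    (measurable_coc measurable_const measurable_id).inv
  set p : ℕ → (κ → Γ) → ℝ := fun n g => ∫ x, ‖L.w (coc (al (k n))⁻¹ x)⁻¹ (dt 1) g‖ ^ 2 ∂μ
  have h0 : ∀ n g, 0 ≤ p n g := fun n g => integral_nonneg fun x => sq_nonneg _
  have hp : ∀ n, HasSum (p n) T := fun n => by
    simpa using hasSum_int (hc n) (norm_w L) (φ := fun _ => (1 : ℝ)) (C := 1) (by simp)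
      (Ψ := fun _ => T) fun x => by
        simpa only [smul_eq_mul, mul_one, norm_w L] using hasSum_normSq (L.w _ (dt 1))
  have hm : ∀ n (F : Γ → ℝ), (∀ ν, |F ν| ≤ 1) →
      HasSum (fun g => p n g * F (g i)⁻¹) (I.ms (k n) F) := fun n F hF => by
    rw [hms _ _ ⟨1, hF⟩]
    exact hasSum_int (hc n) (norm_w L) (φ := fun g => F (g i)⁻¹) (fun g => hF _)
      fun x => hasSum_re_mulOp (fun g => hF _) _
  obtain ⟨χ, hχ, hfin, hsl, hmass⟩ := exists_cut h0 hp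
  have ab : ∀ {t : ℝ}, t ∈ Set.Icc (0 : ℝ) 1 → |t| ≤ 1 := fun h => abs_le.2 ⟨by linarith [h.1], h.2⟩
  have hfχ : ∀ n g, F n (g i)⁻¹ * χ n g ∈ Set.Icc (0 : ℝ) 1 := fun n g =>
    ⟨mul_nonneg (hF n _).1 (hχ n g).1, mul_le_one₀ (hF n _).2 (hχ n g).1 (hχ n g).2⟩
  have sm : ∀ n {f : (κ → Γ) → ℝ}, (∀ g, |f g| ≤ 1) → Summable fun g => p n g * f g :=
    fun n _ h => summable_mul (hp n).summable (h0 n) h
  set m : ℕ → ℝ := fun n => (∑' g, p n g * (F n (g i)⁻¹ * χ n g)) / T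
  have hm1 : ∀ n, m n ∈ Set.Icc (0 : ℝ) 1 := fun n =>
    ⟨div_nonneg (tsum_nonneg fun g => mul_nonneg (h0 n g) (hfχ n g).1) hT0.le,
      (div_le_one hT0).2 (hasSum_le (fun g => mul_le_of_le_one_right (h0 n g) (hfχ n g).2)
        (sm n fun g => ab (hfχ n g)).hasSum (hp n))⟩
  set Φ : ℕ → (κ → Γ) → ℝ := fun n g => F n (g i)⁻¹ * χ n g - m n
  have hΦ : ∀ n g, |Φ n g| ≤ 1 := fun n g =>
    abs_le.2 ⟨by linarith [(hfχ n g).1, (hm1 n).2], by linarith [(hfχ n g).2, (hm1 n).1]⟩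
  have hΦ' : ∀ n g, ‖(Φ n g : ℂ)‖ ≤ 1 := fun n g => by simpa using hΦ n g
  have core := hC κ L (fun n => (al (k n))⁻¹) (fun n g => Φ n g) (fun n => commH_al _) hΦ'
    (fun s ε hε => ?_) (fun n => ⟨(-m n : ℝ), (hfin n).subset fun g hg h => hg ?_⟩) fun n => ?_
  · have h2 : ∀ n, HasSum (fun g => p n g * Φ n g ^ 2) (∫ x, ‖mulOp (fun g => (Φ n g : ℂ))
        (L.w (coc (al (k n))⁻¹ x)⁻¹ (dt 1))‖ ^ 2 ∂μ) := fun n => by
      simpa using hasSum_int (hc n) (norm_w L) (φ := fun g => ‖(Φ n g : ℂ)‖ ^ 2) (C := 1)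
        (fun g => by simpa using hΦ n g) fun x => hasSum_norm_mulOp ⟨1, hΦ' n⟩ _
    have hv := fun n => var_le hT0 (h0 n) (hp n) (hm n (F n) fun ν => ab (hF n ν))
      (hm n (fun ν => F n ν ^ 2) fun ν => by simpa using ab (hF n ν))
    rw [hξ, ← hL]
    refine squeeze_zero (fun n => (hv n).1) (fun n => ?_) (by simpa using
      (((core.const_mul 2).add (tendsto_one_div_add_atTop_nhds_zero_nat.const_mul 2)).const_mul T))
    have s1 := (sm n (f := fun g => (F n (g i)⁻¹ - m n) ^ 2) fun g => by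
      simpa using abs_le.2 ⟨by linarith [(hF n (g i)⁻¹).1, (hm1 n).2],
        by linarith [(hF n (g i)⁻¹).2, (hm1 n).1]⟩).hasSum
    refine ((hv n).2 _ _ s1).trans (mul_le_mul_of_nonneg_left ?_ hT0.le)
    have s2 := hasSum_le (fun g => ?_) s1 (((h2 n).mul_left 2).add
      (((hp n).sub (sm n fun g => ab (hχ n g)).hasSum).mul_left 2))
    · have := hmass n
      rw [one_div] at this
      linarith
    · have a1 := hF n (g i)⁻¹
      have a2 := hχ n g
      have a3 : (F n (g i)⁻¹ * (1 - χ n g)) ^ 2 ≤ 1 - χ n g := by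
        have b1 : F n (g i)⁻¹ * (1 - χ n g) ≤ 1 - χ n g :=
          mul_le_of_le_one_left (by linarith [a2.2]) a1.2
        have b2 : 0 ≤ F n (g i)⁻¹ * (1 - χ n g) := mul_nonneg a1.1 (by linarith [a2.2])
        nlinarith [a2.1]
      have a4 : (F n (g i)⁻¹ - m n) ^ 2 ≤ 2 * Φ n g ^ 2 + 2 * (1 - χ n g) := by
        simp only [Φ]
        nlinarith [sq_nonneg (F n (g i)⁻¹ * χ n g - m n - F n (g i)⁻¹ * (1 - χ n g))]
      nlinarith [h0 n g]
  · filter_upwards [hs (s i)⁻¹ (ε / 2) (half_pos hε), hsl s (ε / 2) (half_pos hε)] with n h1 h2 g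
    have key : ∀ g', |F n (g' i)⁻¹ - F n (g i)⁻¹| ≤ ε / 2 → |χ n g' - χ n g| ≤ ε / 2 →
        ‖(Φ n g' : ℂ) - Φ n g‖ ≤ ε := fun g' q1 q2 => by
      rw [← Complex.ofReal_sub, Complex.norm_real, Real.norm_eq_abs]
      have e : Φ n g' - Φ n g =
          (F n (g' i)⁻¹ - F n (g i)⁻¹) * χ n g' + F n (g i)⁻¹ * (χ n g' - χ n g) := by
        simp only [Φ]; ring
      rw [e]
      refine (abs_add_le _ _).trans ?_
      rw [abs_mul, abs_mul]
      nlinarith [ab (hχ n g'), ab (hF n (g i)⁻¹), abs_nonneg (F n (g' i)⁻¹ - F n (g i)⁻¹),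
        abs_nonneg (χ n g' - χ n g)]
    exact ⟨key _ (by simpa using (h1 _).2) (h2 g).1, key _ (by simpa using (h1 _).1) (h2 g).2⟩
  · simp [Φ, h]
  · have h1 := hasSum_int (hc n) (norm_w L) (hΦ' n) fun x => hasSum_inner_mulOp ⟨1, hΦ' n⟩
      (L.w (coc (al (k n))⁻¹ x)⁻¹ (dt 1))
    have h2 : HasSum (fun g => p n g * Φ n g) 0 := by
      have := (sm n fun g => ab (hfχ n g)).hasSum.sub ((hp n).mul_right (m n))
      rw [mul_div_cancel₀ _ hT0.ne', sub_self] at this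
      exact this.congr_fun fun g => by simp only [Φ]; ring
    refine h1.unique ?_
    simpa using Complex.hasSum_ofReal.2 h2

end Crest.Agent.N111.Cn
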